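import Vale.Agent.P092WN.Defs
import Mathlib.Analysis.InnerProductSpace.Adjoint
import Mathlib.MeasureTheory.Integral.Bochner.Set
import Mathlib.Analysis.SpecialFunctions.Sqrt

/-!
P092 (helper21), block B4 (near wall rate): definitions. Everything lives on the two-sided system
`Sys` of block B6.
-/

set_option linter.all false

open Filter Topology MeasureTheory ContinuousLinearMap
open scoped InnerProductSpace

namespace Vale.Agent.P092NW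

open Vale.Agent.P092WN

variable {G Γ H H₀ : Type} [Group G] [Group Γ] [NormedAddCommGroup H] [InnerProductSpace ℂ H]
  [CompleteSpace H] [NormedAddCommGroup H₀] [InnerProductSpace ℂ H₀]

/-- Further algebraic properties of the two-sided system. -/
structure Ex (S : Sys G Γ H H₀) : Prop where
  m_mul : ∀ f g, Bd f → Bd g → ∀ v, S.m (fun γ => f γ * g γ) v = S.m f (S.m g v)
  ζ_one : ∀ g, ‖S.ζ g‖ = 1
  am_nonneg : ∀ v A, S.Am v A → 0 ≤ A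
  L_mul : ∀ h h' v, S.L h (S.L h' v) = S.L (h * h') v
  R_mul : ∀ g s s' v, S.R (g * s) s' (S.R g s v) = S.R g (s * s') v
  L_adj : ∀ h v w, ⟪S.L h v, w⟫_ℂ = ⟪v, S.L h⁻¹ w⟫_ℂ
  L_ct : ∀ h, S.Ct (S.L h)
  R_ct : ∀ g s, S.Ct (S.R g s)
  lf_zero : ∀ h, S.Lf h 0
  lf_add : ∀ h a a', S.Lf h a → S.Lf h a' → S.Lf h (a + a')
  lf_mul : ∀ h h' a a', S.Lf h a → S.Lf h' a' → S.Lf (h * h') (a * a')
  lf_adj : ∀ h a, S.Lf h a → S.Ct a → S.Ct (adjoint a)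
  rt_zero : S.Rt fun _ => 0
  rt_one : S.Rt fun _ => 1
  rt_add : ∀ b b', S.Rt b → S.Rt b' → S.Rt fun g => b g + b' g
  rt_mul : ∀ b b', S.Rt b → S.Rt b' → S.Rt fun g => b g * b' g
  rt_shift : ∀ b s, S.Rt b → S.Rt fun g => b (g * s)
  rt_star : ∀ b, S.Rt b → S.Rt fun g => adjoint (b g)
  rt_adj : ∀ b g, S.Rt b → S.Ct (b g) → S.Ct (adjoint (b g))

/-- the position projections -/
noncomputable def Pr (S : Sys G Γ H H₀) (E : Set Γ) : H →L[ℂ] H := S.m (E.indicator 1)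

/-- homogeneous left contractions, of degree `h` in the source and `s` in the target -/
structure Hl (S : Sys G Γ H H₀) (h : G) (a : H →L[ℂ] H) (s : Γ) : Prop where
  lf : S.Lf h a
  ct : S.Ct a
  hom : ∀ f, Bd f → ∀ v, S.m f (a v) = a (S.m (fun γ => f (s * γ)) v)

/-- homogeneous right contractions of degree `t` in the target -/
structure Hm (S : Sys G Γ H H₀) (b : G → H →L[ℂ] H) (t : Γ) : Prop where
  rt : S.Rt b
  ct : ∀ g, S.Ct (b g)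
  hom : ∀ g f, Bd f → ∀ v, S.m f (b g v) = b g (S.m (fun γ => f (γ * t)) v)

/-- A banded approximant of `L h` with at most `N` homogeneous pieces. -/
structure LB (S : Sys G Γ H H₀) (len : Γ → ℝ) (h : G) (J N ε : ℝ) where
  /-- the index set -/
  ι : Type
  [fin : Fintype ι]
  /-- the degrees -/
  deg : ι → Γ
  /-- the pieces -/
  l : ι → H →L[ℂ] H
  card : (Fintype.card ι : ℝ) ≤ N
  len_le : ∀ i, len (deg i) ≤ J
  hl : ∀ i, Hl S h (l i) (deg i)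
  ct : S.Ct (∑ i, l i)
  err : ∀ v A, S.Am v A → ‖(∑ i, l i) v - S.L h v‖ ≤ ε * A

/-- A banded approximant of `R · s` with at most `N` homogeneous pieces. -/
structure RB (S : Sys G Γ H H₀) (len : Γ → ℝ) (s : G) (J N ε : ℝ) where
  /-- the index set -/
  ι : Type
  [fin : Fintype ι]
  /-- the degrees -/
  deg : ι → Γ
  /-- the pieces -/
  r : ι → G → H →L[ℂ] H
  card : (Fintype.card ι : ℝ) ≤ N
  len_le : ∀ i, len (deg i) ≤ J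
  hm : ∀ i, Hm S (r i) (deg i)
  ct : ∀ g, S.Ct (∑ i, r i g)
  err : ∀ g v A, S.Am v A → ‖(∑ i, r i g) v - S.R g s v‖ ≤ ε * A

attribute [instance] LB.fin RB.fin

/-- the approximant -/
noncomputable def LB.op {S : Sys G Γ H H₀} {len : Γ → ℝ} {h : G} {J N ε : ℝ}
    (y : LB S len h J N ε) : H →L[ℂ] H := ∑ i, y.l i

/-- the approximant -/
noncomputable def RB.op {S : Sys G Γ H H₀} {len : Γ → ℝ} {s : G} {J N ε : ℝ}
    (y : RB S len s J N ε) (g : G) : H →L[ℂ] H := ∑ i, y.r i g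

/-- approximants on both sides -/
def Ap (S : Sys G Γ H H₀) (len : Γ → ℝ) (h : G) (J N ε : ℝ) : Prop :=
  Nonempty (LB S len h J N ε) ∧ Nonempty (RB S len h J N ε)

/-- The gaps on the target lattice. -/
structure Gp (len : Γ → ℝ) {r' : ℕ} (gap : Fin r' → Γ → ℝ) (C : ℝ) : Prop where
  one_le : 1 ≤ C
  len_nonneg : ∀ γ, 0 ≤ len γ
  len_one : len 1 = 0
  len_inv : ∀ γ, len γ⁻¹ = len γ
  len_mul : ∀ s t, len (s * t) ≤ len s + len t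
  card : ∀ J, 1 ≤ J → ∀ F : Finset Γ, (∀ s ∈ F, len s ≤ J) → (F.card : ℝ) ≤ Real.exp (C * J)
  lip : ∀ i s γ t, |gap i (s * γ * t) - gap i γ| ≤ C * (len s + len t)

/-- all gaps of type `Θ` are large -/
def Big {r' : ℕ} (gap : Fin r' → Γ → ℝ) (Θ : Finset (Fin r')) (τ : ℝ) : Set Γ :=
  {γ | ∀ i ∈ Θ, τ ≤ gap i γ}

/-- all other gaps are small -/
def Oth {r' : ℕ} (gap : Fin r' → Γ → ℝ) (Θ : Finset (Fin r')) (R : ℝ) : Set Γ :=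
  {γ | ∀ i, i ∉ Θ → gap i γ ≤ R}

/-- at least `j` gaps are large -/
def Many {r' : ℕ} (gap : Fin r' → Γ → ℝ) (j : ℕ) (t : ℝ) : Set Γ :=
  {γ | ∃ Θ : Finset (Fin r'), Θ.card = j ∧ γ ∈ Big gap Θ t}

/-- a Lipschitz family of level sets -/
structure Lev (len : Γ → ℝ) (C : ℝ) (A : ℝ → Set Γ) : Prop where
  anti : Antitone A
  lip : ∀ t γ u v, γ ∈ A t → u * γ * v ∈ A (t - C * (len u + len v))

section target

variable {G' : Type} [Group G'] [TopologicalSpace G'] [MeasurableSpace G']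

/-- families of functions with values in the unit interval, continuous for the supremum norm -/
structure UC (F : G' → Γ → ℝ) : Prop where
  nonneg : ∀ x γ, 0 ≤ F x γ
  le_one : ∀ x γ, F x γ ≤ 1
  cont : ∀ x₀ (ε : ℝ), 0 < ε → ∀ᶠ x in 𝓝 x₀, ∀ γ, |F x γ - F x₀ γ| ≤ ε

/-- The test families of type `Θ` for the band `J` and the Levi radius `R`. -/
structure GeoD (μ' : Measure G') (e : Γ →* G') (len : Γ → ℝ) {r' : ℕ} (gap : Fin r' → Γ → ℝ)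
    (C c₀ : ℝ) (d : ℕ) (Θ : Finset (Fin r')) (J R : ℝ) (A A' : Set G') (ψ F : G' → Γ → ℝ) : Prop where
  mA : MeasurableSet A
  mA' : MeasurableSet A'
  cpt : ∃ K, IsCompact K ∧ A' ⊆ K
  sub : ∀ x ∈ A, ∀ t, len t ≤ J → x * (e t)⁻¹ ∈ A'
  vol : μ'.real A' ≤ Real.exp (C * J)
  ucψ : UC ψ
  ucF : UC F
  slowL : ∀ x ∈ A, ∀ τ γ s, γ ∈ Big gap Θ τ →
    |ψ x (s * γ) - ψ x γ| ≤ Real.exp (C * (J + len s) - τ)
  slowψ : ∀ x ∈ A, ∀ τ γ t, γ ∈ Big gap Θ τ → len t ≤ J →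
    |ψ x (γ * t) - ψ (x * (e t)⁻¹) γ| ≤ Real.exp (C * J - τ)
  slowF : ∀ x ∈ A, ∀ τ γ t, γ ∈ Big gap Θ τ → len t ≤ J →
    |F x (γ * t) - F (x * (e t)⁻¹) γ| ≤ Real.exp (C * J - τ)
  volψ : ∀ γ, ∫ x in A, ψ x γ ∂μ' ≤ C
  volF : ∀ γ ∈ Big gap Θ (C * (J + R)), ∫ x in A', F x γ ∂μ' ≤ Real.exp (C * R) * J ^ d
  low : ∀ γ ∈ Big gap Θ (C * (J + R)), γ ∈ Oth gap Θ R → c₀ ≤ ∫ x in A, F x γ * ψ x γ ∂μ'

/-- **The geometry of the target.** -/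
def Geo (μ' : Measure G') (e : Γ →* G') (len : Γ → ℝ) {r' : ℕ} (gap : Fin r' → Γ → ℝ)
    (C c₀ : ℝ) (d : ℕ) : Prop :=
  0 < c₀ ∧ ∀ (Θ : Finset (Fin r')) (J R : ℝ), 1 ≤ J → 1 ≤ R →
    ∃ A A' ψ F, GeoD μ' e len gap C c₀ d Θ J R A A' ψ F

/-- **The ping-pong inequality** in `L²(B, Tr) = L²(G'; H)`. -/
def Pair (S : Sys G Γ H H₀) (μ' : Measure G') (e : Γ →* G') {p : ℕ} (s : Fin p → G) : Prop :=
  ∀ (g : G) (ι : Fin p → Type) [∀ l, Fintype (ι l)] (deg : ∀ l, ι l → Γ)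
    (r : ∀ l, ι l → G → H →L[ℂ] H), (∀ l i, Hm S (r l i) (deg l i)) →
    (∀ l g', S.Ct (∑ i, r l i g')) → ∀ X Y : G' → H, Continuous X → Continuous Y →
    ∀ A A' K : Set G', MeasurableSet A → MeasurableSet A' → IsCompact K → A ⊆ K → A' ⊆ K →
    (∀ x ∈ A, ∀ l i, x * (e (deg l i))⁻¹ ∈ A') → ∀ α β : ℝ, 0 ≤ α → 0 ≤ β →
    ∫ x in A', ‖X x‖ ^ 2 ∂μ' ≤ α ^ 2 → ∫ x in A, ‖Y x‖ ^ 2 ∂μ' ≤ β ^ 2 →
    ∑ l, ‖∫ x in A, ⟪∑ i, r l i g (X (x * (e (deg l i))⁻¹)), S.L (s l) (Y x)⟫_ℂ ∂μ'‖ ≤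
      2 * √(p : ℝ) * (α * β)

/-- the torus elements of the `j`-th face -/
def Face {r : ℕ} (a : (Fin r → ℤ) → G) (j : ℕ) : Set G := a '' {t | ∀ i : Fin r, j ≤ i.val → t i = 0}

/-- the Levi subgroup of the `j`-th face -/
def Cz {r : ℕ} (a : (Fin r → ℤ) → G) (j : ℕ) : Subgroup G := Subgroup.centralizer (Face a j)

/-- **The source**: a torus, ping-pong families and families with a gap in the Levi subgroups. -/
structure Src [TopologicalSpace G] (S : Sys G Γ H H₀) (μ' : Measure G') (e : Γ →* G') {r : ℕ}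
    (a : (Fin r → ℤ) → G) (Q : Set G) (c : ℝ) : Prop where
  add : ∀ t s, a (t + s) = a t * a s
  cpt : IsCompact Q
  one : (1 : G) ∈ Q
  inv : ∀ g ∈ Q, g⁻¹ ∈ Q
  step : ∀ t : Fin r → ℤ, (∀ i, |t i| ≤ 1) → a t ∈ Q
  c_pos : 0 < c
  fam : ∀ j : Fin r, ∀ᶠ n : ℕ in atTop, ∃ (p : ℕ) (κ κ' : Fin p → G), Real.exp (c * n) ≤ p ∧
    (∀ l, κ l ∈ Q ∧ κ' l ∈ Q ∧ κ l ∈ Cz a j ∧ κ' l ∈ Cz a j) ∧
    Pair S μ' e fun l => κ l * a (Pi.single j (n : ℤ)) * κ' l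
  gap : ∀ j : Fin r, ∃ (p : ℕ) (s : Fin p → G), 0 < p ∧ (∀ l, s l ∈ Q ∧ s l ∈ Cz a j) ∧
    ∃ θ : ℝ, 0 ≤ θ ∧ θ < 1 ∧ ∀ v, ‖((p : ℂ))⁻¹ • ∑ l, S.σ (s l) v‖ ≤ θ * ‖v‖

end target

/-- the span of the tame vectors -/
noncomputable def Dn (S : Sys G Γ H H₀) : Submodule ℂ H :=
  Submodule.span ℂ {ξ | ∃ b t g, Hm S b t ∧ ξ = b 1 (S.ζ g)}

/-- **Asymptotic embeddings** of the tame vectors in degree `a k`. -/
structure Emb (S : Sys G Γ H H₀) (len : Γ → ℝ) (Z : Subgroup G) (a : ℕ → G)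
    (ι : ℕ → H →L[ℂ] H) : Prop where
  iso : ∀ ξ ∈ Dn S, ∀ ξ' ∈ Dn S,
    Tendsto (fun k => ⟪ι k ξ, ι k ξ'⟫_ℂ) atTop (𝓝 ⟪ξ, ξ'⟫_ℂ)
  right : ∀ b t, Hm S b t → ∀ ξ ∈ Dn S,
    Tendsto (fun k => ‖ι k (b 1 ξ) - b (a k) (ι k ξ)‖) atTop (𝓝 0)
  left : ∀ h ∈ Z, ∀ (J N ε : ℝ) (y : LB S len h J N ε), ∀ b t g, Hm S b t → ∀ δ : ℝ, 0 < δ →
    ∀ᶠ k in atTop, ‖ι k (S.L h (b 1 (S.ζ g))) - y.op (ι k (b 1 (S.ζ g)))‖ ≤ ε + δ

/-- **Stationary sequences of small events.** -/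
structure Adm (S : Sys G Γ H H₀) (T : ℝ → ℝ) (A : ℝ → Set Γ) (a : ℕ → G) (t w q J : ℕ → ℝ)
    (n : ℕ → ℕ) : Prop where
  q_pos : ∀ k, 0 < q k
  w_pos : ∀ k, 0 < w k
  n_top : Tendsto n atTop atTop
  J_top : Tendsto J atTop atTop
  up : Tendsto (fun k => S.mass (A (t k - w k)) (S.ζ (a k)) / q k) atTop (𝓝 1)
  lo : Tendsto (fun k => S.mass (A (t k + w k)) (S.ζ (a k)) / q k) atTop (𝓝 1)
  band : Tendsto (fun k => (n k : ℝ) * J k / w k) atTop (𝓝 0)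
  err : Tendsto (fun k => (n k : ℝ) * Real.exp (-T (J k)) / q k) atTop (𝓝 0)
  gap : ∀ θ : ℝ, 0 ≤ θ → θ < 1 → Tendsto (fun k => θ ^ n k / q k) atTop (𝓝 0)

/-- the rescaled embedding -/
noncomputable def emb (S : Sys G Γ H H₀) (E : Set Γ) (a : G) (q : ℝ) : H →L[ℂ] H :=
  ((q⁻¹ : ℝ) : ℂ) • (Pr S E * S.L a)

/-- slow clocks -/
def Clock (n : ℕ → ℕ) : Prop := n 0 = 0 ∧ ∀ N, n (N + 1) = n N ∨ n (N + 1) = n N + 1

end Vale.Agent.P092NW
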