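import Vale.Agent.P092UU.Ub
import Vale.Agent.P092GE.Geo
import Vale.Agent.P092SC.Src
import Vale.Agent.P092WN.Win
import Vale.Agent.P092WN.Inst
import Vale.Agent.P092BF.Defs
import Vale.Agent.P092GH.HM
import Vale.Agent.P092GK.Haar

/-!
P092 (helper21): phase one on the two-sided system. One path along which all the gaps are large
and all the heights are linear up to bounded errors.
-/

set_option linter.all false

open Filter Topology MeasureTheory

namespace Vale.Agent.P092NW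

open Vale.Agent.P092WN Vale.Agent.P092GK Vale.Agent.P092BF
open Vale.Agent.P092LG (PP NoFix hmf_of)
open Vale.Agent.P092.H933 (URep)

section wk

variable {G Γ H H₀ : Type} [Group G] [TopologicalSpace G] [Group Γ] [NormedAddCommGroup H]
  [InnerProductSpace ℂ H] [CompleteSpace H] [NormedAddCommGroup H₀] [InnerProductSpace ℂ H₀]
  {S : Sys G Γ H H₀} {len : Γ → ℝ} {T : ℝ → ℝ} {r' : ℕ} {gap : Fin r' → Γ → ℝ} {C : ℝ}
  {z : ℕ → G}

theorem wk_of (hT : Scale T) (hS : Ex S) (hG : Gp len gap C) (ht : S.Tail len T) (hz : Stp z)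
    (hw : ∀ i, S.NearWall (gap i) T z) : Wk S len gap z := by
  have t1 := (T_top hT).comp tendsto_natCast_atTop_atTop
  refine ⟨hS, ⟨C, hG⟩, fun τ => squeeze_zero' (.of_forall fun _ => norm_nonneg _) ?_
    (by simpa using (Real.tendsto_exp_neg_atTop_nhds_zero.comp t1).const_mul (r' : ℝ)),
    fun f hf => ?_⟩
  · filter_upwards [mass_big hw, t1.eventually_ge_atTop τ] with n h1 h2
    exact (Pr_mono S (E' := (Big gap Finset.univ (T n))ᶜ)
      (Set.compl_subset_compl.2 fun γ hγ i hi => h2.trans (hγ i hi)) _).trans h1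
  · obtain ⟨e, he⟩ := cauchy hT hS hG ht hz hw hf
    obtain ⟨B, hB⟩ := step_ev hT hS hG ht hz hw hf
    refine ⟨e, (tendsto_add_atTop_iff_nat 1).1 (squeeze_zero_norm' ?_ (a := fun n : ℕ =>
      ‖S.L (z (n + 1))⁻¹ (S.m f (S.ζ (z (n + 1)))) - e‖ + 2 * (B * (1 / (n : ℝ) ^ 2))) ?_)⟩
    · filter_upwards [hB] with n hn
      generalize S.m f (S.ζ (z (n + 1))) = x at hn ⊢
      generalize S.m f (S.ζ (z n)) = y at hn
      have e1 : x - S.L (z (n + 1)) e = S.L (z (n + 1)) (S.L (z (n + 1))⁻¹ x - e) +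
          (S.L 1 (S.L (z (n + 1) * (z n)⁻¹) y - x) - (S.L (z (n + 1) * (z n)⁻¹) y - x)) := by
        rw [map_sub, map_sub, hS.L_mul, hS.L_mul, mul_inv_cancel, one_mul]; abel
      rw [e1]
      refine (norm_add_le _ _).trans (add_le_add (S.L_le _ _) ((norm_sub_le _ _).trans ?_))
      linarith [S.L_le 1 (S.L (z (n + 1) * (z n)⁻¹) y - x)]
    · have h1 := ((tendsto_add_atTop_iff_nat 1).2 (tendsto_iff_norm_sub_tendsto_zero.1 he)).add
        (((tendsto_inv_pow two_ne_zero).const_mul B).const_mul 2)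
      simpa using h1

end wk

variable {k k' : Type} [NontriviallyNormedField k] [NontriviallyNormedField k'] {G G' : Type}
  [Group G] [TopologicalSpace G] [Group G'] [TopologicalSpace G'] {r r' : ℕ}

/-- the path with the clocks `n` -/
def zp (F : FlD k G r) (n : Fin r → ℕ → ℕ) (N : ℕ) : G := F.a fun i => (n i N : ℤ)

/-- **The output of phase one on the two-sided system.** -/
structure Ph (F : FlD k G r) (F' : FlD k' G' r') {Γ : Subgroup G'} {H H₀ : Type}
    [NormedAddCommGroup H] [InnerProductSpace ℂ H] [CompleteSpace H] [NormedAddCommGroup H₀]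
    [InnerProductSpace ℂ H₀] (S : Sys G Γ H H₀) (n : Fin r → ℕ → ℕ)
    (L : (Fin r → ℝ) →ₗ[ℝ] (Fin r' → ℝ)) : Prop where
  clock : ∀ i, Clock (n i)
  top : ∀ i, Tendsto (n i) atTop atTop
  path : Path (zp F n)
  esc : Tendsto (zp F n) atTop (cocompact G)
  wk : Wk S (fun γ : Γ => F'.len γ) (fun i γ => F'.κ (γ : G')⁻¹ i) (zp F n)
  win : ∃ C : ℝ, ∀ a ∈ F.Z, ∀ R ε : ℝ, 0 < R → 0 < ε → ∀ᶠ N in atTop, ∀ j,
    S.mass {γ | R < |F'.lam (γ : G')⁻¹ j - L (F.ℓ (a * zp F n N)) j|} (S.ζ (a * zp F n N)) ≤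
      C / R + ε

variable [IsTopologicalGroup G] [T2Space G] [LocallyCompactSpace G] [SecondCountableTopology G]
  [MeasurableSpace G] [BorelSpace G] [IsTopologicalGroup G'] [T2Space G'] [LocallyCompactSpace G']
  [SecondCountableTopology G'] [MeasurableSpace G'] [BorelSpace G'] [ProperSpace k] [ProperSpace k']
  {F : FlD k G r} {F' : FlD k' G' r'} {s : Fin r → G} {N : ℕ} {τ : ℕ → Fin r} {w : ℕ → G}

theorem fin_len (h : Fl F) (Γ : Subgroup G) [DiscreteTopology Γ] (J : ℝ) :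
    {γ : Γ | F.len γ ≤ J}.Finite := by
  obtain ⟨S, hS, A, -, h1⟩ := len_pow_cpt h
  obtain ⟨D, -, h2⟩ := card_pow Γ hS
  obtain ⟨n, -, h3⟩ := h1 (max J 1) (le_max_right _ _)
  by_contra e
  obtain ⟨m, hm⟩ := exists_nat_gt (Real.exp (D * n))
  obtain ⟨E, e1, e2⟩ := Set.Infinite.exists_subset_card_eq e m
  exact hm.not_ge (e2 ▸ h2 n E fun γ hγ => h3 _ ((e1 hγ).trans (le_max_left _ _)))

theorem ncpt (h : Fl F) (i : Fin r) : ¬IsCompact (closure (Set.range fun n : ℕ => F.b i ^ n)) :=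
  fun e => ((P092GH.pow_cocompact h (h.bZ i) (P092GH.ℓ_b_ne h i)).eventually
    e.compl_mem_cocompact).exists.elim fun n hn => hn (subset_closure ⟨n, rfl⟩)

theorem noncompact (h : Fl F) (i : Fin r) : NoncompactSpace G :=
  ⟨fun e => ncpt h i (e.of_isClosed_subset isClosed_closure (Set.subset_univ _))⟩

/-- **Phase one on the two-sided system.** -/
theorem ph_of (h : Fl F) (hp : Pan F s N τ w) (h' : Fl F') (μ : Measure G) [μ.IsHaarMeasure]
    [μ.IsMulRightInvariant] (μ' : Measure G') [μ'.IsHaarMeasure] [μ'.IsMulRightInvariant]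
    (hM : P092.H15.HMG G) (hK : P092.UN.KazT G) (h2 : 2 ≤ r) (hr : r' ≤ r) {Γ : Subgroup G'}
    [DiscreteTopology Γ] {H H₀ : Type} [NormedAddCommGroup H] [InnerProductSpace ℂ H]
    [CompleteSpace H] [NormedAddCommGroup H₀] [InnerProductSpace ℂ H₀] [CompleteSpace H₀]
    {S : Sys G Γ H H₀} {T : ℝ → ℝ} (hT : Scale T) (hS : Ex S)
    (ht : S.Tail (fun γ : Γ => F'.len γ) T) (hσ : URep S.σ) (hN : NoFix S.σ Set.univ)
    (hP : ∀ (p : ℕ) (x : Fin p → G), PP x → Pair S μ' Γ.subtype x) :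
    r' = r ∧ ∃ n L, Ph F F' S n L := by
  let i : Fin r := ⟨0, by omega⟩
  haveI := noncompact h i
  have hA := hmf_of hM hK
  obtain ⟨C, c₀, hG, hgeo⟩ := P092GE.geo h' μ' Γ.subtype fun K hK => by
    obtain ⟨R, -, hR⟩ := h'.len_cpt hK
    exact (fin_len h' Γ R).subset fun γ hγ => hR _ hγ
  obtain ⟨Q, c, hs⟩ := P092SC.src h hp μ hA S hσ (fun _ => hN) μ' Γ.subtype hP
  obtain ⟨e, m, n, h1, h3, h4⟩ := P092UU.nearWall hT hS hG hgeo hs ht hr
  have hT' := scale_it hT m
  have ht' := tail_it hT hS ht m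
  have top : ∀ l, Tendsto (n l) atTop atTop := fun l => tendsto_natCast_atTop_iff.1
    (tendsto_atTop_mono' _ (h3 l) ((T_top hT').comp tendsto_natCast_atTop_atTop))
  have pa : Path (zp F n) := path_fl h (t := fun N l => (n l N : ℤ))
    (funext fun l => by simp [(h1 l).1]) (fun N l => Int.natCast_nonneg _) (B := 1) fun N l => by
      rcases (h1 l).2 N with e | e <;> simp [e]
  have hZ : ∀ N, zp F n N ∈ F.Z := fun N => h.a_mem _
  have st : ∀ a ∈ F.Z, St (zp F n) a := fun a ha => by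
    have := st_P h (t := fun N l => (n l N : ℤ)) (fun N l => Int.natCast_nonneg _) ha F.Up.one_mem
    rwa [mul_one] at this
  obtain ⟨p, p5, x, hx, hxb⟩ := P092SC.pp_comm_b h hp (i := i) (j := ⟨1, by omega⟩)
    (by simp [i]) 5
  have cen : Cen S.σ (zp F n) (F.b i) := cen_of_pp μ (P092GH.geo h) hA hσ (fun _ => hN)
    (fun N => h.bcomm i _ (hZ N)) (ncpt h i) p5 hx fun l => (hxb l).symm.eq
  obtain ⟨C', hg⟩ := gau_fl h' Γ
  choose χ x1 x2 B x3 using fun j => win hT' (hg j) pa cen ht' (h4 j)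
  refine ⟨e, n, LinearMap.pi fun j => F.lf (χ j), h1, top, pa, P092GH.z_cocompact h hZ ?_,
    wk_of hT' hS hG ht' ⟨pa.zero, pa.step.imp fun Q hQ => ⟨hQ.1, fun N => by
      rw [show zp F n (N + 1) * (zp F n N)⁻¹ = (zp F n N)⁻¹ * zp F n (N + 1) by
        rw [mul_inv_eq_iff_eq_mul, mul_assoc, pa.comm, inv_mul_cancel_left]]
      exact hQ.2 N⟩⟩ h4, ∑ j, |B j|, fun a ha R ε hR hε => ?_⟩
  · refine tendsto_atTop_mono (fun N => ?_)
      ((tendsto_natCast_atTop_atTop.comp (top i)).const_mul_atTop h.β_pos)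
    refine le_trans ?_ ((le_abs_self _).trans (norm_le_pi_norm (F.ℓ (zp F n N)) i))
    simp [zp, h.ℓ_a]
  · filter_upwards [eventually_all.2 fun j =>
      x3 j a (st a ha) (h.bcomm i a ha).symm R hR ε hε] with N hN j
    rw [LinearMap.pi_apply, ← h.add_Z (fun a _ b hb => x1 j a b (st b hb))
      (fun Q hQ _ => x2 j Q hQ) (F.Z.mul_mem ha (hZ N))]
    refine (hN j).trans (add_le_add_left (div_le_div_of_nonneg_right ((le_abs_self _).trans
      (Finset.single_le_sum (f := fun j => |B j|) (fun _ _ => abs_nonneg _) (Finset.mem_univ j)))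
      hR.le) ε)

end Vale.Agent.P092NW
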