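import Vale.Agent.P092GD.Bump
import Vale.Agent.P092GK.Null
import Vale.Agent.P092SC.Src
import Vale.Agent.P092ST.Defs

/-!
P092 (helper21): the dynamical data and the Higson functions of a group with a flag package.
-/

set_option linter.all false

open Filter Topology MeasureTheory

namespace Vale.Agent.P092NW

open Vale.Agent.P092GK Vale.Agent.P092GK.FlD Vale.Agent.P092GD Vale.Agent.P092ST
open Vale.Agent.P092LG (PP)

variable {k : Type} [NontriviallyNormedField k] {G : Type} [Group G] {r : ℕ}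
  [TopologicalSpace G] [IsTopologicalGroup G] [T2Space G] {F : FlD k G r}
  {s : Fin r → G} {N : ℕ} {τ : ℕ → Fin r} {w : ℕ → G}
  [ProperSpace k] [LocallyCompactSpace G] [SecondCountableTopology G] [MeasurableSpace G]
  [BorelSpace G]

theorem nim (h : Fl F) : NIM G := by
  obtain ⟨ι, _, f, g, L, hL, h1, h2, h3, h4⟩ := nim_core h
  let e := Fintype.equivFin ι
  refine ⟨_, fun i => f (e.symm i), fun i => g (e.symm i), L, hL, fun i => ⟨h1 _, ⟨1, h2 _⟩,
    fun Q hQ ε hε => ?_⟩, fun x hx => (h4 x hx).trans_eq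
      (e.symm.sum_comp fun i => f i ((g i)⁻¹ * x) - f i x).symm⟩
  obtain ⟨R, -, hR⟩ := h.len_cpt hQ
  obtain ⟨L', hL', h5⟩ := h3 (e.symm i) ε R hε
  exact ⟨L', hL', fun x hx s hs => h5 x hx s (hR s hs)⟩

/-- the representations are faithful -/
theorem eq_one_of_gam (h : Fl F) (hg : Subgroup.closure ((F.Up : Set G) ∪ F.Um) = ⊤)
    (hc : Subgroup.center G = ⊥) {g : G} (h0 : gam F g = 0) : g = 1 := by
  have h1 : ∀ j, F.V j g = 1 := fun j =>
    congrFun (sub_eq_zero.1 (norm_le_zero_iff.1 ((le_gam g).trans_eq h0))) j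
  have h2 : ∀ j u, F.V j (u⁻¹ * (g * u * g⁻¹)) = 1 := fun j u => by
    have : F.V j g⁻¹ = 1 := by rw [← one_mul (F.V j g⁻¹), ← h1 j, ← map_mul, mul_inv_cancel, map_one, h1]
    rw [map_mul, map_mul, map_mul, h1, this, one_mul, mul_one, ← map_mul, inv_mul_cancel, map_one]
  have hZ : g ∈ F.Z := (h.ker_Y fun y => by
    obtain ⟨x, rfl⟩ := QuotientGroup.mk_surjective y
    refine QuotientGroup.eq.2 fun j _ => ⟨1, ?_⟩
    have h3 : F.V j g⁻¹ = 1 := by
      rw [← one_mul (F.V j g⁻¹), ← h1 j, ← map_mul, mul_inv_cancel, map_one, h1]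
    change F.V j ((g * x)⁻¹ * x) _ = _
    rw [mul_inv_rev, map_mul, map_mul, h3, mul_one, ← map_mul, inv_mul_cancel, map_one,
      one_smul]
    rfl).1
  refine Subgroup.mem_bot.1 (hc ▸ Subgroup.mem_center_iff.2 fun x => ?_)
  have hx : x ∈ Subgroup.centralizer {g} := by
    refine (Subgroup.closure_le (Subgroup.centralizer {g})).2 ?_ (hg ▸ Subgroup.mem_top x)
    rintro u (hu | hu) _ rfl
    · have := h.up_inj _ (F.Up.mul_mem (F.Up.inv_mem hu) (h.zup _ hZ u hu)) fun j x => by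
        rw [h2]; rfl
      rw [inv_mul_eq_one, eq_mul_inv_iff_mul_eq] at this
      exact this.symm
    · have := h.um_inj _ (F.Um.mul_mem (F.Um.inv_mem hu) (h.zum _ hZ u hu)) fun j => by
        rw [h2]; rfl
      rw [inv_mul_eq_one, eq_mul_inv_iff_mul_eq] at this
      exact this.symm
  exact (hx g rfl).symm

theorem sqrt_contr (h : Fl F) (a : G) : ∃ c : ℝ, 0 < c ∧ ∀ m : ℝ, ∃ R : ℝ, ∀ u, F.len u ≤ m →
    Tendsto (fun n : ℕ => (a ^ n)⁻¹ * u * a ^ n) atTop (𝓝 1) →
      ∀ n : ℕ, √(gam F ((a ^ n)⁻¹ * u * a ^ n)) ≤ Real.exp (R - c * n) := by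
  obtain ⟨C, c, hC, hc, H⟩ := contr h a
  refine ⟨c / 2, half_pos hc, fun m => ⟨C * (1 + Real.exp m) / 2, fun u hu ht n =>
    Real.sqrt_le_iff.2 ⟨(Real.exp_pos _).le, (H u ht n).trans ?_⟩⟩⟩
  have h1 := (gam_le_len h u).trans (add_le_add_right (Real.exp_le_exp.2 hu) 1)
  calc _ ≤ C * Real.exp (-(c * n)) * (1 + Real.exp m) := by gcongr
    _ = C * (1 + Real.exp m) * Real.exp (-(c * n)) := by ring
    _ ≤ Real.exp (C * (1 + Real.exp m)) * Real.exp (-(c * n)) := by
      gcongr; linarith [Real.add_one_le_exp (C * (1 + Real.exp m))]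
    _ = _ := by rw [sq, ← Real.exp_add, ← Real.exp_add]; congr 1; ring

/-- **The dynamical data.** -/
theorem exists_dyn (h : Fl F) (hp : Pan F s N τ w)
    (hg : Subgroup.closure ((F.Up : Set G) ∪ F.Um) = ⊤) (hc : Subgroup.center G = ⊥) (hr : 2 ≤ r)
    (μ : Measure G) [μ.IsHaarMeasure] : ∃ D : Dyn G μ, 4 < D.p ∧ PP D.F := by
  let i : Fin r := ⟨0, by omega⟩
  let j : Fin r := ⟨1, by omega⟩
  obtain ⟨p, hp5, x, hx, hxb⟩ := P092SC.pp_comm h hp (j := j)
    (t := fun l => if l ∈ ({i} : Finset (Fin r)) then 1 else 0) (by simp [i, j]) 5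
  obtain ⟨c, c0, hc1⟩ := sqrt_contr h (F.cb {i})
  obtain ⟨c', c0', hc2⟩ := sqrt_contr h (F.cb {i})⁻¹
  refine ⟨{ ρ := fun v => √(gam F v), b := F.cb {i}, p := p, F := x, c := min c c'
            p_pos := by omega, c_pos := lt_min c0 c0', ρ_nonneg := fun _ => Real.sqrt_nonneg _
            ρ_inv := fun v => by rw [gam_inv], conj := fun g => ⟨√(Real.exp (2 * F.len g)), fun v => ?_⟩
            small := fun O hO => ?_, comm := fun l => (hxb l).symm.eq, gen := fun Q hQ => ?_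
            bump := ?_ }, hp5, hx⟩
  · rw [← Real.sqrt_mul (Real.exp_pos _).le]
    exact Real.sqrt_le_sqrt (gam_conj h g v)
  · obtain ⟨δ, h0, h1, h2⟩ := cpt_low ((cpt_gam h 1).diff isOpen_interior (t := interior O))
      (fun (_ : Unit) v => √(gam F v)) (fun _ => (cont_gam h).sqrt.continuousOn) fun _ v hv =>
        Real.sqrt_pos.2 ((gam_nonneg v).lt_of_ne' fun e => hv.2 (by
          rw [eq_one_of_gam h hg hc e]; exact mem_interior_iff_mem_nhds.2 hO))
    refine ⟨δ / 2, half_pos h0, fun v hv => interior_subset (by_contra fun e => ?_)⟩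
    have := h2 () v ⟨show gam F v ≤ 1 by nlinarith [Real.sq_sqrt (gam_nonneg (F := F) v), Real.sqrt_nonneg (gam F v)], e⟩
    linarith
  · classical
    obtain ⟨m, hm⟩ := bdd_gen_U h (gen_top h hp hg i) hQ
    obtain ⟨R, hR⟩ := hc1 m
    obtain ⟨R', hR'⟩ := hc2 m
    refine ⟨m, max R R', fun g hg => ?_⟩
    obtain ⟨l, l1, l2, l3⟩ := hm g hg
    refine ⟨l.map fun u => (u, decide (u ∈ F.U {i})), by simp [l1], by simpa [Function.comp_def] using l2,
      fun a ha n => ?_⟩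
    obtain ⟨u, hu, rfl⟩ := List.mem_map.1 ha
    have n0 : (0 : ℝ) ≤ n := n.cast_nonneg
    by_cases e : u ∈ F.U {i}
    · rw [decide_eq_true e]
      exact (hR u (l3 u hu).2 e n).trans (Real.exp_le_exp.2 (by
        nlinarith [le_max_left R R', min_le_left c c']))
    · rw [decide_eq_false e]
      exact (hR' u (l3 u hu).2 (Tendsto.congr (fun n => by simp)
        ((l3 u hu).1.resolve_left e)) n).trans
        (Real.exp_le_exp.2 (by nlinarith [le_max_right R R', min_le_right c c']))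
  · obtain ⟨C, D, hC, H⟩ := bump h μ
    refine ⟨√C, D, fun δ h0 h1 => ?_⟩
    obtain ⟨χ, x1, x2, x3, x4, x5, -, x6⟩ := H (δ ^ 2) (by positivity) (pow_le_one₀ h0.le h1)
    refine ⟨χ, x1, x2, x3, x4, fun v hv => Real.sqrt_le_iff.2 ⟨h0.le, x5 v hv⟩,
      fun v => (x6 v).trans_eq ?_⟩
    rw [mul_pow, div_pow, Real.sq_sqrt (by linarith), Real.sq_sqrt (gam_nonneg v), ← pow_mul,
      ← pow_mul, mul_comm 2]

end Vale.Agent.P092NW
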