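import Vale.Agent.P092NW.Up1

/-!
P092 (helper21), block B3, part UP: from one level to the next.
-/

set_option linter.all false

open scoped InnerProductSpace ENNReal
open MeasureTheory Filter Topology

namespace Vale.Agent.P092NW

open Vale.Agent.P092ST Vale.Agent.P092ST.Amb

theorem up_num {q K K2 L κ J : ℝ} (q0 : 0 < q) (q1 : q ≤ 1) (L1 : 1 ≤ L) (hK : L ^ 2 ≤ K)
    (K21 : 1 ≤ K2) (κ1 : 1 ≤ κ) (J0 : 0 ≤ J) (h : 60000 * (κ * L * K2 * K ^ 2) * q ≤ 1) :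
    18 * K ^ 2 * q ≤ 1 ∧ 31 * K ^ 2 * q ^ 8 + K2 * (26 * K ^ 2 * q ^ 10) ≤ q ∧
      15 * (κ * (20 * L) * (K2 * (26 * K ^ 2 * q ^ 10)) + 26 * K ^ 2 * q ^ 10) ≤ q ^ 9 ∧
      3 * (κ * (20 * L) ^ 2 * (K2 * ((4 * (10 * L) + 5) * (K * J))) +
        (4 * (10 * L) + 5) * (K * J)) ≤ 60000 * (κ * L * K2 * K ^ 2) * J := by
  have K1 : 1 ≤ K := (one_le_pow₀ L1).trans hK
  have a0 : 0 ≤ K ^ 2 := by positivity
  have a1 : K ^ 2 ≤ K2 * K ^ 2 := le_mul_of_one_le_left a0 K21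
  have a2 : 1 ≤ κ * L := one_le_mul_of_one_le_of_one_le κ1 L1
  have a3 : K2 * K ^ 2 ≤ κ * L * K2 * K ^ 2 := by
    rw [mul_assoc (κ * L)]; exact le_mul_of_one_le_left (by positivity) a2
  set U := κ * L * K2 * K ^ 2 with hU
  have b1 : K ^ 2 * q ≤ U * q := by gcongr; exact a1.trans a3
  have b2 : K2 * K ^ 2 * q ≤ U * q := by gcongr
  have b0 : 0 ≤ K ^ 2 * q := by positivity
  have p1 : q ^ 7 ≤ q := pow_le_of_le_one q0.le q1 (by norm_num)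
  have p2 : q ^ 9 ≤ q := pow_le_of_le_one q0.le q1 (by norm_num)
  have p3 : 0 < q ^ 9 := by positivity
  refine ⟨by linarith, ?_, ?_, ?_⟩
  · calc _ = 31 * (K ^ 2 * q) * q ^ 7 + 26 * (K2 * K ^ 2 * q) * q ^ 9 := by ring
      _ ≤ 31 * (U * q) * q + 26 * (U * q) * q := by gcongr
      _ = 57 * (U * q) * q := by ring
      _ ≤ q := mul_le_of_le_one_left q0.le (by linarith)
  · calc _ = (7800 * (U * q) + 390 * (K ^ 2 * q)) * q ^ 9 := by rw [hU]; ring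
      _ ≤ q ^ 9 := mul_le_of_le_one_left p3.le (by linarith)
  · have c1 : (4 * (10 * L) + 5) * (K * J) ≤ 45 * L * (K * J) := by gcongr; linarith
    have c2 : L * K ≤ U := by
      rw [hU]
      calc L * K = 1 * L * 1 * K := by ring
        _ ≤ _ := by gcongr; exact le_self_pow₀ K1 (by norm_num)
    have c3 : κ * L * K2 * (L ^ 2 * K) ≤ U := by
      rw [hU, sq K]; gcongr
    calc _ ≤ 3 * (κ * (20 * L) ^ 2 * (K2 * (45 * L * (K * J))) + 45 * L * (K * J)) := by gcongr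
      _ = (54000 * (κ * L * K2 * (L ^ 2 * K)) + 135 * (L * K)) * J := by ring
      _ ≤ _ := by
        gcongr
        have : 0 ≤ L * K := by positivity
        linarith

theorem exp_pow_le {l : ℝ} {L : ℕ} (h : l ≤ L) (k : ℕ) :
    Real.exp (-(k * L : ℝ)) ≤ Real.exp (-l) ^ k := by
  rw [← Real.exp_nat_mul]
  exact Real.exp_le_exp.2 (by nlinarith [mul_le_mul_of_nonneg_left h (Nat.cast_nonneg (α := ℝ) k)])

theorem third_le (n : ℕ) : (3⁻¹ : ℝ) ^ n ≤ Real.exp (-n) := by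
  rw [← mul_neg_one, Real.exp_nat_mul, Real.exp_neg]
  exact pow_le_pow_left₀ (by norm_num) (inv_anti₀ (Real.exp_pos 1) Real.exp_one_lt_three.le) n

theorem tv_lin {t x : ℝ} (h1 : t ≤ 2) (h2 : t ≤ x ^ 2) : t ≤ 2 * |x| := by
  rw [← sq_abs] at h2
  by_contra c
  nlinarith [abs_nonneg x]

theorem quad_le (a b c L : ℕ) (hL : 1 ≤ L) : a * L * (2 * (b * L) + 1) + c ≤
    (a * (2 * b + 1) + c) * L ^ 2 := by
  have h1 : a * L * 1 ≤ a * L * L := Nat.mul_le_mul_left _ hL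
  have h2 : c * 1 ≤ c * L ^ 2 := Nat.mul_le_mul_left _ (Nat.one_le_pow _ _ hL)
  nlinarith

theorem lip_num {k d Λ : ℝ} {L : ℕ} (k0 : 0 ≤ k) (d0 : 0 ≤ d) (L1 : (1 : ℝ) ≤ L) (h : Λ ≤ L) :
    43 * (Real.exp (k * L) + Real.exp Λ * Real.exp (d * L)) ≤ Real.exp ((k + d + 86) * L) := by
  have h1 : Real.exp (k * L) ≤ Real.exp ((k + d + 1) * L) :=
    Real.exp_le_exp.2 (by gcongr; linarith)
  have h2 : Real.exp Λ * Real.exp (d * L) ≤ Real.exp ((k + d + 1) * L) := by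
    rw [← Real.exp_add]
    have : 0 ≤ k * L := by positivity
    exact Real.exp_le_exp.2 (by linarith)
  have h3 : 86 ≤ Real.exp (85 * L) := by linarith [Real.add_one_le_exp (85 * (L : ℝ))]
  calc _ ≤ 86 * Real.exp ((k + d + 1) * L) := by linarith
    _ ≤ Real.exp (85 * L) * Real.exp ((k + d + 1) * L) := by gcongr
    _ = _ := by rw [← Real.exp_add]; congr 1; ring

variable {G Γ 𝒦 : Type} [Group G] [TopologicalSpace G] [IsTopologicalGroup G]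
  [SecondCountableTopology G] [MeasurableSpace G] [BorelSpace G] {μ : Measure G} [μ.IsHaarMeasure]
  [Group Γ] [NormedAddCommGroup 𝒦] [InnerProductSpace ℂ 𝒦] [CompleteSpace 𝒦] {A : Amb G Γ 𝒦}

theorem exists_mix {p : ℕ} {F : Fin p → G} (hp : 0 < p) (hG : A.Gap F) : ∃ n : ℕ, 0 < n ∧
    ∀ L : ℕ, 1 ≤ L → A.Mix (Real.exp (-(10 * L))) (pr F (n := n * L)) := by
  obtain ⟨θ, θ1, hθ⟩ := hG
  have t0 : 0 ≤ max θ 0 := le_max_right _ _
  obtain ⟨n, hn⟩ := exists_pow_lt_of_lt_one (Real.exp_pos (-11)) (max_lt θ1 one_pos)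
  replace hn : max θ 0 ^ (n + 1) ≤ Real.exp (-11) :=
    (pow_le_pow_of_le_one t0 (max_lt θ1 one_pos).le n.le_succ).trans hn.le
  refine ⟨n + 1, n.succ_pos, fun L hL => (mix_pr (A := A) t0 (fun x h1 h2 h3 =>
    (hθ x h1 h2 h3).trans (mul_le_mul_of_nonneg_right (le_max_left _ _) (norm_nonneg _))) hp
      _).mono ?_⟩
  have L1 : (1 : ℝ) ≤ L := by exact_mod_cast hL
  have h1 : max θ 0 ^ ((n + 1) * L) ≤ Real.exp (-11) ^ L := by rw [pow_mul]; gcongr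
  rw [← Real.exp_nat_mul] at h1
  have h2 : Real.exp (-(10 * L)) = Real.exp L * Real.exp (L * -11) := by
    rw [← Real.exp_add]; congr 1; ring
  rw [h2]
  exact mul_le_mul (by linarith [Real.add_one_le_exp (L : ℝ)]) h1 (by positivity)
    (Real.exp_pos _).le

theorem mem_F {p n : ℕ} {F : Fin p → G} (z : Fin n → Fin p) :
    ∀ g ∈ List.ofFn fun j => F (z j), ∃ i, F i = g :=
  fun g hg => ((List.mem_ofFn' _ _).1 hg).elim fun j hj => ⟨z j, hj⟩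

theorem exists_conj (D : Dyn G μ) : ∃ d : ℝ, 0 ≤ d ∧ ∀ (n : ℕ) (z : Fin n → Fin D.p) v,
    D.ρ ((pr D.F z)⁻¹ * v * pr D.F z) ≤ Real.exp (n * d) * D.ρ v := by
  choose c hc using fun i => D.conj (D.F i)
  refine ⟨∑ i, |c i|, Finset.sum_nonneg fun i _ => abs_nonneg _, fun n z v => ?_⟩
  have := conj_prod (ρ := D.ρ) (Real.exp_pos (∑ i, |c i|)).le _ (fun g hg v => by
    obtain ⟨i, rfl⟩ := mem_F z g hg
    refine (hc i v).trans (mul_le_mul_of_nonneg_right ?_ (D.ρ_nonneg v))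
    have := Finset.single_le_sum (f := fun i => |c i|) (fun i _ => abs_nonneg _)
      (Finset.mem_univ i)
    linarith [le_abs_self (c i), Real.add_one_le_exp (∑ i, |c i|)]) v
  rwa [List.length_ofFn, ← Real.exp_nat_mul] at this

theorem exists_words (D : Dyn G μ) {Q : Set G} (hQ : IsCompact Q) :
    ∃ (m : ℕ) (w : G → List (G × Bool)), (∀ g ∈ Q, wp (w g) = g) ∧ (∀ g ∈ Q, (w g).length ≤ m) ∧
      ∀ x : ℝ, ∃ r : ℕ, ∀ L : ℕ, 1 ≤ L → ∀ g ∈ Q, ∀ a ∈ w g,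
        D.ρ (sv D.b (r * L) 1 a) ≤ Real.exp (-(x * L)) := by
  obtain ⟨m, R, hw⟩ := D.gen _ hQ
  choose! w w1 w2 w3 using hw
  refine ⟨m, w, w2, w1, fun x => ?_⟩
  obtain ⟨r, hr⟩ := exists_nat_ge ((|R| + x) / D.c)
  rw [div_le_iff₀ D.c_pos] at hr
  refine ⟨r, fun L hL g hg a ha => le_trans (by simpa [sv] using w3 g hg a ha (r * L))
    (Real.exp_le_exp.2 (?_ : R - D.c * (r * L) ≤ _))⟩
  have L1 : (1 : ℝ) ≤ L := by exact_mod_cast hL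
  have h1 := mul_le_mul_of_nonneg_right hr (zero_le_one.trans L1)
  have h2 := le_mul_of_one_le_right (abs_nonneg R) L1
  nlinarith [le_abs_self R]

theorem exists_bmp (D : Dyn G μ) {a : ℝ} (a0 : 0 ≤ a) : ∃ k : ℝ, 0 ≤ k ∧ ∀ L : ℕ, 1 ≤ L →
    ∃ χ, Bump μ χ ∧ (∀ v, χ v ≠ 0 → D.ρ v ≤ Real.exp (-(a * L))) ∧
      ∀ v, ∫ u, |χ (v⁻¹ * u) - χ u| ∂μ ≤ Real.exp (k * L) * D.ρ v := by
  obtain ⟨C, d, hb⟩ := D.bump
  refine ⟨2 * |C| + d * a, by positivity, fun L hL => ?_⟩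
  have L1 : (1 : ℝ) ≤ L := by exact_mod_cast hL
  obtain ⟨χ, x1, x2, x3, x4, x5, x6⟩ := hb (Real.exp (-(a * L))) (Real.exp_pos _)
    (Real.exp_le_one_iff.2 (neg_nonpos.2 (by positivity)))
  have hχ : Bump μ χ := ⟨x1, x2, x3, x4⟩
  refine ⟨χ, hχ, x5, fun v => (tv_lin (hχ.tv_le v) (x6 v)).trans ?_⟩
  rw [← Real.exp_nat_mul, mul_neg, Real.exp_neg, div_inv_eq_mul, abs_mul, abs_mul,
    abs_of_nonneg (D.ρ_nonneg v), abs_of_pos (Real.exp_pos _), add_mul, Real.exp_add,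
    ← mul_assoc 2, ← mul_assoc 2, mul_assoc (d : ℝ)]
  have := D.ρ_nonneg v
  have := le_mul_of_one_le_right (a := 2 * |C|) (by positivity) L1
  gcongr
  linarith [Real.add_one_le_exp (2 * |C| * L)]

/-- **UP** -/
theorem up (D : Dyn G μ) (hS : A.Step μ) (hF : A.Fix) (hJ : A.JF) (hG : A.Gap D.F) :
    A.Up D.ρ D.b := by
  haveI : Nonempty (Fin D.p) := ⟨⟨0, D.p_pos⟩⟩
  obtain ⟨S, R, e0, κ1, R0, e00, κ11, hJ⟩ := hJ
  replace hJ : JFc A S R e0 κ1 := hJ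
  obtain ⟨n0, n00, mix⟩ := exists_mix D.p_pos hG
  obtain ⟨d0, d00, hc⟩ := exists_conj D
  obtain ⟨m0, w0, w2, w1, rr⟩ :=
    exists_words D (S.finite_toSet.union (Set.finite_range D.F)).isCompact
  obtain ⟨k1, k10, hb⟩ := exists_bmp D (a := 17 + n0 * d0) (by positivity)
  obtain ⟨r0, hr0⟩ := rr (17 + n0 * d0)
  obtain ⟨k2, k20, hk2⟩ : ∃ k2 : ℝ, 0 ≤ k2 ∧ k1 + n0 * d0 + 86 = k2 := ⟨_, by positivity, rfl⟩
  obtain ⟨r1, hr1⟩ := rr (k2 + 10)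
  obtain ⟨k3, k31, hk3⟩ : ∃ k : ℝ, 1 ≤ k ∧ ∀ L : ℕ, 1 ≤ L →
      4 * (m0 * (n0 * L) : ℕ) * (2 * (r0 * L : ℕ) + 1) + 10 ≤ k * L ^ 2 :=
    ⟨(4 * (m0 * n0) * (2 * r0 + 1) + 10 : ℕ), by exact_mod_cast (by omega), fun L hL => by
      have := quad_le (4 * (m0 * n0)) r0 10 L hL
      rw [mul_assoc 4, mul_assoc m0] at this
      exact_mod_cast this⟩
  obtain ⟨k4, k41, hk4⟩ : ∃ k : ℝ, 1 ≤ k ∧ ∀ L : ℕ, 1 ≤ L →
      (m0 * (n0 * L) : ℕ) * (2 * (r1 * L : ℕ) + 1) + 2 ≤ k * L ^ 2 :=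
    ⟨(m0 * n0 * (2 * r1 + 1) + 2 : ℕ), by exact_mod_cast (by omega), fun L hL => by
      have := quad_le (m0 * n0) r1 2 L hL
      rw [mul_assoc m0] at this
      exact_mod_cast this⟩
  obtain ⟨κ, κ2, κ3, κ4, κ5⟩ : ∃ κ : ℝ, 2 ≤ κ ∧ R ≤ κ ∧ 2 * k2 ≤ κ ∧
      128 * (60000 * (κ1 * k4 * k3 ^ 2)) ≤ κ := by
    have X0 : 0 ≤ 128 * (60000 * (κ1 * k4 * k3 ^ 2)) := by positivity
    exact ⟨128 * (60000 * (κ1 * k4 * k3 ^ 2)) + 2 * k2 + R + 2, by linarith, by linarith,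
      by linarith, by linarith⟩
  refine ⟨κ, e0, κ2, e00, fun ω f y w l Λ J iw hP hL l1 lΛ hκ hl he => ?_⟩
  have Λ0 : 0 ≤ Λ := by linarith
  obtain ⟨L, ΛL, L2⟩ : ∃ L : ℕ, Λ ≤ L ∧ (L : ℝ) ≤ 2 * Λ :=
    ⟨_, Nat.le_ceil _, (Nat.ceil_lt_add_one Λ0).le.trans (by linarith)⟩
  have L1 : (1 : ℝ) ≤ L := by linarith
  have L1' : 1 ≤ L := by exact_mod_cast L1
  have J0 : 0 ≤ J := by linarith
  obtain ⟨q, hq⟩ : ∃ q, q = Real.exp (-l) := ⟨_, rfl⟩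
  have q0 : 0 < q := hq ▸ Real.exp_pos _
  have q1 : q ≤ 1 := hq ▸ Real.exp_le_one_iff.2 (by linarith)
  have q10 : Real.exp (-(10 * L)) ≤ q ^ 10 := by
    rw [hq]; exact_mod_cast exp_pow_le (lΛ.trans ΛL) 10
  have q16 : Real.exp (-(16 * L)) ≤ (q ^ 8) ^ 2 := by
    rw [hq, ← pow_mul]; exact_mod_cast exp_pow_le (lΛ.trans ΛL) 16
  have e8 : Real.exp (-8 * l) = q ^ 8 := by rw [hq, ← Real.exp_nat_mul]; congr 1; push_cast; ring
  have e9 : Real.exp (-9 * l) = q ^ 9 := by rw [hq, ← Real.exp_nat_mul]; congr 1; push_cast; ring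
  have e1 : Real.exp l * q = 1 := by rw [hq, ← Real.exp_add]; simp
  rw [e8] at hL
  rw [e9, ← hq]
  rw [← hq] at he
  clear hq e8 e9
  have hU : 60000 * (κ1 * L * (k4 * L ^ 2) * (k3 * L ^ 2) ^ 2) ≤ κ * Λ ^ 7 := by
    calc _ = 60000 * (κ1 * k4 * k3 ^ 2) * (L : ℝ) ^ 7 := by ring
      _ ≤ 60000 * (κ1 * k4 * k3 ^ 2) * (2 * Λ) ^ 7 := by gcongr
      _ = 128 * (60000 * (κ1 * k4 * k3 ^ 2)) * Λ ^ 7 := by ring
      _ ≤ _ := by gcongr
  have LK : (L : ℝ) ^ 2 ≤ k3 * L ^ 2 := le_mul_of_one_le_left (by positivity) k31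
  have K21 := one_le_mul_of_one_le_of_one_le k41 (one_le_pow₀ L1 (n := 2))
  replace hk3 := hk3 L L1'
  replace hk4 := hk4 L L1'
  generalize k3 * L ^ 2 = K at *
  generalize k4 * L ^ 2 = K2 at *
  have K1 : 1 ≤ K := (one_le_pow₀ L1).trans LK
  obtain ⟨u1, u2, u3, u4⟩ := up_num q0 q1 L1 LK K21 κ11 J0
    ((mul_le_mul_of_nonneg_right (hU.trans hl) q0.le).trans_eq e1)
  have hm := (mix L L1').mono q10
  have mQ : ∀ (z : Fin (n0 * L) → Fin D.p), ∀ g ∈ List.ofFn fun j => D.F (z j),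
      g ∈ (S : Set G) ∪ Set.range D.F := fun z g hg => .inr (mem_F z g hg)
  obtain ⟨wd, hw, hlen, hmem⟩ : ∃ wd : (Fin (n0 * L) → Fin D.p) → List (G × Bool),
      (∀ z, wp (wd z) = pr D.F z) ∧ (∀ z, (wd z).length ≤ m0 * (n0 * L)) ∧
        ∀ z, ∀ a ∈ wd z, ∃ g ∈ (S : Set G) ∪ Set.range D.F, a ∈ w0 g :=
    ⟨fun z => (List.ofFn fun j => D.F (z j)).flatMap w0,
      fun z => wp_flat w0 _ fun g hg => w2 g (mQ z g hg),
      fun z => (len_flat w0 m0 _ fun g hg => w1 g (mQ z g hg)).trans_eq (by rw [List.length_ofFn]),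
      fun z a ha => (List.mem_flatMap.1 ha).imp fun g hg => ⟨mQ z g hg.1, hg.2⟩⟩
  obtain ⟨χ, hχ, x5, x6⟩ := hb L L1'
  have n3 : (3⁻¹ : ℝ) ^ (10 * L) ≤ q ^ 10 := (third_le _).trans (by exact_mod_cast q10)
  obtain ⟨ω1, f1, x, i1, i2, i3, i4, i5, i6, i7, i8⟩ := half1 hS hF D.ρ_nonneg D.ρ_inv hL
    (Real.exp_pos _).le J0 q0 q1 (D := Real.exp (n0 * d0 * L)) hm
    (fun z => (Commute.list_prod_right _ _ fun g hg => by
      obtain ⟨i, rfl⟩ := mem_F z g hg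
      exact D.comm i).eq) hw hlen hχ (Real.one_le_exp (by positivity))
    (fun z v => (hc _ z v).trans_eq (by push_cast; ring_nf))
    (fun z a ha => (hmem z a ha).elim fun g hg => hr0 L L1' g hg.1 a hg.2) x5 (by
      rw [← Real.exp_add, ← Real.exp_add]
      exact (Real.exp_le_exp.2 (by linarith)).trans q16) x6 (Real.exp_pos _).le hk3 u1 n3
  have lip : ∀ v, A.df ω1 v ≤ Real.exp (k2 * L) * D.ρ v := fun v =>
    (i8 v).trans (mul_le_mul_of_nonneg_right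
      (hk2 ▸ lip_num k10 (by positivity) L1 ΛL) (D.ρ_nonneg v))
  have qE : q ^ 10 ≤ 26 * K ^ 2 * q ^ 10 :=
    le_mul_of_one_le_left (by positivity) (by linarith [one_le_pow₀ K1 (n := 2)])
  have on : ∀ g ∈ (S : Set G) ∪ Set.range D.F, ∀ a ∈ w0 g, A.One ω1 (A.SH (sv D.b (r1 * L) 1 a))
      (sv D.b (r1 * L) 1 a) (26 * K ^ 2 * q ^ 10) := fun g hg a ha => one_sh D.ρ_inv lip (by
    refine le_trans ?_ (q10.trans qE)
    refine (mul_le_mul_of_nonneg_left (hr1 L L1' g hg a ha) (Real.exp_pos _).le).trans_eq ?_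
    rw [← Real.exp_add]; congr 1; ring)
  have q9 : q ^ 9 ≤ 1 := pow_le_one₀ q0.le q1
  have c1 : ((10 * L : ℕ) : ℝ) = 10 * L := by push_cast; rfl
  have c2 : ((20 * L : ℕ) : ℝ) = 20 * L := by push_cast; rfl
  rw [c1] at i7
  obtain ⟨y1, j1, j2⟩ := half2 hJ i1 iw hP ((n2_tri _ ω _).trans (by linarith)) i5 i6 i7
    (by positivity) (by positivity) (w0 := w0) (M := 20 * L) (hm.mono qE) hw hlen
    (fun z a ha => (hmem z a ha).elim fun g hg => on g hg.1 a hg.2)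
    (fun g hg => ⟨w2 g (.inl hg), (w1 g (.inl hg)).trans
      (Nat.le_mul_of_pos_right _ (Nat.mul_pos n00 L1')), on g (.inl hg)⟩)
    hk4 (by linarith [n2_nonneg (A := A) (ω - w)])
    ((κ3.trans hκ).trans ((le_mul_of_one_le_left J0 K1).trans
      (le_mul_of_one_le_left (by positivity) (by linarith)))) (by omega) (by
      refine le_trans ?_ (n3.trans qE)
      rw [show 20 * L = 2 * (10 * L) by ring, pow_mul]
      exact pow_le_pow_left₀ (by norm_num) (by norm_num) _) (by linarith) (by rw [c2]; linarith)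
  rw [c2] at j1 j2
  refine ⟨ω1, f1, y1, ⟨i1, i2, i3, ⟨j1.two.mono u3,
    j1.sc.trans (pow_le_pow_left₀ j1.two.nonneg u3 2)⟩,
    j2.mono (u4.trans (mul_le_mul_of_nonneg_right hU J0)), fun v => (lip v).trans
      (mul_le_mul_of_nonneg_right (Real.exp_le_exp.2 ?_) (D.ρ_nonneg v))⟩, i4⟩
  calc k2 * L ≤ k2 * (2 * Λ) := by gcongr
    _ = 2 * k2 * Λ := by ring
    _ ≤ _ := by gcongr

end Vale.Agent.P092NW
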