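import Vale.Agent.P092NW.Ph1
import Vale.Agent.P092NW.Dyn
import Vale.Agent.P092FA.Main
import Vale.Agent.P092SY.Sys
import Vale.Agent.P092ST.Core
import Vale.Agent.P092KP.Fr
import Vale.Agent.P092TL.Tail
import Vale.Agent.P092IN.Pair

/-!
P092 (helper21): phase one for a coupling.
-/

set_option linter.all false

open Filter Topology MeasureTheory

namespace Vale.Agent.P092NW

open Vale.Agent.P092WN Vale.Agent.P092GK Vale.Agent.P092CP Vale.Agent.P092FA Vale.Agent.P092ST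
open Vale.Agent.P092LG (PP NoFix hmf_of gap_true)

variable {k k' : Type} [NontriviallyNormedField k] [NontriviallyNormedField k'] {G G' K : Type}
  [Group G] [TopologicalSpace G] [Group G'] [TopologicalSpace G'] {r r' : ℕ}
  [IsTopologicalGroup G] [T2Space G] [LocallyCompactSpace G] [SecondCountableTopology G]
  [MeasurableSpace G] [BorelSpace G] [IsTopologicalGroup G'] [T2Space G'] [LocallyCompactSpace G']
  [SecondCountableTopology G'] [MeasurableSpace G'] [BorelSpace G'] [ProperSpace k] [ProperSpace k']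
  {F : FlD k G r} {F' : FlD k' G' r'} {s : Fin r → G} {N : ℕ} {τ : ℕ → Fin r} {w : ℕ → G}
  [NormedAddCommGroup K] [InnerProductSpace ℂ K] [CompleteSpace K] {μ : Measure G}
  [μ.IsHaarMeasure] {μ' : Measure G'} [μ'.IsHaarMeasure] {W : Set (K →L[ℂ] K)}

/-- **Phase one.** -/
theorem phase1 (C : Cpl μ μ' W) (h : Fl F) (hp : Pan F s N τ w) (hg : P092GH.Gp F = ⊤)
    (hc : Subgroup.center G = ⊥) (hK : P092.UN.KazT G) (h2 : 2 ≤ r) (h' : Fl F') (hr : r' ≤ r) :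
    r' = r ∧ ∃ (A : Amb G C.t.Γ (l2 (Lp K 2 μ))) (Φ : Fr C A) (ω : _) (hω : A.Iso ω)
      (n : Fin r → ℕ → ℕ) (L : (Fin r → ℝ) →ₗ[ℝ] (Fin r' → ℝ)), Ph F F' (Φ.sys hω) n L := by
  haveI := C.s.right
  haveI := C.t.right
  haveI := C.t.disc
  haveI := noncompact h ⟨0, by omega⟩
  have hM := P092GH.hmg h hp (hg ▸ dense_univ)
  have hN : NoFix (σ0 C) Set.univ := nofix_σ0 C fun _ _ _ _ _ _ _ ξ e g => e g trivial
  obtain ⟨A, ⟨Φ⟩, e, h0⟩ := exists_fr C (fun γ => F'.len γ) h'.len_one (fun γ => F'.len_inv _)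
    fun γ δ => h'.len_mul _ _
  obtain ⟨D, p4, hD⟩ := exists_dyn h hp hg hc h2 μ
  obtain ⟨κ, κ0, hκ⟩ := gap_true μ (P092GH.geo h) (hmf_of hM hK) p4
  obtain ⟨ω, w1, w2, hT, ht⟩ := P092TL.tail (H₀ := H0 C) Φ (core G _ _ μ A D (h0 D)
    (P092KP.kap_fr Φ) (Φ.gap (sub_lt_self 1 κ0) fun v =>
      (hκ _ _ (urep_σ0 C) (fun _ => hN) _ hD v).1) (Φ.esc (nim h'))) (e ▸ fin_len h' C.t.Γ)
  have hω : A.Iso ω := ⟨w1, w2⟩
  obtain ⟨e', n, L, hP⟩ := ph_of h hp h' μ μ' hM hK h2 hr hT (Φ.ex hω) (e ▸ ht (Φ.sys hω)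
    ⟨fun _ => rfl, fun _ => rfl, fun _ => rfl, fun _ _ => rfl, fun _ _ => Iff.rfl, fun _ => Iff.rfl,
      fun _ _ => Iff.rfl⟩) (urep_σ0 C) hN fun p x hx =>
    P092IN.pair Φ w1 w2 (fun _ => rfl) (fun _ => rfl) (fun _ => id) (fun _ _ => Iff.rfl) hx
  exact ⟨e', A, Φ, ω, hω, n, L, hP⟩

end Vale.Agent.P092NW
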