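import Vale.Agent.P092NW.Band
import Mathlib.Topology.ContinuousMap.Bounded.Normed
import Mathlib.MeasureTheory.Function.LocallyIntegrable
import Mathlib.MeasureTheory.Function.L2Space
import Mathlib.Analysis.Complex.Basic

/-!
P092 (helper21), block B4: integrals of families of multipliers.
-/

set_option linter.all false

open Filter Topology MeasureTheory ContinuousLinearMap
open scoped InnerProductSpace BoundedContinuousFunction

namespace Vale.Agent.P092NW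

open Vale.Agent.P092WN

variable {G Γ H H₀ : Type} [Group G] [Group Γ] [NormedAddCommGroup H] [InnerProductSpace ℂ H]
  [CompleteSpace H] [NormedAddCommGroup H₀] [InnerProductSpace ℂ H₀] {S : Sys G Γ H H₀}
  {G' : Type} [TopologicalSpace G'] {F F' : G' → Γ → ℝ}

namespace UC

theorem abs_le (h : UC F) (x : G') (γ : Γ) : |F x γ| ≤ 1 := by
  rw [abs_of_nonneg (h.nonneg x γ)]; exact h.le_one x γ

theorem bd (h : UC F) (x : G') : Bd (F x) := ⟨1, h.abs_le x⟩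

theorem const {χ : Γ → ℝ} (h0 : ∀ γ, 0 ≤ χ γ) (h1 : ∀ γ, χ γ ≤ 1) : UC fun _ : G' => χ :=
  ⟨fun _ => h0, fun _ => h1, fun _ ε hε => Eventually.of_forall fun _ γ => by simpa using hε.le⟩

theorem mul (h : UC F) (h' : UC F') : UC fun x γ => F x γ * F' x γ := by
  refine ⟨fun x γ => mul_nonneg (h.nonneg x γ) (h'.nonneg x γ),
    fun x γ => mul_le_one₀ (h.le_one x γ) (h'.nonneg x γ) (h'.le_one x γ), fun x₀ ε hε => ?_⟩
  filter_upwards [h.cont x₀ _ (half_pos hε), h'.cont x₀ _ (half_pos hε)] with x h1 h2 γ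
  have e : F x γ * F' x γ - F x₀ γ * F' x₀ γ =
      (F x γ - F x₀ γ) * F' x γ + F x₀ γ * (F' x γ - F' x₀ γ) := by ring
  rw [e]
  refine (abs_add_le _ _).trans ?_
  rw [abs_mul, abs_mul]
  have a1 := mul_le_mul (h1 γ) (h'.abs_le x γ) (abs_nonneg _) (half_pos hε).le
  have a2 := mul_le_mul (h.abs_le x₀ γ) (h2 γ) (abs_nonneg _) zero_le_one
  linarith

theorem comp (h : UC F) {φ : G' → G'} (hφ : Continuous φ) : UC fun x => F (φ x) :=
  ⟨fun _ => h.nonneg _, fun _ => h.le_one _, fun x₀ ε hε =>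
    hφ.continuousAt.tendsto.eventually (h.cont (φ x₀) ε hε)⟩

theorem cont_ev (h : UC F) (γ : Γ) : Continuous fun x => F x γ :=
  continuous_iff_continuousAt.2 fun x₀ => Metric.tendsto_nhds.2 fun ε hε =>
    (h.cont x₀ _ (half_pos hε)).mono fun x hx => (hx γ).trans_lt (half_lt_self hε)

theorem cont_op (h : UC F) (S : Sys G Γ H H₀) : Continuous fun x => S.m (F x) :=
  continuous_iff_continuousAt.2 fun x₀ => Metric.tendsto_nhds.2 fun ε hε =>
    (h.cont x₀ _ (half_pos hε)).mono fun x hx => by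
      rw [dist_eq_norm]
      refine lt_of_le_of_lt (opNorm_le_bound _ (half_pos hε).le fun v => ?_) (half_lt_self hε)
      exact norm_m_sub S (h.bd x) (h.bd x₀) (half_pos hε).le hx v

theorem cont_m (h : UC F) (S : Sys G Γ H H₀) (v : H) : Continuous fun x => S.m (F x) v :=
  (h.cont_op S).clm_apply continuous_const

end UC

variable [MeasurableSpace G'] [OpensMeasurableSpace G'] [T2Space G'] {μ' : Measure G'}
  [IsFiniteMeasureOnCompacts μ'] {A K : Set G'}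

theorem intOn {E : Type} [NormedAddCommGroup E] {f : G' → E} (hf : Continuous f) (hK : IsCompact K)
    (hA : A ⊆ K) : IntegrableOn f A μ' :=
  (hf.continuousOn.integrableOn_compact hK).mono_set hA

theorem fin_of (hK : IsCompact K) (hA : A ⊆ K) : μ' A ≠ ⊤ :=
  ((measure_mono hA).trans_lt hK.measure_lt_top).ne

theorem UC.int_nonneg (h : UC F) (γ : Γ) : 0 ≤ ∫ x in A, F x γ ∂μ' :=
  integral_nonneg fun x => h.nonneg x γ

theorem UC.int_le (h : UC F) (hK : IsCompact K) (hA : A ⊆ K) (γ : Γ) :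
    ∫ x in A, F x γ ∂μ' ≤ μ'.real A := by
  haveI : IsFiniteMeasure (μ'.restrict A) := isFiniteMeasure_restrict.2 (fin_of hK hA)
  have h1 := integral_mono (intOn (h.cont_ev γ) hK hA) (integrable_const (μ := μ'.restrict A) (1 : ℝ))
    fun x => h.le_one x γ
  simpa using h1

theorem UC.int_bd (h : UC F) (hK : IsCompact K) (hA : A ⊆ K) : Bd fun γ => ∫ x in A, F x γ ∂μ' :=
  ⟨μ'.real A, fun γ => by rw [abs_of_nonneg (h.int_nonneg γ)]; exact h.int_le hK hA γ⟩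

theorem UC.int_mono (h : UC F) (h' : UC F') (hK : IsCompact K) (hA : A ⊆ K) {γ : Γ}
    (hle : ∀ x, F x γ ≤ F' x γ) : ∫ x in A, F x γ ∂μ' ≤ ∫ x in A, F' x γ ∂μ' :=
  integral_mono (intOn (h.cont_ev γ) hK hA) (intOn (h'.cont_ev γ) hK hA) hle

/-- the calculus commutes with integrals -/
theorem UC.int_m (h : UC F) (S : Sys G Γ H H₀) (hK : IsCompact K) (hA : A ⊆ K) (v : H) :
    ∫ x in A, S.m (F x) v ∂μ' = S.m (fun γ => ∫ x in A, F x γ ∂μ') v := by
  letI : TopologicalSpace Γ := ⊥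
  haveI : DiscreteTopology Γ := ⟨rfl⟩
  have hb : ∀ f : Γ →ᵇ ℝ, Bd f := fun f => ⟨‖f‖, fun γ => f.norm_coe_le_norm γ⟩
  let M : (Γ →ᵇ ℝ) →L[ℝ] H := LinearMap.mkContinuous
    { toFun := fun f => S.m f v
      map_add' := fun f g => S.m_add f g (hb f) (hb g) v
      map_smul' := fun c f => by
        have h1 := S.m_smul c f (hb f) v
        rw [Complex.coe_smul] at h1
        exact h1 } ‖v‖ fun f => by
      rw [mul_comm]
      exact norm_m_le S (norm_nonneg f) (fun γ => f.norm_coe_le_norm γ) v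
  let Φ : G' → Γ →ᵇ ℝ := fun x =>
    BoundedContinuousFunction.ofNormedAddCommGroupDiscrete (F x) 1 (h.abs_le x)
  have hΦ : Continuous Φ := continuous_iff_continuousAt.2 fun x₀ => Metric.tendsto_nhds.2 fun ε hε =>
    (h.cont x₀ _ (half_pos hε)).mono fun x hx =>
      ((BoundedContinuousFunction.dist_le (half_pos hε).le).2 hx).trans_lt (half_lt_self hε)
  have hI : IntegrableOn Φ A μ' := intOn hΦ hK hA
  have h1 := M.integral_comp_comm hI
  have h2 : ⇑(∫ x in A, Φ x ∂μ') = fun γ => ∫ x in A, F x γ ∂μ' := funext fun γ =>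
    ((BoundedContinuousFunction.evalCLM ℝ γ).integral_comp_comm hI).symm
  change ∫ x in A, S.m (F x) v ∂μ' = S.m (⇑(∫ x in A, Φ x ∂μ')) v at h1
  rwa [h2] at h1

theorem UC.int_inner (h : UC F) (S : Sys G Γ H H₀) (hK : IsCompact K) (hA : A ⊆ K) (w v : H) :
    ∫ x in A, ⟪w, S.m (F x) v⟫_ℂ ∂μ' = ⟪w, S.m (fun γ => ∫ x in A, F x γ ∂μ') v⟫_ℂ := by
  rw [integral_inner (intOn (h.cont_m S v) hK hA), h.int_m S hK hA]

theorem UC.norm_int_inner (h : UC F) (S : Sys G Γ H H₀) (hK : IsCompact K) (hA : A ⊆ K) {c : ℝ}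
    (hc : 0 ≤ c) (hF : ∀ γ, ∫ x in A, F x γ ∂μ' ≤ c) (w v : H) :
    ‖∫ x in A, ⟪w, S.m (F x) v⟫_ℂ ∂μ'‖ ≤ c * (‖w‖ * ‖v‖) := by
  rw [h.int_inner S hK hA, mul_left_comm]
  refine (norm_inner_le_norm _ _).trans (mul_le_mul_of_nonneg_left ?_ (norm_nonneg _))
  exact norm_m_le S hc (fun γ => by rw [abs_of_nonneg (h.int_nonneg γ)]; exact hF γ) v

theorem Ex.sq_le_re (hS : Ex S) {f : Γ → ℝ} (h0 : ∀ γ, 0 ≤ f γ) (h1 : ∀ γ, f γ ≤ 1) (v : H) :
    ‖S.m f v‖ ^ 2 ≤ (⟪v, S.m f v⟫_ℂ).re := by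
  have hb := bd_unit h0 h1
  have h2 := hS.re_m_mono (bd_mul hb hb) hb (fun γ => by nlinarith [h0 γ, h1 γ]) v
  rwa [hS.inner_m_sq hb, Complex.ofReal_re] at h2

theorem Ex.re_le (hS : Ex S) {f : Γ → ℝ} (hf : Bd f) {α β : ℝ} (hα : 0 ≤ α) {E : Set Γ}
    (h1 : ∀ γ, f γ ≤ β) (h2 : ∀ γ ∈ E, f γ ≤ α) (v : H) :
    (⟪v, S.m f v⟫_ℂ).re ≤ α * ‖v‖ ^ 2 + β * ‖Pr S Eᶜ v‖ ^ 2 := by
  have hb : Bd fun γ => β * Eᶜ.indicator (1 : Γ → ℝ) γ := bd_mul (bd_const β) (bd_ind _)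
  refine (hS.re_m_mono hf (bd_add (bd_const α) hb) (fun γ => ?_) v).trans (le_of_eq ?_)
  · by_cases h : γ ∈ E
    · simpa [h] using h2 γ h
    · simp only [Set.indicator_of_mem (Set.mem_compl h), Pi.one_apply, mul_one]
      linarith [h1 γ]
  · rw [S.m_add _ _ (bd_const α) hb, m_const, S.m_smul β _ (bd_ind _), inner_add_right,
      inner_smul_right, inner_smul_right, Complex.add_re, Complex.re_ofReal_mul,
      Complex.re_ofReal_mul]
    have h3 := hS.inner_Pr Eᶜ v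
    rw [Pr] at h3
    rw [h3, Complex.ofReal_re, ← inner_self_eq_norm_sq (𝕜 := ℂ) v]
    rfl

theorem Ex.le_re (hS : Ex S) {f : Γ → ℝ} (hf : Bd f) {c : ℝ} {E : Set Γ} (h0 : ∀ γ, 0 ≤ f γ)
    (h2 : ∀ γ ∈ E, c ≤ f γ) (v : H) : c * ‖Pr S E v‖ ^ 2 ≤ (⟪v, S.m f v⟫_ℂ).re := by
  refine le_trans (le_of_eq ?_) (hS.re_m_mono (bd_mul (bd_const c) (bd_ind E)) hf (fun γ => ?_) v)
  · rw [S.m_smul c _ (bd_ind _), inner_smul_right, Complex.re_ofReal_mul]
    have h3 := hS.inner_Pr E v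
    rw [Pr] at h3
    rw [h3, Complex.ofReal_re]
    rfl
  · by_cases h : γ ∈ E
    · simpa [h] using h2 γ h
    · simpa [h] using h0 γ

/-- the square norm of a family of multiplied vectors -/
theorem UC.int_sq (h : UC F) (hS : Ex S) (hK : IsCompact K) (hA : A ⊆ K) {α : ℝ} (hα : 0 ≤ α)
    {E : Set Γ} (hF : ∀ γ ∈ E, ∫ x in A, F x γ ∂μ' ≤ α) (v : H) :
    ∫ x in A, ‖S.m (F x) v‖ ^ 2 ∂μ' ≤ α * ‖v‖ ^ 2 + μ'.real A * ‖Pr S Eᶜ v‖ ^ 2 := by
  have hc : Continuous fun x => ⟪v, S.m (F x) v⟫_ℂ := continuous_const.inner (h.cont_m S v)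
  have h1 := integral_mono (μ := μ'.restrict A) (intOn ((h.cont_m S v).norm.pow 2) hK hA)
    (intOn (Complex.continuous_re.comp hc) hK hA) fun x => hS.sq_le_re (h.nonneg x) (h.le_one x) v
  have h2 := integral_re (μ := μ'.restrict A) (intOn hc hK hA)
  rw [h.int_inner S hK hA] at h2
  refine h1.trans ((le_of_eq h2).trans ?_)
  exact hS.re_le (h.int_bd hK hA) hα (h.int_le hK hA) hF v

/-- the main term -/
theorem UC.le_int (h : UC F) (hS : Ex S) (hK : IsCompact K) (hA : A ⊆ K) {c : ℝ}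
    {E : Set Γ} (hF : ∀ γ ∈ E, c ≤ ∫ x in A, F x γ ∂μ') (v : H) :
    c * ‖Pr S E v‖ ^ 2 ≤ ‖∫ x in A, ⟪v, S.m (F x) v⟫_ℂ ∂μ'‖ := by
  rw [h.int_inner S hK hA]
  exact (hS.le_re (h.int_bd hK hA) h.int_nonneg hF v).trans (Complex.re_le_norm _)

end Vale.Agent.P092NW
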