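import Vale.Agent.P092NW.Band

/-!
P092 (helper21), block B4: the amplitude chain. A slowly varying multiplier of a far vector is close
to a bounded vector, so that the true multiplications act on it like the banded ones.
-/

set_option linter.all false

open Filter Topology MeasureTheory ContinuousLinearMap
open scoped InnerProductSpace Pointwise

namespace Vale.Agent.P092NW

open Vale.Agent.P092WN

variable {G Γ H H₀ : Type} [Group G] [Group Γ] [NormedAddCommGroup H] [InnerProductSpace ℂ H]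
  [CompleteSpace H] [NormedAddCommGroup H₀] [InnerProductSpace ℂ H₀] {S : Sys G Γ H H₀}
  {len : Γ → ℝ}

/-- An approximant of `ζ g` with at most `N` homogeneous bounded pieces. -/
structure VB (S : Sys G Γ H H₀) (g : G) (N ε : ℝ) where
  /-- the index set -/
  ι : Type
  [fin : Fintype ι]
  /-- the degrees -/
  deg : ι → Γ
  /-- the pieces -/
  v : ι → H
  card : (Fintype.card ι : ℝ) ≤ N
  am : ∀ i, S.Am (v i) 1
  hom : ∀ i f, Bd f → S.m f (v i) = (f (deg i) : ℂ) • v i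
  err : ‖∑ i, v i - S.ζ g‖ ≤ ε

attribute [instance] VB.fin

theorem vb_of {r' : ℕ} {gap : Fin r' → Γ → ℝ} {C : ℝ} (hG : Gp len gap C) {J ε : ℝ} (hJ : 1 ≤ J)
    (y : S.VA len J ε) : Nonempty (VB S 1 (Real.exp (C * J)) ε) := by
  refine ⟨{ ι := y.F, deg := fun i => i, v := fun i => y.v i, card := ?_
            am := fun i => y.am i i.2, hom := fun i => y.hom i i.2, err := ?_ }⟩
  · rw [Fintype.card_coe]; exact hG.card J hJ _ y.len_le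
  · rw [Finset.sum_coe_sort y.F y.v]; exact y.err

/-- left action on approximants -/
noncomputable def LB.act {h g : G} {J N ε N' ε' : ℝ} (y : LB S len h J N ε) (w : VB S g N' ε') :
    VB S (h * g) (N * N') (ε + ε') where
  ι := y.ι × w.ι
  deg i := y.deg i.1 * w.deg i.2
  v i := y.l i.1 (w.v i.2)
  card := by
    rw [Fintype.card_prod, Nat.cast_mul]
    exact mul_le_mul y.card w.card (Nat.cast_nonneg _) y.N_nonneg
  am i := (y.hl _).ct.2 _ _ (w.am _)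
  hom i f hf := by rw [(y.hl _).hom f hf, w.hom _ _ (bd_comp hf _), map_smul]
  err := by
    have e : ∑ i : y.ι × w.ι, y.l i.1 (w.v i.2) = y.op (∑ j, w.v j) := by
      rw [Fintype.sum_prod_type, LB.op, sum_apply]
      exact Finset.sum_congr rfl fun i _ => (map_sum (y.l i) w.v _).symm
    have h2 := (y.norm_le _).trans w.err
    rw [map_sub] at h2
    rw [e]
    calc _ ≤ ‖y.op (∑ j, w.v j) - y.op (S.ζ g)‖ + ‖y.op (S.ζ g) - S.ζ (h * g)‖ :=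
          norm_sub_le_norm_sub_add_norm_sub _ _ _
      _ ≤ _ := by linarith [y.err_ζ g]

theorem VB.amp {g : G} {N ε : ℝ} (w : VB S g N ε) {f : Γ → ℝ} (hf : ∀ γ, |f γ| ≤ 1) :
    ∃ W, S.Am W N ∧ ‖S.m f (S.ζ g) - W‖ ≤ ε := by
  refine ⟨S.m f (∑ i, w.v i), ?_, ?_⟩
  · rw [map_sum]
    refine S.am_mono _ _ _ (am_sum S _ (A := fun _ => 1) fun i _ => ?_) (by simpa using w.card)
    rw [w.hom i f (bd_of hf)]
    exact S.am_mono _ _ _ (S.am_smul _ _ _ (w.am i)) (by simpa using hf _)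
  · rw [← map_sub, ← norm_neg, ← map_neg, neg_sub]
    exact (norm_m_unit S hf _).trans w.err

theorem vb_path {z : ℕ → G} {J N ε N₀ ε₀ : ℝ} (y : ∀ n, LB S len (z (n + 1) * (z n)⁻¹) J N ε)
    (w : VB S (z 0) N₀ ε₀) (n : ℕ) : Nonempty (VB S (z n) (N ^ n * N₀) (n * ε + ε₀)) := by
  induction n with
  | zero => exact ⟨by simpa using w⟩
  | succ n ih =>
    have h := (y n).act ih.some
    rw [inv_mul_cancel_right, ← mul_assoc, ← pow_succ', ← add_assoc] at h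
    push_cast
    rw [add_mul, one_mul, add_comm _ ε]
    exact ⟨h⟩

/-- one left step of a multiplied vector -/
theorem LB.step (hS : Ex S) {h : G} {J N ε : ℝ} (y : LB S len h J N ε) {f f' : Γ → ℝ}
    (hf : ∀ γ, |f γ| ≤ 1) (hf' : ∀ γ, |f' γ| ≤ 1) {δ β : ℝ} (hδ : 0 ≤ δ) {E : Set Γ} {g : G}
    (hE : ∀ γ ∈ E, ∀ s, len s ≤ J → |f (s * γ) - f' γ| ≤ δ) (hβ : S.mass Eᶜ (S.ζ g) ≤ β) :
    ‖S.m f (S.ζ (h * g)) - y.op (S.m f' (S.ζ g))‖ ≤ ε + N * (δ + 2 * β) := by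
  have h1 := y.comm zero_le_one hδ hf hf' hE (S.ζ g)
  have h2 := (norm_m_unit S hf _).trans (y.err_ζ g)
  rw [map_sub, norm_sub_rev] at h2
  rw [hS.ζ_one, mul_one, mul_one] at h1
  have h3 : N * (δ + 2 * ‖Pr S Eᶜ (S.ζ g)‖) ≤ N * (δ + 2 * β) :=
    mul_le_mul_of_nonneg_left (by rw [mass_eq] at hβ; linarith) y.N_nonneg
  calc _ ≤ ‖S.m f (S.ζ (h * g)) - S.m f (y.op (S.ζ g))‖ +
        ‖S.m f (y.op (S.ζ g)) - y.op (S.m f' (S.ζ g))‖ := norm_sub_le_norm_sub_add_norm_sub _ _ _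
    _ ≤ _ := by linarith

/-- one right step of a multiplied vector -/
theorem RB.step (hS : Ex S) {s : G} {J N ε : ℝ} (y : RB S len s J N ε) {f f' : Γ → ℝ}
    (hf : ∀ γ, |f γ| ≤ 1) (hf' : ∀ γ, |f' γ| ≤ 1) {δ β : ℝ} (hδ : 0 ≤ δ) {E : Set Γ} {g : G}
    (hE : ∀ γ ∈ E, ∀ t, len t ≤ J → |f (γ * t) - f' γ| ≤ δ) (hβ : S.mass Eᶜ (S.ζ g) ≤ β) :
    ‖S.m f (S.ζ (g * s)) - y.op g (S.m f' (S.ζ g))‖ ≤ ε + N * (δ + 2 * β) := by
  have h1 := y.comm zero_le_one hδ hf hf' hE g (S.ζ g)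
  have h2 := (norm_m_unit S hf _).trans (y.err_ζ g)
  rw [map_sub, norm_sub_rev] at h2
  rw [hS.ζ_one, mul_one, mul_one] at h1
  have h3 : N * (δ + 2 * ‖Pr S Eᶜ (S.ζ g)‖) ≤ N * (δ + 2 * β) :=
    mul_le_mul_of_nonneg_left (by rw [mass_eq] at hβ; linarith) y.N_nonneg
  calc _ ≤ ‖S.m f (S.ζ (g * s)) - S.m f (y.op g (S.ζ g))‖ +
        ‖S.m f (y.op g (S.ζ g)) - y.op g (S.m f' (S.ζ g))‖ := norm_sub_le_norm_sub_add_norm_sub _ _ _
    _ ≤ _ := by linarith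

/-- **The amplitude chain.** -/
theorem amp (hS : Ex S) {z : ℕ → G} {J N ε N₀ ε₀ : ℝ}
    (y : ∀ n, LB S len (z (n + 1) * (z n)⁻¹) J N ε) (w : VB S (z 0) N₀ ε₀) {f : Γ → ℝ}
    (hf : ∀ γ, |f γ| ≤ 1) {δ β : ℝ} (hδ : 0 ≤ δ) (hβ : 0 ≤ β) {E : ℕ → Set Γ} {n₀ n₁ : ℕ}
    (h01 : n₀ ≤ n₁) (hE : ∀ n, n₀ ≤ n → n < n₁ → S.mass (E n)ᶜ (S.ζ (z n)) ≤ β ∧
      ∀ γ ∈ E n, ∀ s, len s ≤ J → |f (s * γ) - f γ| ≤ δ) :
    ∃ W, S.Am W (N ^ n₀ * N₀) ∧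
      ‖S.m f (S.ζ (z n₁)) - W‖ ≤ ε₀ + n₁ * (ε + N * (δ + 2 * β)) := by
  have h0 : 0 ≤ N * (δ + 2 * β) := mul_nonneg (y 0).N_nonneg (by positivity)
  induction n₁, h01 using Nat.le_induction with
  | base =>
    obtain ⟨W, h1, h2⟩ := (vb_path y w n₀).some.amp hf
    exact ⟨W, h1, h2.trans (by nlinarith [(Nat.cast_nonneg n₀ : (0 : ℝ) ≤ n₀)])⟩
  | succ n hn ih =>
    obtain ⟨W, h1, h2⟩ := ih fun m a b => hE m a (b.trans n.lt_succ_self)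
    obtain ⟨h3, h4⟩ := hE n hn n.lt_succ_self
    have h5 := (y n).step hS hf hf hδ h4 h3
    rw [inv_mul_cancel_right] at h5
    refine ⟨(y n).op W, (y n).op_ct.2 _ _ h1, ?_⟩
    have h6 := ((y n).norm_le _).trans h2
    rw [map_sub] at h6
    push_cast
    calc _ ≤ ‖S.m f (S.ζ (z (n + 1))) - (y n).op (S.m f (S.ζ (z n)))‖ +
          ‖(y n).op (S.m f (S.ζ (z n))) - (y n).op W‖ := norm_sub_le_norm_sub_add_norm_sub _ _ _
      _ ≤ _ := by linarith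

theorem LB.near {h : G} {J N ε : ℝ} (y : LB S len h J N ε) {u W : H} {K ρ : ℝ} (hW : S.Am W K)
    (hu : ‖u - W‖ ≤ ρ) : ‖S.L h u - y.op u‖ ≤ 2 * ρ + ε * K := by
  have e : S.L h u - y.op u = S.L h (u - W) - y.op (u - W) - (y.op W - S.L h W) := by
    rw [map_sub, map_sub]; abel
  rw [e]
  refine (norm_sub_le _ _).trans (add_le_add ((norm_sub_le _ _).trans ?_) (y.err' hW))
  linarith [S.L_le h (u - W), y.norm_le (u - W)]

theorem RB.near {s : G} {J N ε : ℝ} (y : RB S len s J N ε) (g : G) {u W : H} {K ρ : ℝ}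
    (hW : S.Am W K) (hu : ‖u - W‖ ≤ ρ) : ‖S.R g s u - y.op g u‖ ≤ 2 * ρ + ε * K := by
  have e : S.R g s u - y.op g u = S.R g s (u - W) - y.op g (u - W) - (y.op g W - S.R g s W) := by
    rw [map_sub, map_sub]; abel
  rw [e]
  refine (norm_sub_le _ _).trans (add_le_add ((norm_sub_le _ _).trans ?_) (y.err' g hW))
  linarith [S.R_le g s (u - W), y.norm_le g (u - W)]

/-- **True left moves** of a multiplied vector. -/
theorem LB.ui (hS : Ex S) {h : G} {J N ε : ℝ} (y : LB S len h J N ε) {f : Γ → ℝ}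
    (hf : ∀ γ, |f γ| ≤ 1) {δ β : ℝ} (hδ : 0 ≤ δ) {E : Set Γ} {g : G}
    (hE : ∀ γ ∈ E, ∀ s, len s ≤ J → |f (s * γ) - f γ| ≤ δ) (hβ : S.mass Eᶜ (S.ζ g) ≤ β) {W : H}
    {K ρ : ℝ} (hW : S.Am W K) (hu : ‖S.m f (S.ζ g) - W‖ ≤ ρ) :
    ‖S.L h (S.m f (S.ζ g)) - S.m f (S.ζ (h * g))‖ ≤ 2 * ρ + ε * K + (ε + N * (δ + 2 * β)) := by
  have h1 := y.step hS hf hf hδ hE hβ
  rw [norm_sub_rev] at h1
  exact (norm_sub_le_norm_sub_add_norm_sub _ _ _).trans (add_le_add (y.near hW hu) h1)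

/-- **True right moves** of a multiplied vector. -/
theorem RB.ui (hS : Ex S) {s : G} {J N ε : ℝ} (y : RB S len s J N ε) {f : Γ → ℝ}
    (hf : ∀ γ, |f γ| ≤ 1) {δ β : ℝ} (hδ : 0 ≤ δ) {E : Set Γ} {g : G}
    (hE : ∀ γ ∈ E, ∀ t, len t ≤ J → |f (γ * t) - f γ| ≤ δ) (hβ : S.mass Eᶜ (S.ζ g) ≤ β) {W : H}
    {K ρ : ℝ} (hW : S.Am W K) (hu : ‖S.m f (S.ζ g) - W‖ ≤ ρ) :
    ‖S.R g s (S.m f (S.ζ g)) - S.m f (S.ζ (g * s))‖ ≤ 2 * ρ + ε * K + (ε + N * (δ + 2 * β)) := by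
  have h1 := y.step hS hf hf hδ hE hβ
  rw [norm_sub_rev] at h1
  exact (norm_sub_le_norm_sub_add_norm_sub _ _ _).trans (add_le_add (y.near g hW hu) h1)

/-- **Dichotomy**: an almost invariant event has mass near zero or one. -/
theorem dich (hS : Ex S) {p : ℕ} (hp : 0 < p) {s : Fin p → G} {θ : ℝ} (hθ : θ < 1)
    (hg : ∀ v, ‖((p : ℂ))⁻¹ • ∑ l, S.σ (s l) v‖ ≤ θ * ‖v‖) {g : G} (hc : ∀ l, s l * g = g * s l)
    {E : Set Γ} {η : ℝ} (hη : 0 ≤ η)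
    (hL : ∀ l, ‖S.L (s l) (Pr S E (S.ζ g)) - Pr S E (S.ζ (s l * g))‖ ≤ η)
    (hR : ∀ l, ‖S.R g (s l) (Pr S E (S.ζ g)) - Pr S E (S.ζ (g * s l))‖ ≤ η)
    (hL1 : ‖S.L 1 (Pr S E (S.ζ g)) - Pr S E (S.ζ g)‖ ≤ η)
    (hR1 : ‖S.R g 1 (Pr S E (S.ζ g)) - Pr S E (S.ζ g)‖ ≤ η) :
    S.mass E (S.ζ g) * S.mass Eᶜ (S.ζ g) ≤ 2 * η / (1 - θ) + 2 * η := by
  set v := Pr S E (S.ζ g) with hv
  have h1 : ∀ l, ‖S.σ (s l) (S.j g v) - S.j g v‖ ≤ 2 * η := fun l => by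
    rw [← S.j_L, ← S.j_R g (s l) v, ← hc l, ← map_sub]
    refine (S.j_le _ _).trans ((norm_sub_le_norm_sub_add_norm_sub _ (Pr S E (S.ζ (s l * g))) _).trans ?_)
    have h2 := hR l
    rw [← hc l, norm_sub_rev] at h2
    linarith [hL l]
  have hp' : (0 : ℝ) < p := by exact_mod_cast hp
  have h2 : ‖((p : ℂ))⁻¹ • ∑ l, S.σ (s l) (S.j g v) - S.j g v‖ ≤ 2 * η := by
    have e : ((p : ℂ))⁻¹ • ∑ l, S.σ (s l) (S.j g v) - S.j g v =
        ((p : ℂ))⁻¹ • ∑ l, (S.σ (s l) (S.j g v) - S.j g v) := by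
      rw [Finset.sum_sub_distrib, smul_sub, Finset.sum_const, Finset.card_univ, Fintype.card_fin,
        ← Nat.cast_smul_eq_nsmul ℂ, smul_smul, inv_mul_cancel₀ (by exact_mod_cast hp.ne'), one_smul]
    rw [e, norm_smul, norm_inv, Complex.norm_natCast, inv_mul_le_iff₀ hp']
    refine (norm_sum_le _ _).trans ((Finset.sum_le_card_nsmul _ _ _ fun l _ => h1 l).trans ?_)
    simp
  have h3 : ‖S.j g v‖ ≤ 2 * η / (1 - θ) := by
    rw [le_div_iff₀ (by linarith)]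
    have h4 := norm_sub_norm_le (S.j g v) (((p : ℂ))⁻¹ • ∑ l, S.σ (s l) (S.j g v))
    rw [norm_sub_rev] at h4
    nlinarith [hg (S.j g v)]
  have h4 : ‖S.L 1 (S.R g 1 v) - v‖ ≤ 2 * η := by
    have h5 := (S.L_le 1 _).trans hR1
    rw [map_sub] at h5
    refine (norm_sub_le_norm_sub_add_norm_sub _ (S.L 1 v) _).trans (by linarith)
  have h5 : ‖v - ⟪S.ζ g, v⟫_ℂ • S.ζ g‖ ≤ 2 * η / (1 - θ) + 2 * η := by
    refine (norm_sub_le_norm_sub_add_norm_sub _ (S.L 1 (S.R g 1 v)) _).trans ?_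
    rw [norm_sub_rev]
    linarith [S.j_ge g v]
  refine le_trans ?_ h5
  have h6 := hS.Pr_sq_add E (S.ζ g)
  rw [hS.ζ_one, one_pow, ← hv] at h6
  have h7 : ⟪S.ζ g, v⟫_ℂ = ((‖v‖ ^ 2 : ℝ) : ℂ) := hS.inner_Pr E _
  refine (sq_le_sq₀ (mul_nonneg (mass_nonneg _ _) (mass_nonneg _ _)) (norm_nonneg _)).1 (le_of_eq ?_)
  rw [@norm_sub_sq ℂ, inner_smul_right, ← inner_conj_symm v, h7, norm_smul, hS.ζ_one,
    Complex.conj_ofReal, ← Complex.ofReal_mul, Complex.norm_real, mul_one, Real.norm_eq_abs, sq_abs,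
    mul_pow, mass_eq, mass_eq, ← hv, eq_sub_of_add_eq' h6]
  change _ = _ - 2 * (((‖v‖ ^ 2 * ‖v‖ ^ 2 : ℝ) : ℂ)).re + _
  rw [Complex.ofReal_re]
  ring

end Vale.Agent.P092NW
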