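import Vale.Agent.P092NW.Calc

/-!
P092 (helper21), block B4: the calculus of banded approximants.
-/

set_option linter.all false

open Filter Topology MeasureTheory ContinuousLinearMap
open scoped InnerProductSpace Pointwise

namespace Vale.Agent.P092NW

open Vale.Agent.P092WN

variable {G Γ H H₀ : Type} [Group G] [Group Γ] [NormedAddCommGroup H] [InnerProductSpace ℂ H]
  [CompleteSpace H] [NormedAddCommGroup H₀] [InnerProductSpace ℂ H₀] {S : Sys G Γ H H₀}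
  {len : Γ → ℝ}

/-- commutator of a sum of homogeneous pieces with slowly varying functions -/
theorem comm_hom {ι : Type} [Fintype ι] {a : ι → H →L[ℂ] H} {φ : ι → Γ → Γ} {N : ℝ}
    (hN : (Fintype.card ι : ℝ) ≤ N) (hn : ∀ i v, ‖a i v‖ ≤ ‖v‖)
    (ha : ∀ i f, Bd f → ∀ v, S.m f (a i v) = a i (S.m (fun γ => f (φ i γ)) v))
    {f f' : Γ → ℝ} {c δ : ℝ} (hc : 0 ≤ c) (hδ : 0 ≤ δ) (hf : ∀ γ, |f γ| ≤ c) (hf' : ∀ γ, |f' γ| ≤ c)
    {E : Set Γ} (hE : ∀ i, ∀ γ ∈ E, |f (φ i γ) - f' γ| ≤ δ) (v : H) :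
    ‖S.m f ((∑ i, a i) v) - (∑ i, a i) (S.m f' v)‖ ≤ N * (δ * ‖v‖ + 2 * c * ‖Pr S Eᶜ v‖) := by
  rw [sum_apply, sum_apply, map_sum, ← Finset.sum_sub_distrib]
  refine (norm_sum_le _ _).trans ((Finset.sum_le_card_nsmul _ _
    (δ * ‖v‖ + 2 * c * ‖Pr S Eᶜ v‖) fun i _ => ?_).trans ?_)
  · rw [ha i f (bd_of hf), ← map_sub, ← m_sub S (bd_comp (bd_of hf) _) (bd_of hf')]
    refine (hn i _).trans (m_split S (by positivity) hδ (fun γ => ?_) (hE i) v)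
    exact (abs_sub _ _).trans (by linarith [hf (φ i γ), hf' γ])
  · rw [nsmul_eq_mul, Finset.card_univ]
    exact mul_le_mul_of_nonneg_right hN (by positivity)

namespace LB

variable {h : G} {J N ε : ℝ} (y : LB S len h J N ε)

theorem op_ct : S.Ct y.op := y.ct

theorem norm_le (v : H) : ‖y.op v‖ ≤ ‖v‖ := y.ct.1 v

theorem err' {v : H} {A : ℝ} (hv : S.Am v A) : ‖y.op v - S.L h v‖ ≤ ε * A := y.err v A hv

theorem err_ζ (g : G) : ‖y.op (S.ζ g) - S.ζ (h * g)‖ ≤ ε := by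
  simpa [S.L_ζ] using y.err' (S.am_ζ g)

include y in
theorem ε_nonneg : 0 ≤ ε := (norm_nonneg _).trans (y.err_ζ 1)

include y in
theorem N_nonneg : 0 ≤ N := (Nat.cast_nonneg _).trans y.card

theorem lf (hS : Ex S) : S.Lf h y.op := hS.lf_sum _ fun i _ => (y.hl i).lf

theorem sup (hS : Ex S) {E E' : Set Γ} (hE : ∀ γ s, len s ≤ J → s * γ ∈ E → γ ∈ E') :
    Sup S y.op E E' :=
  Sup.sum _ fun i _ => hS.sup_hom (y.hl i).hom fun γ => hE γ _ (y.len_le i)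

theorem sup_adj (hS : Ex S) {E E' : Set Γ} (hE : ∀ γ s, len s ≤ J → s⁻¹ * γ ∈ E → γ ∈ E') :
    Sup S (adjoint y.op) E E' := by
  rw [op, map_sum]
  exact Sup.sum _ fun i _ => hS.sup_hom (hS.hl_adj_hom (y.hl i)) fun γ => hE γ _ (y.len_le i)

theorem comm {f f' : Γ → ℝ} {c δ : ℝ} (hc : 0 ≤ c) (hδ : 0 ≤ δ) (hf : ∀ γ, |f γ| ≤ c)
    (hf' : ∀ γ, |f' γ| ≤ c) {E : Set Γ} (hE : ∀ γ ∈ E, ∀ s, len s ≤ J → |f (s * γ) - f' γ| ≤ δ)
    (v : H) : ‖S.m f (y.op v) - y.op (S.m f' v)‖ ≤ N * (δ * ‖v‖ + 2 * c * ‖Pr S Eᶜ v‖) :=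
  comm_hom y.card (fun i => (y.hl i).ct.1) (fun i => (y.hl i).hom) hc hδ hf hf'
    (fun i γ hγ => hE γ hγ _ (y.len_le i)) v

include y in
/-- transport of mass by a left move -/
theorem mass_le (hS : Ex S) {E E' : Set Γ} (hE : ∀ γ s, len s ≤ J → s * γ ∈ E → γ ∈ E') (g : G) :
    S.mass E (S.ζ (h * g)) ≤ S.mass E' (S.ζ g) + ε := by
  have h1 := (y.sup hS hE).norm_le' y.norm_le (S.ζ g)
  have h2 : Pr S E (S.ζ (h * g)) = Pr S E (y.op (S.ζ g)) - Pr S E (y.op (S.ζ g) - S.ζ (h * g)) := by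
    rw [map_sub]; abel
  rw [mass_eq, mass_eq, h2]
  exact (norm_sub_le _ _).trans (add_le_add h1 ((norm_Pr_le S _ _).trans (y.err_ζ g)))

/-- weakening -/
def mono {J' N' ε' : ℝ} (hJ : J ≤ J') (hN : N ≤ N') (hε : ε ≤ ε') (hA : ∀ v A, S.Am v A → 0 ≤ A) :
    LB S len h J' N' ε' where
  ι := y.ι
  deg := y.deg
  l := y.l
  card := y.card.trans hN
  len_le i := (y.len_le i).trans hJ
  hl := y.hl
  ct := y.ct
  err v A hv := (y.err v A hv).trans (mul_le_mul_of_nonneg_right hε (hA v A hv))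

/-- composition -/
noncomputable def mul (hS : Ex S) (hl : ∀ s t, len (s * t) ≤ len s + len t) {h' : G} {J' N' ε' : ℝ}
    (y' : LB S len h' J' N' ε') : LB S len (h * h') (J + J') (N * N') (ε + ε') where
  ι := y.ι × y'.ι
  deg i := y.deg i.1 * y'.deg i.2
  l i := y.l i.1 * y'.l i.2
  card := by
    rw [Fintype.card_prod, Nat.cast_mul]
    exact mul_le_mul y.card y'.card (Nat.cast_nonneg _) y.N_nonneg
  len_le i := (hl _ _).trans (add_le_add (y.len_le _) (y'.len_le _))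
  hl i := hS.hl_mul (y.hl _) (y'.hl _)
  ct := by
    rw [Fintype.sum_prod_type, ← Fintype.sum_mul_sum]
    exact ct_mul y.ct y'.ct
  err v A hv := by
    rw [Fintype.sum_prod_type, ← Fintype.sum_mul_sum, mul_ap, ← hS.L_mul]
    have h1 := y.err' ((hS.L_ct h').2 v A hv)
    have h2 := (y.norm_le _).trans (y'.err' hv)
    rw [map_sub] at h2
    calc _ ≤ ‖y.op (y'.op v) - y.op (S.L h' v)‖ + ‖y.op (S.L h' v) - S.L h (S.L h' v)‖ :=
          norm_sub_le_norm_sub_add_norm_sub _ _ _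
      _ ≤ _ := by linarith

end LB

namespace RB

variable {s : G} {J N ε : ℝ} (y : RB S len s J N ε)

theorem op_ct (g : G) : S.Ct (y.op g) := y.ct g

theorem norm_le (g : G) (v : H) : ‖y.op g v‖ ≤ ‖v‖ := (y.ct g).1 v

theorem err' (g : G) {v : H} {A : ℝ} (hv : S.Am v A) : ‖y.op g v - S.R g s v‖ ≤ ε * A :=
  y.err g v A hv

theorem err_ζ (g : G) : ‖y.op g (S.ζ g) - S.ζ (g * s)‖ ≤ ε := by
  simpa [S.R_ζ] using y.err' g (S.am_ζ g)

include y in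
theorem ε_nonneg : 0 ≤ ε := (norm_nonneg _).trans (y.err_ζ 1)

include y in
theorem N_nonneg : 0 ≤ N := (Nat.cast_nonneg _).trans y.card

theorem rt (hS : Ex S) : S.Rt y.op := hS.rt_sum _ fun i _ => (y.hm i).rt

theorem adj_ct (hS : Ex S) (g : G) : S.Ct (adjoint (y.op g)) := hS.rt_adj _ _ (y.rt hS) (y.ct g)

theorem sup (hS : Ex S) {E E' : Set Γ} (hE : ∀ γ t, len t ≤ J → γ * t ∈ E → γ ∈ E') (g : G) :
    Sup S (y.op g) E E' :=
  Sup.sum _ fun i _ => hS.sup_hom ((y.hm i).hom g) fun γ => hE γ _ (y.len_le i)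

theorem sup_adj (hS : Ex S) {E E' : Set Γ} (hE : ∀ γ t, len t ≤ J → γ * t⁻¹ ∈ E → γ ∈ E') (g : G) :
    Sup S (adjoint (y.op g)) E E' := by
  rw [op, map_sum]
  exact Sup.sum _ fun i _ => hS.sup_hom ((hS.hm_star (y.hm i)).hom g) fun γ => hE γ _ (y.len_le i)

theorem comm {f f' : Γ → ℝ} {c δ : ℝ} (hc : 0 ≤ c) (hδ : 0 ≤ δ) (hf : ∀ γ, |f γ| ≤ c)
    (hf' : ∀ γ, |f' γ| ≤ c) {E : Set Γ} (hE : ∀ γ ∈ E, ∀ t, len t ≤ J → |f (γ * t) - f' γ| ≤ δ)
    (g : G) (v : H) :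
    ‖S.m f (y.op g v) - y.op g (S.m f' v)‖ ≤ N * (δ * ‖v‖ + 2 * c * ‖Pr S Eᶜ v‖) :=
  comm_hom y.card (fun i => ((y.hm i).ct g).1) (fun i => (y.hm i).hom g) hc hδ hf hf'
    (fun i γ hγ => hE γ hγ _ (y.len_le i)) v

include y in
/-- transport of mass by a right move -/
theorem mass_le (hS : Ex S) {E E' : Set Γ} (hE : ∀ γ t, len t ≤ J → γ * t ∈ E → γ ∈ E') (g : G) :
    S.mass E (S.ζ (g * s)) ≤ S.mass E' (S.ζ g) + ε := by
  have h1 := (y.sup hS hE g).norm_le' (y.norm_le g) (S.ζ g)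
  have h2 : Pr S E (S.ζ (g * s)) =
      Pr S E (y.op g (S.ζ g)) - Pr S E (y.op g (S.ζ g) - S.ζ (g * s)) := by
    rw [map_sub]; abel
  rw [mass_eq, mass_eq, h2]
  exact (norm_sub_le _ _).trans (add_le_add h1 ((norm_Pr_le S _ _).trans (y.err_ζ g)))

/-- weakening -/
def mono {J' N' ε' : ℝ} (hJ : J ≤ J') (hN : N ≤ N') (hε : ε ≤ ε') (hA : ∀ v A, S.Am v A → 0 ≤ A) :
    RB S len s J' N' ε' where
  ι := y.ι
  deg := y.deg
  r := y.r
  card := y.card.trans hN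
  len_le i := (y.len_le i).trans hJ
  hm := y.hm
  ct := y.ct
  err g v A hv := (y.err g v A hv).trans (mul_le_mul_of_nonneg_right hε (hA v A hv))

/-- composition -/
noncomputable def mul (hS : Ex S) (hl : ∀ s t, len (s * t) ≤ len s + len t) {s' : G} {J' N' ε' : ℝ}
    (y' : RB S len s' J' N' ε') : RB S len (s * s') (J + J') (N * N') (ε + ε') where
  ι := y'.ι × y.ι
  deg i := y.deg i.2 * y'.deg i.1
  r i g := y'.r i.1 (g * s) * y.r i.2 g
  card := by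
    rw [Fintype.card_prod, Nat.cast_mul, mul_comm]
    exact mul_le_mul y.card y'.card (Nat.cast_nonneg _) y.N_nonneg
  len_le i := (hl _ _).trans (add_le_add (y.len_le _) (y'.len_le _))
  hm i := hS.hm_mul (hS.hm_shift (y'.hm _) s) (y.hm _)
  ct g := by
    rw [Fintype.sum_prod_type,
      ← Fintype.sum_mul_sum (fun i => y'.r i (g * s)) fun i => y.r i g]
    exact ct_mul (y'.ct _) (y.ct g)
  err g v A hv := by
    rw [Fintype.sum_prod_type,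
      ← Fintype.sum_mul_sum (fun i => y'.r i (g * s)) fun i => y.r i g, mul_ap, ← hS.R_mul]
    have h1 := y'.err' (g * s) ((hS.R_ct g s).2 v A hv)
    have h2 := (y'.norm_le (g * s) _).trans (y.err' g hv)
    rw [map_sub] at h2
    calc _ ≤ ‖y'.op (g * s) (y.op g v) - y'.op (g * s) (S.R g s v)‖ +
          ‖y'.op (g * s) (S.R g s v) - S.R (g * s) s' (S.R g s v)‖ :=
          norm_sub_le_norm_sub_add_norm_sub _ _ _
      _ ≤ _ := by linarith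

end RB

theorem Ap.mul (hS : Ex S) (hl : ∀ s t, len (s * t) ≤ len s + len t) {h h' : G}
    {J N ε J' N' ε' : ℝ} (a : Ap S len h J N ε) (a' : Ap S len h' J' N' ε') :
    Ap S len (h * h') (J + J') (N * N') (ε + ε') :=
  ⟨⟨a.1.some.mul hS hl a'.1.some⟩, ⟨a.2.some.mul hS hl a'.2.some⟩⟩

theorem Ap.mono (hS : Ex S) {h : G} {J N ε J' N' ε' : ℝ} (a : Ap S len h J N ε) (hJ : J ≤ J')
    (hN : N ≤ N') (hε : ε ≤ ε') : Ap S len h J' N' ε' :=
  ⟨⟨a.1.some.mono hJ hN hε hS.am_nonneg⟩, ⟨a.2.some.mono hJ hN hε hS.am_nonneg⟩⟩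

theorem Ap.pow (hS : Ex S) (hl : ∀ s t, len (s * t) ≤ len s + len t) {Q : Set G} (h1 : (1 : G) ∈ Q)
    {J N ε : ℝ} (a : ∀ h ∈ Q, Ap S len h J N ε) (n : ℕ) :
    ∀ g ∈ Q ^ n, Ap S len g ((n + 1) * J) (N ^ (n + 1)) ((n + 1) * ε) := by
  induction n with
  | zero =>
    intro g hg
    rw [pow_zero, Set.mem_one] at hg
    simpa [hg] using a 1 h1
  | succ n ih =>
    intro g hg
    rw [pow_succ] at hg
    obtain ⟨x, hx, z, hz, rfl⟩ := hg
    have h := (ih x hx).mul hS hl (a z hz)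
    push_cast
    rwa [← add_one_mul, ← add_one_mul, ← pow_succ] at h

theorem ap_of {r' : ℕ} {gap : Fin r' → Γ → ℝ} {C : ℝ} (hG : Gp len gap C) {h : G} {J ε : ℝ}
    (hJ : 1 ≤ J) (y : S.LA len h J ε) (y' : S.RA len h J ε) :
    Ap S len h J (Real.exp (C * J)) ε := by
  refine ⟨⟨{ ι := y.F, deg := fun i => i, l := fun i => y.l i, card := ?_
             len_le := fun i => y.len_le i i.2
             hl := fun i => ⟨y.lf i i.2, y.ct i i.2, y.hom i i.2⟩, ct := ?_, err := ?_ }⟩,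
    ⟨{ ι := y'.F, deg := fun i => i, r := fun i => y'.r i, card := ?_
       len_le := fun i => y'.len_le i i.2
       hm := fun i => ⟨y'.rt i i.2, y'.ct i i.2, y'.hom i i.2⟩, ct := fun g => ?_
       err := fun g => ?_ }⟩⟩
  · rw [Fintype.card_coe]; exact hG.card J hJ _ y.len_le
  · rw [Finset.sum_coe_sort y.F y.l]; exact y.ct_sum
  · rw [Finset.sum_coe_sort y.F y.l]; exact y.err
  · rw [Fintype.card_coe]; exact hG.card J hJ _ y'.len_le
  · rw [Finset.sum_coe_sort y'.F fun t => y'.r t g]; exact y'.ct_sum g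
  · rw [Finset.sum_coe_sort y'.F fun t => y'.r t g]; exact y'.err g

/-- approximants from the tails -/
theorem ap_tail [TopologicalSpace G] {r' : ℕ} {gap : Fin r' → Γ → ℝ} {C : ℝ} (hG : Gp len gap C)
    {T : ℝ → ℝ} (ht : S.Tail len T) {Q : Set G} (hQ : IsCompact Q) :
    ∀ᶠ J in atTop, ∀ h ∈ Q, Ap S len h J (Real.exp (C * J)) (Real.exp (-T J)) := by
  filter_upwards [ht.2 Q hQ, eventually_ge_atTop 1] with J hJ h1 h hh
  exact ap_of hG h1 (hJ h hh).1.some (hJ h hh).2.some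

/-- approximants of words -/
theorem ap_word [TopologicalSpace G] (hS : Ex S) {r' : ℕ} {gap : Fin r' → Γ → ℝ} {C : ℝ}
    (hG : Gp len gap C) {T : ℝ → ℝ} (ht : S.Tail len T) {Q : Set G} (hQ : IsCompact Q)
    (h1 : (1 : G) ∈ Q) : ∀ᶠ J in atTop, ∀ n : ℕ, ∀ g ∈ Q ^ n,
      Ap S len g ((n + 1) * J) (Real.exp (C * ((n + 1) * J))) ((n + 1) * Real.exp (-T J)) := by
  filter_upwards [ap_tail hG ht hQ] with J hJ n g hg
  have h := Ap.pow hS hG.len_mul h1 hJ n g hg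
  rwa [← Real.exp_nat_mul, Nat.cast_add_one, mul_left_comm] at h

section lev

variable {C : ℝ} {A : ℝ → Set Γ}

theorem Lev.left (hA : Lev len C A) (h1 : len 1 = 0) (hi : ∀ γ, len γ⁻¹ = len γ) (hC : 0 ≤ C)
    {J t : ℝ} (γ s : Γ) (hs : len s ≤ J) (h : s * γ ∈ A t) : γ ∈ A (t - C * J) := by
  have h2 := hA.lip t _ s⁻¹ 1 h
  rw [inv_mul_cancel_left, mul_one, h1, hi, add_zero] at h2
  exact hA.anti (by nlinarith) h2

theorem Lev.right (hA : Lev len C A) (h1 : len 1 = 0) (hi : ∀ γ, len γ⁻¹ = len γ) (hC : 0 ≤ C)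
    {J t : ℝ} (γ s : Γ) (hs : len s ≤ J) (h : γ * s ∈ A t) : γ ∈ A (t - C * J) := by
  have h2 := hA.lip t _ 1 s⁻¹ h
  rw [one_mul, mul_inv_cancel_right, h1, hi, zero_add] at h2
  exact hA.anti (by nlinarith) h2

theorem Lev.left_c (hA : Lev len C A) (h1 : len 1 = 0) (hC : 0 ≤ C)
    {J t : ℝ} (γ s : Γ) (hs : len s ≤ J) (h : s * γ ∈ (A t)ᶜ) : γ ∈ (A (t + C * J))ᶜ := fun h' => by
  have h2 := hA.lip _ _ s 1 h'
  rw [mul_one, h1, add_zero] at h2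
  exact h (hA.anti (by nlinarith) h2)

theorem Lev.right_c (hA : Lev len C A) (h1 : len 1 = 0) (hC : 0 ≤ C)
    {J t : ℝ} (γ s : Γ) (hs : len s ≤ J) (h : γ * s ∈ (A t)ᶜ) : γ ∈ (A (t + C * J))ᶜ := fun h' => by
  have h2 := hA.lip _ _ 1 s h'
  rw [one_mul, h1, zero_add] at h2
  exact h (hA.anti (by nlinarith) h2)

variable {r' : ℕ} {gap : Fin r' → Γ → ℝ}

theorem Gp.C_nonneg (hG : Gp len gap C) : 0 ≤ C := zero_le_one.trans hG.one_le

theorem Gp.lipL (hG : Gp len gap C) (i : Fin r') {J : ℝ} {s : Γ} (hs : len s ≤ J) (γ : Γ) :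
    |gap i (s * γ) - gap i γ| ≤ C * J := by
  have h := hG.lip i s γ 1
  rw [mul_one, hG.len_one, add_zero] at h
  exact h.trans (mul_le_mul_of_nonneg_left hs hG.C_nonneg)

theorem Gp.lipR (hG : Gp len gap C) (i : Fin r') {J : ℝ} {s : Γ} (hs : len s ≤ J) (γ : Γ) :
    |gap i (γ * s) - gap i γ| ≤ C * J := by
  have h := hG.lip i 1 γ s
  rw [one_mul, hG.len_one, zero_add] at h
  exact h.trans (mul_le_mul_of_nonneg_left hs hG.C_nonneg)

theorem Gp.lev_big (hG : Gp len gap C) (Θ : Finset (Fin r')) : Lev len C (Big gap Θ) :=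
  ⟨fun _ _ h _ hγ i hi => h.trans (hγ i hi), fun t γ u v hγ i hi => by
    have h1 := abs_le.1 (hG.lip i u γ v)
    linarith [hγ i hi, h1.1]⟩

theorem Gp.lev_many (hG : Gp len gap C) (j : ℕ) : Lev len C (Many gap j) :=
  ⟨fun _ _ h _ ⟨Θ, h1, h2⟩ => ⟨Θ, h1, (hG.lev_big Θ).anti h h2⟩,
    fun t γ u v ⟨Θ, h1, h2⟩ => ⟨Θ, h1, (hG.lev_big Θ).lip t γ u v h2⟩⟩

theorem Gp.oth_left (hG : Gp len gap C) {Θ : Finset (Fin r')} {J R : ℝ} (γ s : Γ) (hs : len s ≤ J)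
    (h : s * γ ∈ Oth gap Θ R) : γ ∈ Oth gap Θ (R + C * J) := fun i hi => by
  have h1 := abs_le.1 (hG.lipL i hs γ)
  linarith [h i hi, h1.1]

theorem Gp.oth_right (hG : Gp len gap C) {Θ : Finset (Fin r')} {J R : ℝ} (γ s : Γ) (hs : len s ≤ J)
    (h : γ * s ∈ Oth gap Θ R) : γ ∈ Oth gap Θ (R + C * J) := fun i hi => by
  have h1 := abs_le.1 (hG.lipR i hs γ)
  linarith [h i hi, h1.1]

end lev

end Vale.Agent.P092NW
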