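import Vale.Agent.P092NW.Defs
import Mathlib.Analysis.InnerProductSpace.Symmetric

/-!
P092 (helper21), block B4: the position calculus and the support of banded operators.
-/

set_option linter.all false

open Filter Topology MeasureTheory ContinuousLinearMap
open scoped InnerProductSpace

namespace Vale.Agent.P092NW

open Vale.Agent.P092WN

section bd

variable {Γ : Type}

theorem bd_of {f : Γ → ℝ} {c : ℝ} (h : ∀ γ, |f γ| ≤ c) : Bd f := ⟨c, h⟩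

theorem bd_const (c : ℝ) : Bd fun _ : Γ => c := ⟨|c|, fun _ => le_rfl⟩

theorem abs_ind (E : Set Γ) (γ : Γ) : |E.indicator (1 : Γ → ℝ) γ| ≤ 1 := by
  by_cases h : γ ∈ E <;> simp [h]

theorem bd_ind (E : Set Γ) : Bd (E.indicator (1 : Γ → ℝ)) := ⟨1, abs_ind E⟩

theorem bd_comp {f : Γ → ℝ} (h : Bd f) (φ : Γ → Γ) : Bd fun γ => f (φ γ) :=
  let ⟨c, hc⟩ := h
  ⟨c, fun _ => hc _⟩

theorem bd_add {f g : Γ → ℝ} (hf : Bd f) (hg : Bd g) : Bd fun γ => f γ + g γ :=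
  let ⟨c, hc⟩ := hf
  let ⟨d, hd⟩ := hg
  ⟨c + d, fun γ => (abs_add_le _ _).trans (add_le_add (hc γ) (hd γ))⟩

theorem bd_mul {f g : Γ → ℝ} (hf : Bd f) (hg : Bd g) : Bd fun γ => f γ * g γ :=
  let ⟨c, hc⟩ := hf
  let ⟨d, hd⟩ := hg
  ⟨c * d, fun γ => by
    rw [abs_mul]
    exact mul_le_mul (hc γ) (hd γ) (abs_nonneg _) ((abs_nonneg _).trans (hc γ))⟩

theorem bd_sub {f g : Γ → ℝ} (hf : Bd f) (hg : Bd g) : Bd fun γ => f γ - g γ :=
  let ⟨c, hc⟩ := hf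
  let ⟨d, hd⟩ := hg
  ⟨c + d, fun γ => (abs_sub _ _).trans (add_le_add (hc γ) (hd γ))⟩

theorem bd_unit {f : Γ → ℝ} (h0 : ∀ γ, 0 ≤ f γ) (h1 : ∀ γ, f γ ≤ 1) : Bd f :=
  ⟨1, fun γ => abs_le.2 ⟨by linarith [h0 γ], h1 γ⟩⟩

end bd

variable {G Γ H H₀ : Type} [Group G] [Group Γ] [NormedAddCommGroup H] [InnerProductSpace ℂ H]
  [CompleteSpace H] [NormedAddCommGroup H₀] [InnerProductSpace ℂ H₀] {S : Sys G Γ H H₀}

theorem mul_ap (a b : H →L[ℂ] H) (v : H) : (a * b) v = a (b v) := rfl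

theorem m_const (S : Sys G Γ H H₀) (c : ℝ) (v : H) : S.m (fun _ => c) v = (c : ℂ) • v := by
  have h := S.m_smul c (fun _ => 1) (bd_const 1) v
  simp only [mul_one] at h
  rw [h, S.m_one]

theorem m_sub (S : Sys G Γ H H₀) {f g : Γ → ℝ} (hf : Bd f) (hg : Bd g) (v : H) :
    S.m (fun γ => f γ - g γ) v = S.m f v - S.m g v := by
  have h := S.m_add (fun γ => f γ - g γ) g (bd_sub hf hg) hg v
  simp only [sub_add_cancel] at h
  exact eq_sub_of_add_eq h.symm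

theorem norm_m_le (S : Sys G Γ H H₀) {f : Γ → ℝ} {c : ℝ} (hc : 0 ≤ c) (h : ∀ γ, |f γ| ≤ c) (v : H) :
    ‖S.m f v‖ ≤ c * ‖v‖ := by
  refine (S.m_le f (fun _ => c) (bd_const c) (fun γ => (h γ).trans (le_abs_self c)) v).trans ?_
  rw [m_const, norm_smul, Complex.norm_real, Real.norm_of_nonneg hc]

theorem norm_m_unit (S : Sys G Γ H H₀) {f : Γ → ℝ} (h : ∀ γ, |f γ| ≤ 1) (v : H) :
    ‖S.m f v‖ ≤ ‖v‖ := by simpa using norm_m_le S zero_le_one h v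

theorem norm_m_sub (S : Sys G Γ H H₀) {f g : Γ → ℝ} (hf : Bd f) (hg : Bd g) {c : ℝ} (hc : 0 ≤ c)
    (h : ∀ γ, |f γ - g γ| ≤ c) (v : H) : ‖S.m f v - S.m g v‖ ≤ c * ‖v‖ := by
  rw [← m_sub S hf hg]; exact norm_m_le S hc h v

theorem m_sa (S : Sys G Γ H H₀) {f : Γ → ℝ} (hf : Bd f) (v w : H) :
    ⟪S.m f v, w⟫_ℂ = ⟪v, S.m f w⟫_ℂ := by
  have h : LinearMap.IsSymmetric (S.m f : H →ₗ[ℂ] H) := by
    rw [LinearMap.isSymmetric_iff_inner_map_self_real]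
    intro v
    have h1 := S.m_real f hf v
    change (starRingEnd ℂ) ⟪S.m f v, v⟫_ℂ = ⟪S.m f v, v⟫_ℂ
    rw [inner_conj_symm, ← inner_conj_symm (S.m f v) v]
    exact (Complex.conj_eq_iff_im.2 h1).symm
  exact h v w

theorem adjoint_m (S : Sys G Γ H H₀) {f : Γ → ℝ} (hf : Bd f) : adjoint (S.m f) = S.m f :=
  ((eq_adjoint_iff _ _).2 fun v w => m_sa S hf v w).symm

theorem mass_eq (E : Set Γ) (v : H) : S.mass E v = ‖Pr S E v‖ := rfl

theorem mass_nonneg (E : Set Γ) (v : H) : 0 ≤ S.mass E v := norm_nonneg _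

theorem norm_Pr_le (S : Sys G Γ H H₀) (E : Set Γ) (v : H) : ‖Pr S E v‖ ≤ ‖v‖ :=
  norm_m_unit S (abs_ind E) v

theorem Pr_sa (S : Sys G Γ H H₀) (E : Set Γ) (v w : H) : ⟪Pr S E v, w⟫_ℂ = ⟪v, Pr S E w⟫_ℂ :=
  m_sa S (bd_ind E) v w

theorem Pr_mono (S : Sys G Γ H H₀) {E E' : Set Γ} (h : E ⊆ E') (v : H) : ‖Pr S E v‖ ≤ ‖Pr S E' v‖ :=
  S.m_le _ _ (bd_ind E') (fun γ => by
    by_cases h1 : γ ∈ E
    · simp [h1, h h1]
    · simp [h1]) v

theorem Pr_univ (S : Sys G Γ H H₀) (v : H) : Pr S Set.univ v = v := by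
  rw [Pr, Set.indicator_univ]; exact S.m_one v

theorem Pr_empty (S : Sys G Γ H H₀) (v : H) : Pr S ∅ v = 0 := by
  rw [Pr, Set.indicator_empty]
  simpa using m_const S 0 v

theorem Pr_compl (S : Sys G Γ H H₀) (E : Set Γ) (v : H) : Pr S Eᶜ v = v - Pr S E v := by
  have h := m_sub S (bd_const 1) (bd_ind E) v
  rw [S.m_one] at h
  rw [Pr, Pr, ← h]
  congr 2
  funext γ
  by_cases h1 : γ ∈ E <;> simp [h1]

theorem Pr_diff (S : Sys G Γ H H₀) {E E' : Set Γ} (h : E' ⊆ E) (v : H) :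
    Pr S (E \ E') v = Pr S E v - Pr S E' v := by
  rw [Pr, Pr, Pr, ← m_sub S (bd_ind E) (bd_ind E')]
  congr 2
  funext γ
  by_cases h1 : γ ∈ E'
  · simp [h1, h h1]
  · by_cases h2 : γ ∈ E <;> simp [h1, h2]

theorem Pr_union_le (S : Sys G Γ H H₀) (E E' : Set Γ) (v : H) :
    ‖Pr S (E ∪ E') v‖ ≤ ‖Pr S E v‖ + ‖Pr S E' v‖ := by
  have h1 : Pr S (E ∪ E') v = Pr S E v + Pr S ((E ∪ E') \ E) v := by
    rw [Pr_diff S Set.subset_union_left]; abel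
  rw [h1]
  exact (norm_add_le _ _).trans (add_le_add le_rfl (Pr_mono S (fun γ hγ => hγ.1.resolve_left hγ.2) v))

theorem Pr_sub_union (S : Sys G Γ H H₀) {E E₁ E₂ : Set Γ} (h : E ⊆ E₁ ∪ E₂) (v : H) :
    ‖Pr S E v‖ ≤ ‖Pr S E₁ v‖ + ‖Pr S E₂ v‖ := (Pr_mono S h v).trans (Pr_union_le S _ _ v)

theorem Pr_biUnion_le (S : Sys G Γ H H₀) {ι : Type} (s : Finset ι) (E : ι → Set Γ) (v : H) :
    ‖Pr S (⋃ i ∈ s, E i) v‖ ≤ ∑ i ∈ s, ‖Pr S (E i) v‖ := by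
  classical
  induction s using Finset.induction_on with
  | empty => simp [Pr_empty]
  | insert i s hi ih =>
    rw [Finset.sum_insert hi, Finset.set_biUnion_insert]
    exact (Pr_union_le S _ _ v).trans (add_le_add le_rfl ih)

/-- splitting along a good set -/
theorem m_split (S : Sys G Γ H H₀) {f : Γ → ℝ} {c δ : ℝ} (hc : 0 ≤ c) (hδ : 0 ≤ δ) {E : Set Γ}
    (h1 : ∀ γ, |f γ| ≤ c) (h2 : ∀ γ ∈ E, |f γ| ≤ δ) (v : H) :
    ‖S.m f v‖ ≤ δ * ‖v‖ + c * ‖Pr S Eᶜ v‖ := by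
  have hb : Bd fun γ => c * Eᶜ.indicator (1 : Γ → ℝ) γ := bd_mul (bd_const c) (bd_ind _)
  refine (S.m_le f (fun γ => δ + c * Eᶜ.indicator (1 : Γ → ℝ) γ) (bd_add (bd_const δ) hb)
    (fun γ => ?_) v).trans ?_
  · refine le_trans ?_ (le_abs_self _)
    by_cases h : γ ∈ E
    · simpa [h] using h2 γ h
    · simp only [Set.indicator_of_mem (Set.mem_compl h), Pi.one_apply, mul_one]
      linarith [h1 γ]
  · rw [S.m_add _ _ (bd_const δ) hb, m_const, S.m_smul c _ (bd_ind _)]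
    refine (norm_add_le _ _).trans ?_
    rw [norm_smul, norm_smul, Complex.norm_real, Complex.norm_real, Real.norm_of_nonneg hc,
      Real.norm_of_nonneg hδ]
    rfl

theorem ct_one (S : Sys G Γ H H₀) : S.Ct 1 := ⟨fun _ => le_rfl, fun _ _ h => h⟩

theorem ct_mul {a b : H →L[ℂ] H} (ha : S.Ct a) (hb : S.Ct b) : S.Ct (a * b) :=
  ⟨fun v => (ha.1 _).trans (hb.1 v), fun v A h => ha.2 _ _ (hb.2 v A h)⟩

theorem am_sum (S : Sys G Γ H H₀) {ι : Type} (s : Finset ι) {v : ι → H} {A : ι → ℝ}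
    (h : ∀ i ∈ s, S.Am (v i) (A i)) : S.Am (∑ i ∈ s, v i) (∑ i ∈ s, A i) := by
  classical
  induction s using Finset.induction_on with
  | empty => simpa using S.am_zero
  | insert i s hi ih =>
    rw [Finset.sum_insert hi, Finset.sum_insert hi]
    exact S.am_add _ _ _ _ (h i (Finset.mem_insert_self _ _))
      (ih fun j hj => h j (Finset.mem_insert_of_mem hj))

theorem am_sub (S : Sys G Γ H H₀) {v w : H} {A B : ℝ} (hv : S.Am v A) (hw : S.Am w B) :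
    S.Am (v - w) (A + B) := by
  have h := S.am_add _ _ _ _ hv (S.am_smul (-1) w B hw)
  simpa [sub_eq_add_neg] using h

theorem norm_adj_le {a : H →L[ℂ] H} (h : ∀ v, ‖a v‖ ≤ ‖v‖) (v : H) : ‖adjoint a v‖ ≤ ‖v‖ := by
  have h1 : ‖a‖ ≤ 1 := a.opNorm_le_bound zero_le_one fun v => by simpa using h v
  refine ((adjoint a).le_opNorm v).trans ?_
  rw [LinearIsometryEquiv.norm_map]
  exact mul_le_of_le_one_left (norm_nonneg _) h1

namespace Ex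

variable (hS : Ex S)
include hS

theorem m_comm {f g : Γ → ℝ} (hf : Bd f) (hg : Bd g) (v : H) :
    S.m f (S.m g v) = S.m g (S.m f v) := by
  rw [← hS.m_mul f g hf hg, ← hS.m_mul g f hg hf]
  simp only [mul_comm]

theorem Pr_Pr (E E' : Set Γ) (v : H) : Pr S E (Pr S E' v) = Pr S (E ∩ E') v := by
  rw [Pr, Pr, Pr, ← hS.m_mul _ _ (bd_ind E) (bd_ind E'), Set.inter_indicator_one]
  rfl

theorem Pr_idem (E : Set Γ) (v : H) : Pr S E (Pr S E v) = Pr S E v := by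
  rw [hS.Pr_Pr, Set.inter_self]

theorem Pr_of_sub {E E' : Set Γ} (h : E ⊆ E') (v : H) : Pr S E' (Pr S E v) = Pr S E v := by
  rw [hS.Pr_Pr, Set.inter_eq_right.2 h]

theorem Pr_of_sub' {E E' : Set Γ} (h : E ⊆ E') (v : H) : Pr S E (Pr S E' v) = Pr S E v := by
  rw [hS.Pr_Pr, Set.inter_eq_left.2 h]

theorem inner_m_sq {f : Γ → ℝ} (hf : Bd f) (v : H) :
    ⟪v, S.m (fun γ => f γ * f γ) v⟫_ℂ = ((‖S.m f v‖ ^ 2 : ℝ) : ℂ) := by
  rw [hS.m_mul f f hf hf, ← m_sa S hf, inner_self_eq_norm_sq_to_K]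
  push_cast
  rfl

theorem inner_Pr (E : Set Γ) (v : H) : ⟪v, Pr S E v⟫_ℂ = ((‖Pr S E v‖ ^ 2 : ℝ) : ℂ) := by
  rw [← hS.Pr_idem E v, ← Pr_sa, hS.Pr_idem, inner_self_eq_norm_sq_to_K]
  push_cast
  rfl

theorem re_m_nonneg {f : Γ → ℝ} (hf : Bd f) (h0 : ∀ γ, 0 ≤ f γ) (v : H) :
    0 ≤ (⟪v, S.m f v⟫_ℂ).re := by
  obtain ⟨c, hc⟩ := hf
  have hb : Bd fun γ => √(f γ) := ⟨√c, fun γ => by
    rw [abs_of_nonneg (Real.sqrt_nonneg _)]
    exact Real.sqrt_le_sqrt ((le_abs_self _).trans (hc γ))⟩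
  have h1 := hS.inner_m_sq hb v
  simp only [Real.mul_self_sqrt (h0 _)] at h1
  rw [show S.m f = S.m fun γ => f γ from rfl, h1, Complex.ofReal_re]
  positivity

theorem re_m_mono {f g : Γ → ℝ} (hf : Bd f) (hg : Bd g) (h : ∀ γ, f γ ≤ g γ) (v : H) :
    (⟪v, S.m f v⟫_ℂ).re ≤ (⟪v, S.m g v⟫_ℂ).re := by
  have h1 := hS.re_m_nonneg (bd_sub hg hf) (fun γ => sub_nonneg.2 (h γ)) v
  rw [m_sub S hg hf, inner_sub_right, Complex.sub_re] at h1
  linarith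

theorem Pr_sq_add (E : Set Γ) (v : H) : ‖Pr S E v‖ ^ 2 + ‖Pr S Eᶜ v‖ ^ 2 = ‖v‖ ^ 2 := by
  have h1 := hS.inner_Pr E v
  have h2 := hS.inner_Pr Eᶜ v
  rw [Pr_compl, inner_sub_right, h1, inner_self_eq_norm_sq_to_K, ← Pr_compl] at h2
  have h3 := congrArg Complex.re h2
  simp only [Complex.sub_re, Complex.ofReal_re] at h3
  have h4 : (((‖v‖ : ℝ) : ℂ) ^ 2).re = ‖v‖ ^ 2 := by rw [← Complex.ofReal_pow, Complex.ofReal_re]
  change (((‖v‖ : ℝ) : ℂ) ^ 2).re - _ = _ at h3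
  linarith

theorem Pr_diff_sq {E E' : Set Γ} (h : E' ⊆ E) (v : H) :
    ‖Pr S (E \ E') v‖ ^ 2 = ‖Pr S E v‖ ^ 2 - ‖Pr S E' v‖ ^ 2 := by
  have h1 := hS.Pr_sq_add E' (Pr S E v)
  rw [hS.Pr_of_sub' h, hS.Pr_Pr, Set.inter_comm] at h1
  rw [Set.diff_eq]
  linarith

theorem L_one_ζ (g : G) : S.L 1 (S.ζ g) = S.ζ g := by rw [S.L_ζ, one_mul]

theorem adjoint_L (h : G) : adjoint (S.L h) = S.L h⁻¹ :=
  ((eq_adjoint_iff _ _).2 fun v w => by rw [hS.L_adj, inv_inv]).symm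

theorem lf_sum {h : G} {ι : Type} (s : Finset ι) {a : ι → H →L[ℂ] H} (ha : ∀ i ∈ s, S.Lf h (a i)) :
    S.Lf h (∑ i ∈ s, a i) := by
  classical
  induction s using Finset.induction_on with
  | empty => simpa using hS.lf_zero h
  | insert i s hi ih =>
    rw [Finset.sum_insert hi]
    exact hS.lf_add _ _ _ (ha i (Finset.mem_insert_self _ _))
      (ih fun j hj => ha j (Finset.mem_insert_of_mem hj))

theorem rt_sum {ι : Type} (s : Finset ι) {b : ι → G → H →L[ℂ] H} (hb : ∀ i ∈ s, S.Rt (b i)) :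
    S.Rt fun g => ∑ i ∈ s, b i g := by
  classical
  induction s using Finset.induction_on with
  | empty => simpa using hS.rt_zero
  | insert i s hi ih =>
    simp only [Finset.sum_insert hi]
    exact hS.rt_add _ _ (hb i (Finset.mem_insert_self _ _))
      (ih fun j hj => hb j (Finset.mem_insert_of_mem hj))

theorem hl_mul {h h' : G} {a a' : H →L[ℂ] H} {s s' : Γ} (ha : Hl S h a s) (ha' : Hl S h' a' s') :
    Hl S (h * h') (a * a') (s * s') :=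
  ⟨hS.lf_mul _ _ _ _ ha.lf ha'.lf, ct_mul ha.ct ha'.ct, fun f hf v => by
    rw [mul_ap, mul_ap, ha.hom f hf, ha'.hom _ (bd_comp hf _)]
    simp only [mul_assoc]⟩

theorem hm_one : Hm S (fun _ => 1) 1 :=
  ⟨hS.rt_one, fun _ => ct_one S, fun g f _ v => by simp⟩

theorem hm_mul {b b' : G → H →L[ℂ] H} {t t' : Γ} (hb : Hm S b t) (hb' : Hm S b' t') :
    Hm S (fun g => b g * b' g) (t' * t) :=
  ⟨hS.rt_mul _ _ hb.rt hb'.rt, fun g => ct_mul (hb.ct g) (hb'.ct g), fun g f hf v => by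
    rw [mul_ap, mul_ap, hb.hom g f hf, hb'.hom g _ (bd_comp hf _)]
    simp only [mul_assoc]⟩

theorem hm_shift {b : G → H →L[ℂ] H} {t : Γ} (hb : Hm S b t) (s : G) :
    Hm S (fun g => b (g * s)) t :=
  ⟨hS.rt_shift _ _ hb.rt, fun g => hb.ct _, fun g => hb.hom _⟩

theorem hm_star {b : G → H →L[ℂ] H} {t : Γ} (hb : Hm S b t) :
    Hm S (fun g => adjoint (b g)) t⁻¹ :=
  ⟨hS.rt_star _ hb.rt, fun g => hS.rt_adj _ _ hb.rt (hb.ct g), fun g f hf v => by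
    refine ext_inner_left ℂ fun w => ?_
    have hf' : Bd fun γ => f (γ * t⁻¹) := bd_comp hf _
    rw [← m_sa S hf, adjoint_inner_right, adjoint_inner_right, ← m_sa S hf', hb.hom g _ hf']
    simp only [mul_inv_cancel_right]⟩

/-- the adjoint of a homogeneous left piece is homogeneous -/
theorem hl_adj_hom {h : G} {a : H →L[ℂ] H} {s : Γ} (ha : Hl S h a s) (f : Γ → ℝ) (hf : Bd f) (v : H) :
    S.m f (adjoint a v) = adjoint a (S.m (fun γ => f (s⁻¹ * γ)) v) := by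
  refine ext_inner_left ℂ fun w => ?_
  have hf' : Bd fun γ => f (s⁻¹ * γ) := bd_comp hf _
  rw [← m_sa S hf, adjoint_inner_right, adjoint_inner_right, ← m_sa S hf', ha.hom _ hf']
  simp only [inv_mul_cancel_left]

end Ex

/-- what `B` sends to `E` comes from `E'` -/
def Sup (S : Sys G Γ H H₀) (B : H →L[ℂ] H) (E E' : Set Γ) : Prop :=
  ∀ v, Pr S E (B v) = Pr S E (B (Pr S E' v))

theorem Sup.norm_le {B : H →L[ℂ] H} {E E' : Set Γ} (h : Sup S B E E') {c : ℝ}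
    (hB : ∀ v, ‖B v‖ ≤ c * ‖v‖) (v : H) : ‖Pr S E (B v)‖ ≤ c * ‖Pr S E' v‖ := by
  rw [h v]; exact (norm_Pr_le S _ _).trans (hB _)

theorem Sup.norm_le' {B : H →L[ℂ] H} {E E' : Set Γ} (h : Sup S B E E')
    (hB : ∀ v, ‖B v‖ ≤ ‖v‖) (v : H) : ‖Pr S E (B v)‖ ≤ ‖Pr S E' v‖ := by
  rw [h v]; exact (norm_Pr_le S _ _).trans (hB _)

theorem Sup.add {B B' : H →L[ℂ] H} {E E' : Set Γ} (h : Sup S B E E') (h' : Sup S B' E E') :
    Sup S (B + B') E E' := fun v => by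
  rw [add_apply, add_apply, map_add, map_add, h v, h' v]

theorem Sup.sub {B B' : H →L[ℂ] H} {E E' : Set Γ} (h : Sup S B E E') (h' : Sup S B' E E') :
    Sup S (B - B') E E' := fun v => by
  rw [sub_apply, sub_apply, map_sub, map_sub, h v, h' v]

theorem Sup.smul {B : H →L[ℂ] H} {E E' : Set Γ} (h : Sup S B E E') (c : ℂ) :
    Sup S (c • B) E E' := fun v => by
  rw [smul_apply, smul_apply, map_smul, map_smul, h v]

theorem Sup.sum {ι : Type} (s : Finset ι) {B : ι → H →L[ℂ] H} {E E' : Set Γ}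
    (h : ∀ i ∈ s, Sup S (B i) E E') : Sup S (∑ i ∈ s, B i) E E' := fun v => by
  rw [sum_apply, sum_apply, map_sum, map_sum]
  exact Finset.sum_congr rfl fun i hi => h i hi v

theorem Sup.mul {B B' : H →L[ℂ] H} {E E' E'' : Set Γ} (h : Sup S B E E') (h' : Sup S B' E' E'') :
    Sup S (B * B') E E'' := fun v => by
  rw [mul_ap, mul_ap, h (B' v), h' v, ← h]

theorem Ex.sup_one (hS : Ex S) {E E' : Set Γ} (h : E ⊆ E') : Sup S 1 E E' := fun v =>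
  (hS.Pr_of_sub' h v).symm

theorem Ex.sup_hom (hS : Ex S) {a : H →L[ℂ] H} {φ : Γ → Γ}
    (ha : ∀ f, Bd f → ∀ v, S.m f (a v) = a (S.m (fun γ => f (φ γ)) v)) {E E' : Set Γ}
    (h : ∀ γ, φ γ ∈ E → γ ∈ E') : Sup S a E E' := fun v => by
  have e : (fun γ => E.indicator (1 : Γ → ℝ) (φ γ)) = (φ ⁻¹' E).indicator 1 := by
    funext γ
    by_cases h1 : φ γ ∈ E
    · rw [Set.indicator_of_mem h1, Set.indicator_of_mem (show γ ∈ φ ⁻¹' E from h1)]; rfl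
    · rw [Set.indicator_of_notMem h1, Set.indicator_of_notMem (show γ ∉ φ ⁻¹' E from h1)]
  rw [Pr, ha _ (bd_ind E), ha _ (bd_ind E), e]
  exact congrArg a (hS.Pr_of_sub' (E := φ ⁻¹' E) h v).symm

/-- The commutator of a contraction with a projection lives on the boundary layer. -/
theorem Ex.comm_Pr (hS : Ex S) {B : H →L[ℂ] H} {c : ℝ} (hB : ∀ v, ‖B v‖ ≤ c * ‖v‖) (hc : 0 ≤ c)
    {E E₁ E₂ : Set Γ} (h1 : E ⊆ E₁) (h2 : E₂ ⊆ E) (hs : Sup S B E E₁) (hs' : Sup S B Eᶜ E₂ᶜ) (v : H) :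
    ‖Pr S E (B v) - B (Pr S E v)‖ ≤ 2 * c * ‖Pr S (E₁ \ E₂) v‖ := by
  have e : Pr S E (B v) - B (Pr S E v) = Pr S E (B (Pr S Eᶜ v)) - Pr S Eᶜ (B (Pr S E v)) := by
    rw [Pr_compl, Pr_compl, map_sub, map_sub]; abel
  have a1 := hs.norm_le hB (Pr S Eᶜ v)
  have a2 := hs'.norm_le hB (Pr S E v)
  rw [hS.Pr_Pr] at a1 a2
  have b1 := Pr_mono S (show E₁ ∩ Eᶜ ⊆ E₁ \ E₂ from fun γ hγ => ⟨hγ.1, fun h => hγ.2 (h2 h)⟩) v
  have b2 := Pr_mono S (show E₂ᶜ ∩ E ⊆ E₁ \ E₂ from fun γ hγ => ⟨h1 hγ.2, hγ.1⟩) v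
  rw [e]
  refine (norm_sub_le _ _).trans ?_
  nlinarith [mul_le_mul_of_nonneg_left b1 hc, mul_le_mul_of_nonneg_left b2 hc]

end Vale.Agent.P092NW
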