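import Vale.Agent.P092NW.Ui

/-!
P092 (helper21), block B4: purity of types.
-/

set_option linter.all false

open Filter Topology Asymptotics
open scoped InnerProductSpace Pointwise

namespace Vale.Agent.P092NW

open Vale.Agent.P092WN

variable {G Γ H H₀ : Type} [Group G] [TopologicalSpace G] [Group Γ] [NormedAddCommGroup H]
  [InnerProductSpace ℂ H] [CompleteSpace H] [NormedAddCommGroup H₀] [InnerProductSpace ℂ H₀]
  {S : Sys G Γ H H₀} {len : Γ → ℝ} {r' : ℕ} {gap : Fin r' → Γ → ℝ} {C : ℝ} {T : ℝ → ℝ}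

theorem ind_eq {B : Set Γ} {γ γ' : Γ} (h : γ' ∈ B ↔ γ ∈ B) {δ : ℝ} (hδ : 0 ≤ δ) :
    |B.indicator (1 : Γ → ℝ) γ' - B.indicator 1 γ| ≤ δ := by
  by_cases h1 : γ ∈ B
  · simpa [h1, h.2 h1] using hδ
  · simpa [h1, mt h.1 h1] using hδ

theorem Ex.one_le_mass (hS : Ex S) (E : Set Γ) (g : G) :
    1 ≤ S.mass E (S.ζ g) + S.mass Eᶜ (S.ζ g) := by
  have h := Pr_union_le S E Eᶜ (S.ζ g)
  rwa [Set.union_compl_self, Pr_univ, hS.ζ_one] at h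

/-- **Purity.** -/
theorem purity (hT : Scale T) (hS : Ex S) (hG : Gp len gap C) (ht : S.Tail len T) {Q : Set G}
    (hQ : IsCompact Q) (h1Q : (1 : G) ∈ Q) {z : ℕ → G} (hz0 : z 0 = 1)
    (hz : ∀ n, z (n + 1) * (z n)⁻¹ ∈ Q) {p : ℕ} (hp : 0 < p) {s : Fin p → G} (hsQ : ∀ l, s l ∈ Q)
    (hc : ∀ l n, s l * z n = z n * s l) {θ : ℝ} (hθ : θ < 1)
    (hg : ∀ v, ‖((p : ℂ))⁻¹ • ∑ l, S.σ (s l) v‖ ≤ θ * ‖v‖) {k : ℕ} {E : ℕ → Set Γ}
    (hE : ∀ᶠ n : ℕ in atTop, S.mass (E n)ᶜ (S.ζ (z n)) ≤ Real.exp (-T^[k] n)) {ι : Type} [Fintype ι]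
    {B : ι → Set Γ} (hcov : ∀ᶠ n : ℕ in atTop, ∀ γ ∈ E n, ∃ i, γ ∈ B i)
    (hinv : ∀ᶠ n : ℕ in atTop, ∀ i, ∀ γ ∈ E n, ∀ u, len u ≤ T^[k + 1] n →
      (u * γ ∈ B i ↔ γ ∈ B i) ∧ (γ * u ∈ B i ↔ γ ∈ B i)) :
    ∃ i, Sm atTop (fun N : ℕ => T^[2 * k + 8] N) fun N => S.mass (B i)ᶜ (S.ζ (z N)) := by
  have tt := t_top hT nat_top
  obtain ⟨ρ, hρ, hui⟩ := ui_ev hT hS hG ht hQ h1Q hz0 hz hE (ν := fun _ => 1)
    (t_const hT nat_top _ _).isBigO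
  obtain ⟨n₂, hn₂⟩ := eventually_atTop.1 hinv
  have hρ' : Sm atTop (fun N : ℕ => T^[2 * k + 8] N) fun N => 2 * ρ N / (1 - θ) + 2 * ρ N := by
    have h2 := (Md.const (tt _) 2).mul_sm hρ
    simpa only [div_eq_mul_inv] using (h2.mul (Md.const (tt _) (1 - θ)⁻¹)).add (tt _) h2
  have hd : ∀ᶠ N : ℕ in atTop, ∀ i, S.mass (B i) (S.ζ (z N)) * S.mass (B i)ᶜ (S.ζ (z N)) ≤
      2 * ρ N / (1 - θ) + 2 * ρ N := by
    filter_upwards [hui, hinv, (tt (k + 5)).eventually_ge_atTop n₂] with N h1 h2 h3 i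
    have h4 := fun g (hg : g ∈ Q) => h1 _ (abs_ind (B i)) (fun n a _ γ hγ u hu =>
      ind_eq (hn₂ n (by exact_mod_cast h3.trans a) i γ hγ u hu).1 (Real.exp_pos _).le) g
      (by rwa [pow_one])
    have h5 : SlowR len ((B i).indicator 1) (E N) (T^[k + 1] N) (Real.exp (-T^[k + 1] N)) :=
      fun γ hγ u hu => ind_eq (h2 i γ hγ u hu).2 (Real.exp_pos _).le
    exact dich hS hp hθ hg (fun l => hc l N) ((norm_nonneg _).trans (h4 1 h1Q).1)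
      (fun l => (h4 _ (hsQ l)).1) (fun l => (h4 _ (hsQ l)).2 h5)
      (by simpa only [one_mul, Pr] using (h4 1 h1Q).1) (by simpa only [mul_one, Pr] using (h4 1 h1Q).2 h5)
  have hM : (0 : ℝ) < Fintype.card ι + 1 := by positivity
  have hs : ∀ᶠ N : ℕ in atTop, ∀ i,
      S.mass (B i)ᶜ (S.ζ (z (N + 1))) ≤ S.mass (B i)ᶜ (S.ζ (z N)) + 1 / 4 := by
    filter_upwards [hinv, hE, (tt (k + 1)).eventually (ap_tail hG ht hQ),
      (sm_exp' (u := fun N : ℕ => T^[k] N)).ev_lt (tt _) (show (0 : ℝ) < 1 / 8 by norm_num),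
      (sm_exp' (u := fun N : ℕ => T^[k + 1 + 1] N)).ev_lt (tt _) (show (0 : ℝ) < 1 / 8 by norm_num)]
      with N h1 h2 h3 h4 h5 i
    have h6 := (h3 _ (hz N)).1.some.mass_le hS (E := (B i)ᶜ) (E' := (B i)ᶜ ∪ (E N)ᶜ)
      (fun γ u hu h => by
        by_cases h7 : γ ∈ E N
        · exact Or.inl fun h8 => h ((h1 i γ h7 u hu).1.2 h8)
        · exact Or.inr h7) (z N)
    rw [inv_mul_cancel_right, T_it T] at h6
    have h7 := Pr_union_le S (B i)ᶜ (E N)ᶜ (S.ζ (z N))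
    simp only [mass_eq] at h2 h6 ⊢
    linarith
  obtain ⟨n₁, hn₁⟩ := eventually_atTop.1 (hd.and (hs.and (hcov.and (hE.and
    (((sm_exp' (u := fun N : ℕ => T^[k] N)).ev_lt (tt _) (show (0 : ℝ) < 1 / 4 by norm_num)).and
    (hρ'.ev_lt (tt _) (show (0 : ℝ) < 1 / (8 * (Fintype.card ι + 1)) by positivity)))))))
  obtain ⟨i, hi⟩ : ∃ i, 1 / (2 * (Fintype.card ι + 1)) ≤ S.mass (B i) (S.ζ (z n₁)) := by
    by_contra hn
    push Not at hn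
    obtain ⟨-, -, h3, h4, h5, -⟩ := hn₁ n₁ le_rfl
    have h6 := hS.one_le_mass (E n₁) (z n₁)
    have h7 := (Pr_mono S (show E n₁ ⊆ ⋃ i ∈ Finset.univ, B i from fun γ hγ => by
      simpa using h3 γ hγ) (S.ζ (z n₁))).trans ((Pr_biUnion_le S _ _ _).trans
      (Finset.sum_le_card_nsmul _ _ _ fun i _ => (hn i).le))
    rw [nsmul_eq_mul, Finset.card_univ, mul_one_div, ← mass_eq] at h7
    have h8 : (Fintype.card ι : ℝ) / (2 * (Fintype.card ι + 1)) ≤ 1 / 2 := by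
      rw [div_le_div_iff₀ (by positivity) two_pos]; linarith
    linarith
  have h8 : 1 / (8 * (Fintype.card ι + 1) : ℝ) ≤ 1 / 8 :=
    one_div_le_one_div_of_le (by norm_num) (by linarith [(Nat.cast_nonneg (Fintype.card ι) : (0 : ℝ) ≤ _)])
  have key : ∀ N, n₁ ≤ N → S.mass (B i)ᶜ (S.ζ (z N)) ≤ 1 / 4 := fun N hN => by
    induction N, hN using Nat.le_induction with
    | base =>
      obtain ⟨h1, -, -, -, -, h6⟩ := hn₁ n₁ le_rfl
      have h2 := (mul_le_mul_of_nonneg_right hi (mass_nonneg _ _)).trans ((h1 i).trans h6.le)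
      rw [div_mul_eq_mul_div, div_le_div_iff₀ (by positivity) (by positivity)] at h2
      nlinarith
    | succ N hN ih =>
      obtain ⟨h1, -, -, -, -, h6⟩ := hn₁ (N + 1) (hN.trans N.le_succ)
      have h2 := (hn₁ N hN).2.1 i
      have h3 := hS.one_le_mass (B i) (z (N + 1))
      nlinarith [h1 i, mass_nonneg (S := S) (B i)ᶜ (S.ζ (z (N + 1)))]
  refine ⟨i, ((Md.const (tt _) 2).mul_sm hρ').of_le ?_⟩
  filter_upwards [hd, eventually_ge_atTop n₁] with N h1 h2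
  rw [abs_of_nonneg (mass_nonneg _ _)]
  have h3 := hS.one_le_mass (B i) (z N)
  nlinarith [h1 i, key N h2, mass_nonneg (S := S) (B i)ᶜ (S.ζ (z N))]

/-- the type of the largest other gap -/
def Ty (gap : Fin r' → Γ → ℝ) (Θ : Finset (Fin r')) (i : Fin r') : Set Γ :=
  {γ | ∀ i', i' ∉ Θ → i' ≠ i → gap i' γ < gap i γ}

/-- exactly one new gap -/
def One (gap : Fin r' → Γ → ℝ) (Θ : Finset (Fin r')) (τ R t : ℝ) : Set Γ :=
  Big gap Θ τ ∩ ((Oth gap Θ R)ᶜ ∩ (Many gap (Θ.card + 2) t)ᶜ)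

theorem One.exists {Θ : Finset (Fin r')} {τ R t : ℝ} (h1 : t ≤ R) (h2 : t ≤ τ) {γ : Γ}
    (h : γ ∈ One gap Θ τ R t) :
    ∃ i, i ∉ Θ ∧ R < gap i γ ∧ ∀ i', i' ∉ Θ → i' ≠ i → gap i' γ < t := by
  obtain ⟨a, b, c⟩ := h
  simp only [Oth, Set.mem_compl_iff, Set.mem_setOf_eq, not_forall, not_le] at b
  obtain ⟨i, hi, b⟩ := b
  refine ⟨i, hi, b, fun i' hi' hne => not_le.1 fun d => c ⟨insert i' (insert i Θ), ?_, ?_⟩⟩
  · rw [Finset.card_insert_of_notMem (by simp [hi', hne]), Finset.card_insert_of_notMem hi]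
  · intro i'' h
    simp only [Finset.mem_insert] at h
    rcases h with rfl | rfl | h
    · exact d
    · exact h1.trans b.le
    · exact h2.trans (a _ h)

theorem ty_iff {Θ : Finset (Fin r')} {i i₀ : Fin r'} (hi : i ∉ Θ) (hi₀ : i₀ ∉ Θ) {γ : Γ}
    (h : ∀ i', i' ∉ Θ → i' ≠ i₀ → gap i' γ < gap i₀ γ) : γ ∈ Ty gap Θ i ↔ i = i₀ :=
  ⟨fun h1 => by_contra fun hne => lt_asymm (h i hi hne) (h1 i₀ hi₀ (Ne.symm hne)),
    fun h1 => h1 ▸ h⟩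

theorem One.inv {Θ : Finset (Fin r')} {τ R t D : ℝ} (h1 : t + 2 * D ≤ R) (hD : 0 ≤ D) (h2 : t ≤ τ)
    {γ γ' : Γ} (h : γ ∈ One gap Θ τ R t) (hγ : ∀ i, |gap i γ' - gap i γ| ≤ D) {i : Fin r'}
    (hi : i ∉ Θ) : γ' ∈ Ty gap Θ i ↔ γ ∈ Ty gap Θ i := by
  obtain ⟨i₀, a, b, c⟩ := One.exists (by linarith) h2 h
  rw [ty_iff hi a fun i' d e => by linarith [c i' d e, abs_le.1 (hγ i'), abs_le.1 (hγ i₀)],
    ty_iff hi a fun i' d e => by linarith [c i' d e]]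

theorem One.big {Θ : Finset (Fin r')} {τ R t τ' : ℝ} (h1 : t ≤ R) (h2 : t ≤ τ) (h3 : τ' ≤ t) {γ : Γ}
    (h : γ ∈ One gap Θ τ R t) {i : Fin r'} (hi : i ∉ Θ) (hγ : γ ∈ Ty gap Θ i) :
    γ ∈ Big gap (insert i Θ) τ' := by
  obtain ⟨i₀, a, b, c⟩ := One.exists h1 h2 h
  obtain rfl := (ty_iff hi a fun i' d e => by linarith [c i' d e]).1 hγ
  intro i' h'
  rcases Finset.mem_insert.1 h' with rfl | h'
  · linarith
  · linarith [h.1 i' h']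

theorem mass_one (Θ : Finset (Fin r')) (τ R t : ℝ) (v : H) : S.mass (One gap Θ τ R t)ᶜ v ≤
    S.mass (Big gap Θ τ)ᶜ v + (S.mass (Oth gap Θ R) v + S.mass (Many gap (Θ.card + 2) t) v) := by
  rw [One, Set.compl_inter, Set.compl_inter, compl_compl, compl_compl]
  exact (Pr_union_le S _ _ v).trans (add_le_add le_rfl (Pr_union_le S _ _ v))

end Vale.Agent.P092NW
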