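import Vale.Agent.P092NW.New
import Vale.Agent.P092NW.Pur

/-!
P092 (helper21), block B4: the induction over the faces.
-/

set_option linter.all false

open Filter Topology Asymptotics MeasureTheory
open scoped InnerProductSpace Pointwise

namespace Vale.Agent.P092NW

open Vale.Agent.P092WN

variable {G Γ H H₀ : Type} [Group G] [TopologicalSpace G] [Group Γ] [NormedAddCommGroup H]
  [InnerProductSpace ℂ H] [CompleteSpace H] [NormedAddCommGroup H₀] [InnerProductSpace ℂ H₀]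
  {S : Sys G Γ H H₀} {len : Γ → ℝ} {r' : ℕ} {gap : Fin r' → Γ → ℝ} {C : ℝ} {T : ℝ → ℝ}
  {G' : Type} [Group G'] [TopologicalSpace G'] [IsTopologicalGroup G'] [MeasurableSpace G']
  [OpensMeasurableSpace G'] [T2Space G'] {μ' : Measure G'} [IsFiniteMeasureOnCompacts μ']
  {e : Γ →* G'} {c₀ : ℝ} {d r : ℕ} {a : (Fin r → ℤ) → G} {Q : Set G} {c : ℝ}

/-- **The upper bound** for the number of large gaps on a face. -/
def UBs (S : Sys G Γ H H₀) (gap : Fin r' → Γ → ℝ) (a : (Fin r → ℤ) → G) (T : ℝ → ℝ) : Prop :=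
  ∀ j : ℕ, j ≤ r → ∀ᶠ t in atTop, ∀ g ∈ Face a j,
    S.mass (Many gap (j + 1) t) (S.ζ g) ≤ Real.exp (-T^[6] t)

/-- the path of a family of clocks -/
def pth (a : (Fin r → ℤ) → G) (n : Fin r → ℕ → ℕ) (N : ℕ) : G := a fun i => (n i N : ℤ)

/-- The induction hypothesis on the `j`-th face. -/
structure Lvl (S : Sys G Γ H H₀) (gap : Fin r' → Γ → ℝ) (a : (Fin r → ℤ) → G) (T : ℝ → ℝ) (j k : ℕ)
    (n : Fin r → ℕ → ℕ) (Θ : Finset (Fin r')) : Prop where
  clk : ∀ i, Clock (n i)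
  zero : ∀ i : Fin r, j ≤ i.val → ∀ N, n i N = 0
  low : ∀ i : Fin r, i.val < j → ∀ᶠ N : ℕ in atTop, T^[k] N ≤ n i N
  card : Θ.card = j
  near : ∀ᶠ N : ℕ in atTop, S.mass (Big gap Θ (T^[k] N))ᶜ (S.ζ (pth a n N)) ≤ Real.exp (-T^[k] N)

theorem Src.pth_zero (hs : Src S μ' e a Q c) {n : Fin r → ℕ → ℕ} (h : ∀ i, Clock (n i)) :
    pth a n 0 = 1 := by
  rw [← hs.a_zero, pth]
  congr 1
  funext i
  simp [(h i).1]

theorem Src.pth_step (hs : Src S μ' e a Q c) {n : Fin r → ℕ → ℕ} (h : ∀ i, Clock (n i)) (N : ℕ) :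
    pth a n (N + 1) * (pth a n N)⁻¹ ∈ Q := by
  rw [pth, pth, hs.a_sub]
  refine hs.step _ fun i => ?_
  rcases (h i).2 N with h1 | h1 <;> simp [h1]

theorem pth_face {j : ℕ} {n : Fin r → ℕ → ℕ} (h : ∀ i : Fin r, j ≤ i.val → ∀ N, n i N = 0) (N : ℕ) :
    pth a n N ∈ Face a j := ⟨_, fun i hi => by simp [h i hi], rfl⟩

theorem Src.pth_update (hs : Src S μ' e a Q c) {n : Fin r → ℕ → ℕ} {j : Fin r} (h : ∀ N, n j N = 0)
    (ν : ℕ → ℕ) (N : ℕ) :
    pth a (Function.update n j ν) N = pth a n N * a (Pi.single j (ν N : ℤ)) := by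
  rw [pth, pth, ← hs.add]
  congr 1
  funext i
  by_cases hi : i = j
  · subst hi; simp [h]
  · simp [hi]

theorem lvl_zero (T : ℝ → ℝ) : Lvl S gap a T 0 0 (fun _ _ => 0) ∅ :=
  ⟨fun _ => ⟨rfl, fun _ => Or.inl rfl⟩, fun _ _ _ => rfl, fun _ h => absurd h (Nat.not_lt_zero _), rfl,
    Eventually.of_forall fun N => by
      have e : (Big gap ∅ (T^[0] (N : ℝ)))ᶜ = ∅ := Set.compl_empty_iff.2 (by ext; simp [Big])
      rw [e, mass_eq, Pr_empty, norm_zero]
      exact (Real.exp_pos _).le⟩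

/-- **The induction step.** -/
theorem lvl_step (hT : Scale T) (hS : Ex S) (hG : Gp len gap C) (hgeo : Geo μ' e len gap C c₀ d)
    (hs : Src S μ' e a Q c) (hr : r' ≤ r) (ht : S.Tail len T) (hub : UBs S gap a T) (j : Fin r) {k : ℕ}
    {n : Fin r → ℕ → ℕ} {Θ : Finset (Fin r')} (h : Lvl S gap a T j k n Θ) :
    ∃ k' n' Θ', Lvl S gap a T (j + 1) k' n' Θ' := by
  have tt := t_top hT nat_top
  have oo : ∀ {i j : ℕ}, i < j → (fun N : ℕ => T^[j] (N : ℝ)) =o[atTop] fun N : ℕ => T^[i] (N : ℝ) :=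
    fun h => t_o hT nat_top h
  have ll : ∀ {i j : ℕ}, i ≤ j → ∀ᶠ N : ℕ in atTop, T^[j] (N : ℝ) ≤ T^[i] (N : ℝ) :=
    fun h => t_le hT nat_top h
  obtain ⟨ν, hc, hν⟩ := exists_clock hT (2 * k + 11)
  obtain ⟨hB, hO⟩ := new_gap hT hS hG hgeo hs ht j (hs.pth_zero h.clk) (hs.pth_step h.clk)
    (pth_face h.zero) h.near hν
  simp only [← hs.pth_update (h.zero j le_rfl)] at hB hO
  set n' := Function.update n j ν with hn'
  have clk : ∀ i, Clock (n' i) := fun i => by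
    by_cases hi : i = j
    · subst hi; simpa [hn'] using hc
    · simpa [hn', hi] using h.clk i
  have zero : ∀ i : Fin r, j.val + 1 ≤ i.val → ∀ N, n' i N = 0 := fun i hi N => by
    have h1 : i ≠ j := fun h2 => by subst h2; omega
    simpa [hn', h1] using h.zero i (by omega) N
  have hU : Sm atTop (fun N : ℕ => T^[2 * k + 22] N) fun N : ℕ =>
      S.mass (Many gap (Θ.card + 2) (T^[2 * k + 16] N)) (S.ζ (pth a n' N)) := by
    refine sm_exp'.of_le (((tt (2 * k + 16)).eventually (hub (j + 1) j.2)).mono fun N h1 => ?_)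
    have h2 := h1 _ (pth_face zero N)
    rw [it_it, show 6 + (2 * k + 16) = 2 * k + 22 by omega] at h2
    rwa [abs_of_nonneg (mass_nonneg _ _), h.card]
  have hE : Sm atTop (fun N : ℕ => T^[2 * k + 22] N) fun N : ℕ =>
      S.mass (One gap Θ (T^[k + 1] N) (T^[2 * k + 14] N) (T^[2 * k + 16] N))ᶜ (S.ζ (pth a n' N)) :=
    ((Sm.up hT nat_top (by omega) hB).add (tt _) ((Sm.up hT nat_top (by omega) hO).add (tt _)
      hU)).of_le (Eventually.of_forall fun N => by
        rw [abs_of_nonneg (mass_nonneg _ _)]; exact mass_one _ _ _ _ _)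
  have l1 := ll (show 2 * k + 14 ≤ 2 * k + 16 by omega)
  have l2 := ll (show k + 1 ≤ 2 * k + 16 by omega)
  obtain ⟨i, hi, hP⟩ : ∃ i, i ∉ Θ ∧ Sm atTop (fun N : ℕ => T^[2 * (2 * k + 23) + 8] N) fun N : ℕ =>
      S.mass (Ty gap Θ i)ᶜ (S.ζ (pth a n' N)) := by
    by_cases hj : j.val + 1 < r
    · obtain ⟨p, s, hp, hsQ, θ, -, hθ, hg⟩ := hs.gap ⟨j + 1, hj⟩
      obtain ⟨i, hi⟩ := purity hT hS hG ht hs.cpt hs.one (hs.pth_zero clk) (hs.pth_step clk) hp
        (fun l => (hsQ l).1) (fun l N => cz_comm (hsQ l).2 (pth_face zero N)) hθ hg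
        (Sm.fin hT nat_top (show 2 * k + 22 < 2 * k + 23 by omega) hE) (ι := {i // i ∉ Θ})
        (B := fun i => Ty gap Θ i) (by
          filter_upwards [l1, l2] with N a1 a2 γ hγ
          obtain ⟨i, b1, b2, b3⟩ := One.exists a1 a2 hγ
          exact ⟨⟨i, b1⟩, fun i' c1 c2 => by linarith [b3 i' c1 c2]⟩) (by
          filter_upwards [l2, (tt (2 * k + 23 + 1)).eventually_ge_atTop 0, lo_le' (tt (2 * k + 14))
            ((oo (show 2 * k + 14 < 2 * k + 16 by omega)).add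
            (((oo (show 2 * k + 14 < 2 * k + 23 + 1 by omega)).const_mul_left C).const_mul_left 2))]
            with N a2 a3 a4 i γ hγ u hu
          exact ⟨One.inv a4 (mul_nonneg hG.C_nonneg a3) a2 hγ (fun i => hG.lipL i hu γ) i.2,
            One.inv a4 (mul_nonneg hG.C_nonneg a3) a2 hγ (fun i => hG.lipR i hu γ) i.2⟩)
      exact ⟨i, i.2, hi⟩
    · obtain ⟨N, a1, a2, a3⟩ := (l1.and (l2.and (hE.ev_lt (tt _) one_pos))).exists
      obtain ⟨γ, hγ⟩ : (One gap Θ (T^[k + 1] N) (T^[2 * k + 14] N) (T^[2 * k + 16] N)).Nonempty := by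
        by_contra h1
        rw [Set.not_nonempty_iff_eq_empty.1 h1, Set.compl_empty, mass_eq, Pr_univ, hS.ζ_one] at a3
        exact lt_irrefl _ a3
      obtain ⟨i, b1, -⟩ := One.exists a1 a2 hγ
      refine ⟨i, b1, sm_exp'.of_le (Eventually.of_forall fun N => ?_)⟩
      have e : (Ty gap Θ i)ᶜ = ∅ := Set.compl_empty_iff.2 (Set.eq_univ_of_forall fun γ i' c1 c2 => by
        have c3 := Finset.card_le_univ (insert i' (insert i Θ))
        rw [Finset.card_insert_of_notMem (by simp [c1, c2]), Finset.card_insert_of_notMem b1,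
          h.card, Fintype.card_fin] at c3
        omega)
      rw [e, mass_eq, Pr_empty, norm_zero, abs_zero]
      exact (Real.exp_pos _).le
  refine ⟨2 * (2 * k + 23) + 9, n', insert i Θ, clk, zero, fun i' hi' => ?_,
    by rw [Finset.card_insert_of_notMem hi, h.card], ?_⟩
  · by_cases h1 : i' = j
    · subst h1
      filter_upwards [hν, ll (show 2 * k + 11 + 1 ≤ 2 * (2 * k + 23) + 9 by omega)] with N a1 a2
      simpa [hn'] using a2.trans a1.1
    · have h2 : i'.val < j.val := by have := Fin.val_ne_of_ne h1; omega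
      filter_upwards [h.low i' h2, ll (show k ≤ 2 * (2 * k + 23) + 9 by omega)] with N a1 a2
      simpa [hn', h1] using a2.trans a1
  · filter_upwards [Sm.fin hT nat_top (Nat.lt_succ_self _) (hP.add (tt _)
      (Sm.up hT nat_top (by omega) hE)), l1, l2,
      ll (show 2 * k + 16 ≤ 2 * (2 * k + 23) + 9 by omega)] with N a0 a1 a2 a3
    refine (Pr_sub_union S (fun γ hγ => ?_) _).trans a0
    by_contra h1
    simp only [Set.mem_union, Set.mem_compl_iff, not_or, not_not] at h1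
    exact hγ (One.big a1 a2 a3 h1.2 hi h1.1)

/-- **Near wall rate**, given the upper bound. -/
theorem nearWall_of (hT : Scale T) (hS : Ex S) (hG : Gp len gap C) (hgeo : Geo μ' e len gap C c₀ d)
    (hs : Src S μ' e a Q c) (hr : r' ≤ r) (ht : S.Tail len T) (hub : UBs S gap a T) :
    r' = r ∧ ∃ (k : ℕ) (n : Fin r → ℕ → ℕ), (∀ i, Clock (n i)) ∧
      (∀ i, ∀ᶠ N : ℕ in atTop, T^[k + 1] N ≤ n i N) ∧
      ∀ i, S.NearWall (gap i) T^[k + 1] fun N => a fun i => (n i N : ℤ) := by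
  have key : ∀ j, j ≤ r → ∃ k n Θ, Lvl S gap a T j k n Θ := fun j hj => by
    induction j with
    | zero => exact ⟨_, _, _, lvl_zero T⟩
    | succ j ih =>
      obtain ⟨k, n, Θ, h⟩ := ih (by omega)
      exact lvl_step hT hS hG hgeo hs hr ht hub ⟨j, hj⟩ h
  obtain ⟨k, n, Θ, h⟩ := key r le_rfl
  have h1 := Finset.card_le_univ Θ
  rw [h.card, Fintype.card_fin] at h1
  have h2 : r' = r := le_antisymm hr h1
  have h3 : Θ = Finset.univ := Finset.eq_univ_of_card _ (by rw [h.card, Fintype.card_fin, h2])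
  have tt := t_top hT nat_top
  refine ⟨h2, k, n, h.clk, fun i => ?_, fun i => ?_⟩
  · filter_upwards [h.low i i.2, t_le hT nat_top k.le_succ] with N a1 a2 using a2.trans a1
  · filter_upwards [h.near, lo_le' (tt k) ((t_o hT nat_top k.lt_succ_self).add
      (t_const hT nat_top k 1))] with N a1 a2
    refine (Pr_mono S (E' := (Big gap Θ (T^[k] N))ᶜ) (fun γ hγ h4 => ?_) _).trans
      (a1.trans (Real.exp_le_exp.2 (by linarith)))
    have h5 := h4 i (h3 ▸ Finset.mem_univ i)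
    change gap i γ ≤ _ at hγ
    linarith

theorem tail_mono {T' : ℝ → ℝ} (hS : Ex S) (ht : S.Tail len T) (h : ∀ᶠ x in atTop, T' x ≤ T x) :
    S.Tail len T' := by
  refine ⟨?_, fun Q hQ => ?_⟩
  · filter_upwards [ht.1, h] with J ⟨y⟩ h1
    exact ⟨{ y with err := y.err.trans (Real.exp_le_exp.2 (neg_le_neg h1)) }⟩
  · filter_upwards [ht.2 Q hQ, h] with J h0 h1 g hg
    obtain ⟨⟨y⟩, ⟨y'⟩⟩ := h0 g hg
    have h2 := Real.exp_le_exp.2 (neg_le_neg h1)
    exact ⟨⟨{ y with err := fun v A hv =>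
        (y.err v A hv).trans (mul_le_mul_of_nonneg_right h2 (hS.am_nonneg v A hv)) }⟩,
      ⟨{ y' with err := fun g v A hv =>
        (y'.err g v A hv).trans (mul_le_mul_of_nonneg_right h2 (hS.am_nonneg v A hv)) }⟩⟩

theorem tail_it (hT : Scale T) (hS : Ex S) (ht : S.Tail len T) (k : ℕ) : S.Tail len T^[k + 1] :=
  tail_mono hS ht (t_le hT tendsto_id (Nat.le_add_left 1 k))

end Vale.Agent.P092NW
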