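import Vale.Agent.P092NW.Int
import Vale.Agent.P092NW.Amp

/-!
P092 (helper21), block B4: the lower bound for the new gap.
-/

set_option linter.all false

open Filter Topology MeasureTheory ContinuousLinearMap
open scoped InnerProductSpace

namespace Vale.Agent.P092NW

open Vale.Agent.P092WN

variable {G Γ H H₀ : Type} [Group G] [Group Γ] [NormedAddCommGroup H] [InnerProductSpace ℂ H]
  [CompleteSpace H] [NormedAddCommGroup H₀] [InnerProductSpace ℂ H₀] {S : Sys G Γ H H₀}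
  {len : Γ → ℝ}

/-- commutator with a family of functions -/
theorem RB.comm' {s : G} {J N ε : ℝ} (y : RB S len s J N ε) {f : Γ → ℝ} {f' : y.ι → Γ → ℝ} {δ : ℝ}
    (hδ : 0 ≤ δ) (hf : ∀ γ, |f γ| ≤ 1) (hf' : ∀ i γ, |f' i γ| ≤ 1) {E : Set Γ}
    (hE : ∀ i, ∀ γ ∈ E, |f (γ * y.deg i) - f' i γ| ≤ δ) (g : G) (v : H) :
    ‖S.m f (y.op g v) - ∑ i, y.r i g (S.m (f' i) v)‖ ≤ N * (δ * ‖v‖ + 2 * ‖Pr S Eᶜ v‖) := by
  rw [RB.op, sum_apply, map_sum, ← Finset.sum_sub_distrib]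
  refine (norm_sum_le _ _).trans ((Finset.sum_le_card_nsmul _ _
    (δ * ‖v‖ + 2 * ‖Pr S Eᶜ v‖) fun i _ => ?_).trans ?_)
  · rw [(y.hm i).hom g f (bd_of hf), ← map_sub, ← m_sub S (bd_comp (bd_of hf) _) (bd_of (hf' i))]
    refine (((y.hm i).ct g).1 _).trans (m_split S (by positivity) hδ (fun γ => ?_) (hE i) v)
    exact (abs_sub _ _).trans (by linarith [hf (γ * y.deg i), hf' i γ])
  · rw [nsmul_eq_mul, Finset.card_univ]
    exact mul_le_mul_of_nonneg_right y.card (by positivity)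

theorem sum_fin_const (p : ℕ) (c : ℝ) : ∑ _l : Fin p, c = p * c := by simp

theorem norm_inner_sub_le {a a' b b' : H} {u w : ℝ} (ha : ‖a - a'‖ ≤ u) (hb : ‖b - b'‖ ≤ w)
    (h1 : ‖b‖ ≤ 1) (h2 : ‖a'‖ ≤ 1) : ‖⟪a, b⟫_ℂ - ⟪a', b'⟫_ℂ‖ ≤ u + w := by
  have e : ⟪a, b⟫_ℂ - ⟪a', b'⟫_ℂ = ⟪a - a', b⟫_ℂ + ⟪a', b - b'⟫_ℂ := by
    rw [inner_sub_left, inner_sub_right]; ring
  rw [e]
  refine (norm_add_le _ _).trans (add_le_add ((norm_inner_le_norm _ _).trans ?_)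
    ((norm_inner_le_norm _ _).trans ?_))
  · exact (mul_le_of_le_one_right (norm_nonneg _) h1).trans ha
  · exact (mul_le_of_le_one_left (norm_nonneg _) h2).trans hb

variable {G' : Type} [Group G'] [TopologicalSpace G'] [IsTopologicalGroup G'] [MeasurableSpace G']
  [OpensMeasurableSpace G'] [T2Space G'] {μ' : Measure G'} [IsFiniteMeasureOnCompacts μ']
  {e : Γ →* G'} {r' : ℕ} {gap : Fin r' → Γ → ℝ} {C c₀ : ℝ} {d : ℕ} {Θ : Finset (Fin r')} {J R : ℝ}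
  {A A' : Set G'} {ψ F : G' → Γ → ℝ}

theorem GeoD.subset (hD : GeoD μ' e len gap C c₀ d Θ J R A A' ψ F) (hG : Gp len gap C) (hJ : 0 ≤ J) :
    A ⊆ A' := fun x hx => by simpa using hD.sub x hx 1 (by rwa [hG.len_one])

theorem GeoD.volA (hD : GeoD μ' e len gap C c₀ d Θ J R A A' ψ F) (hG : Gp len gap C) (hJ : 0 ≤ J) :
    μ'.real A ≤ Real.exp (C * J) :=
  let ⟨_, hK, h1⟩ := hD.cpt
  (measureReal_mono (hD.subset hG hJ) (fin_of hK h1)).trans hD.vol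

/-- **The lower bound.** -/
theorem low_bound (hS : Ex S) (hG : Gp len gap C) (hD : GeoD μ' e len gap C c₀ d Θ J R A A' ψ F)
    (hJ : 0 ≤ J) {p : ℕ} {s : Fin p → G} (hP : Pair S μ' e s) {z : G}
    (hc : ∀ l, s l * z = z * s l) {N ε : ℝ} (y : ∀ l, RB S len (s l) J N ε) {τ β ρ : ℝ}
    (hτ : C * (J + R) ≤ τ) (hβ : S.mass (Big gap Θ τ)ᶜ (S.ζ z) ≤ β)
    (hρ : ∀ x ∈ A, ∀ l, ‖S.L (s l) (S.m (ψ x) (S.ζ z)) - S.m (ψ x) (S.ζ (s l * z))‖ ≤ ρ) :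
    c₀ * ∑ l, S.mass (Big gap Θ (C * (J + R)) ∩ Oth gap Θ R) (S.ζ (z * s l)) ^ 2 ≤
      2 * √(p : ℝ) * (√(Real.exp (C * R) * J ^ d + Real.exp (C * J) * β ^ 2) * √C) +
        p * (C * ε + Real.exp (C * J) * |N * (Real.exp (C * J - τ) + 2 * β) + ρ|) := by
  obtain ⟨K, hK, hA'⟩ := hD.cpt
  have hA : A ⊆ K := (hD.subset hG hJ).trans hA'
  have hC := hG.C_nonneg
  have hβ0 : 0 ≤ β := (mass_nonneg _ _).trans hβ
  have hX := hD.ucF.int_sq (μ' := μ') hS hK hA' (by positivity) hD.volF (S.ζ z)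
  have hY := hD.ucψ.int_sq (μ' := μ') hS hK hA hC (E := Set.univ) (fun γ _ => hD.volψ γ) (S.ζ z)
  rw [hS.ζ_one, one_pow, mul_one] at hX hY
  rw [Set.compl_univ, Pr_empty, norm_zero, zero_pow two_ne_zero, mul_zero, add_zero] at hY
  have hb : ‖Pr S (Big gap Θ (C * (J + R)))ᶜ (S.ζ z)‖ ≤ β :=
    (Pr_mono S (Set.compl_subset_compl.2 ((hG.lev_big Θ).anti hτ)) _).trans hβ
  have h1 := hP z (fun l => (y l).ι) (fun l => (y l).deg) (fun l => (y l).r) (fun l => (y l).hm)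
    (fun l => (y l).ct) _ _ (hD.ucF.cont_m S (S.ζ z)) (hD.ucψ.cont_m S (S.ζ z)) A A' K hD.mA hD.mA'
    hK hA hA' (fun x hx l i => hD.sub x hx _ ((y l).len_le i))
    √(Real.exp (C * R) * J ^ d + Real.exp (C * J) * β ^ 2) √C (Real.sqrt_nonneg _)
    (Real.sqrt_nonneg _) (by
      rw [Real.sq_sqrt (by positivity)]
      exact hX.trans (add_le_add le_rfl (mul_le_mul hD.vol
        (pow_le_pow_left₀ (norm_nonneg _) hb 2) (by positivity) (by positivity))))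
    (by rwa [Real.sq_sqrt hC])
  refine le_trans ?_ (add_le_add h1 le_rfl)
  rw [Finset.mul_sum, ← sum_fin_const, ← Finset.sum_add_distrib]
  refine Finset.sum_le_sum fun l _ => ?_
  have hU := hD.ucF.mul hD.ucψ
  set ζ' := S.ζ (z * s l) with hζ'
  have h2 := hU.le_int (μ' := μ') hS hK hA (E := Big gap Θ (C * (J + R)) ∩ Oth gap Θ R)
    (fun γ hγ => hD.low γ hγ.1 hγ.2) ζ'
  have h3 := hU.norm_int_inner (μ' := μ') S hK hA hC (fun γ => (hU.int_mono hD.ucψ hK hA fun x =>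
    mul_le_of_le_one_left (hD.ucψ.nonneg x γ) (hD.ucF.le_one x γ)).trans (hD.volψ γ))
    ((y l).op z (S.ζ z) - ζ') ζ'
  rw [hζ', hS.ζ_one, mul_one, ← hζ'] at h3
  have c1 : ∀ w, Continuous fun x => ⟪w, S.m (fun γ => F x γ * ψ x γ) ζ'⟫_ℂ := fun w =>
    continuous_const.inner (hU.cont_m S ζ')
  have c2 : Continuous fun x => ⟪∑ i, (y l).r i z (S.m (F (x * (e ((y l).deg i))⁻¹)) (S.ζ z)),
      S.L (s l) (S.m (ψ x) (S.ζ z))⟫_ℂ :=
    (continuous_finset_sum _ fun i _ => ((y l).r i z).continuous.comp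
      ((hD.ucF.comp (continuous_mul_right _)).cont_m S _)).inner
      ((S.L (s l)).continuous.comp (hD.ucψ.cont_m S _))
  have h4 : ‖∫ x in A, (⟪(y l).op z (S.ζ z), S.m (fun γ => F x γ * ψ x γ) ζ'⟫_ℂ -
      ⟪∑ i, (y l).r i z (S.m (F (x * (e ((y l).deg i))⁻¹)) (S.ζ z)),
        S.L (s l) (S.m (ψ x) (S.ζ z))⟫_ℂ) ∂μ'‖ ≤
      |N * (Real.exp (C * J - τ) + 2 * β) + ρ| * μ'.real A := by
    refine norm_setIntegral_le_of_norm_le_const (fin_of hK hA).lt_top fun x hx => ?_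
    rw [hS.m_mul _ _ (hD.ucF.bd x) (hD.ucψ.bd x), ← m_sa S (hD.ucF.bd x), norm_sub_rev]
    have a1 := (y l).comm' (Real.exp_pos _).le (hD.ucF.abs_le x)
      (fun i => hD.ucF.abs_le (x * (e ((y l).deg i))⁻¹))
      (fun i γ hγ => hD.slowF x hx τ γ _ hγ ((y l).len_le i)) z (S.ζ z)
    rw [hS.ζ_one, mul_one, norm_sub_rev] at a1
    refine (norm_inner_sub_le (a1.trans (mul_le_mul_of_nonneg_left (add_le_add le_rfl
      (mul_le_mul_of_nonneg_left hβ zero_le_two)) (y l).N_nonneg)) (by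
        rw [hζ', ← hc l]; exact hρ x hx l) ?_ ?_).trans (le_abs_self _)
    · exact (S.L_le _ _).trans ((norm_m_unit S (hD.ucψ.abs_le x) _).trans (S.ζ_norm _))
    · exact (norm_m_unit S (hD.ucF.abs_le x) _).trans (((y l).norm_le _ _).trans (S.ζ_norm _))
  simp only [inner_sub_left] at h3
  rw [integral_sub (intOn (c1 _) hK hA) (intOn (c1 _) hK hA)] at h3
  rw [integral_sub (intOn (c1 _) hK hA) (intOn c2 hK hA)] at h4
  have h5 := mul_le_mul_of_nonneg_left ((y l).err_ζ z) hC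
  have h6 := mul_le_mul_of_nonneg_left (hD.volA hG hJ)
    (abs_nonneg (N * (Real.exp (C * J - τ) + 2 * β) + ρ))
  rw [mass_eq]
  refine h2.trans ?_
  have h7 := norm_sub_norm_le (∫ x in A, ⟪ζ', S.m (fun γ => F x γ * ψ x γ) ζ'⟫_ℂ ∂μ')
    (∫ x in A, ⟪(y l).op z (S.ζ z), S.m (fun γ => F x γ * ψ x γ) ζ'⟫_ℂ ∂μ')
  rw [norm_sub_rev] at h7
  have h8 := (norm_sub_norm_le _ _).trans h4
  rw [← hζ'] at h5
  linarith

end Vale.Agent.P092NW
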