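import Vale.Agent.P092NW.Ui
import Vale.Agent.P092NW.Low

/-!
P092 (helper21), block B4: a new gap appears after a step into the next face.
-/

set_option linter.all false

open Filter Topology Asymptotics MeasureTheory
open scoped InnerProductSpace Pointwise

namespace Vale.Agent.P092NW

open Vale.Agent.P092WN

variable {G Γ H H₀ : Type} [Group G] [TopologicalSpace G] [Group Γ] [NormedAddCommGroup H]
  [InnerProductSpace ℂ H] [CompleteSpace H] [NormedAddCommGroup H₀] [InnerProductSpace ℂ H₀]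
  {S : Sys G Γ H H₀} {len : Γ → ℝ} {r' : ℕ} {gap : Fin r' → Γ → ℝ} {C : ℝ} {T : ℝ → ℝ}

/-- two-sided transport of mass -/
theorem mass_two (hS : Ex S) {h h' : G} {J N ε : ℝ} (y : Ap S len h J N ε) (y' : Ap S len h' J N ε)
    {E E' : Set Γ} (hE : ∀ γ s t, len s ≤ J → len t ≤ J → s * (γ * t) ∈ E → γ ∈ E') (g : G) :
    S.mass E (S.ζ (h * (g * h'))) ≤ S.mass E' (S.ζ g) + 2 * ε := by
  have h1 := y.1.some.mass_le hS (E := E) (E' := {γ | ∃ s, len s ≤ J ∧ s * γ ∈ E})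
    (fun γ s a b => ⟨s, a, b⟩) (g * h')
  have h2 := y'.2.some.mass_le hS (E := {γ | ∃ s, len s ≤ J ∧ s * γ ∈ E}) (E' := E')
    (fun γ t a ⟨s, b, c⟩ => hE γ s t b a c) g
  linarith

theorem Gp.lip2 (hG : Gp len gap C) (i : Fin r') {J : ℝ} {s t : Γ} (hs : len s ≤ J) (ht : len t ≤ J)
    (γ : Γ) : |gap i (s * (γ * t)) - gap i γ| ≤ 2 * (C * J) := by
  rw [← mul_assoc]
  exact (hG.lip i s γ t).trans (by nlinarith [hG.C_nonneg])

variable {G' : Type} [Group G'] [TopologicalSpace G'] [IsTopologicalGroup G'] [MeasurableSpace G']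
  [OpensMeasurableSpace G'] [T2Space G'] {μ' : Measure G'} [IsFiniteMeasureOnCompacts μ']
  {e : Γ →* G'} {c₀ : ℝ} {d r : ℕ} {a : (Fin r → ℤ) → G} {Q : Set G} {c : ℝ}

namespace Src

variable (h : Src S μ' e a Q c)
include h

theorem a_zero : a 0 = 1 := by
  have h1 := h.add 0 0
  rw [add_zero] at h1
  exact mul_eq_left.1 h1.symm

theorem comm (t s : Fin r → ℤ) : a t * a s = a s * a t := by rw [← h.add, ← h.add, add_comm]

theorem a_sub (t s : Fin r → ℤ) : a t * (a s)⁻¹ = a (t - s) := by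
  rw [mul_inv_eq_iff_eq_mul, ← h.add, sub_add_cancel]

theorem single_mem (j : Fin r) (n : ℕ) : a (Pi.single j (n : ℤ)) ∈ Q ^ n := by
  induction n with
  | zero => simp [h.a_zero]
  | succ n ih =>
    rw [pow_succ, Nat.cast_add_one, Pi.single_add, h.add]
    refine Set.mul_mem_mul ih (h.step _ fun i => ?_)
    by_cases hi : i = j
    · subst hi; simp
    · simp [hi]

theorem word_mem (j : Fin r) (n : ℕ) {κ κ' : G} (h1 : κ ∈ Q) (h2 : κ' ∈ Q) :
    κ * a (Pi.single j (n : ℤ)) * κ' ∈ Q ^ (n + 2) := by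
  rw [pow_succ, pow_succ']
  exact Set.mul_mem_mul (Set.mul_mem_mul h1 (h.single_mem j n)) h2

theorem a_mem_Cz (t : Fin r → ℤ) (j : ℕ) : a t ∈ Cz a j := by
  rintro _ ⟨s, -, rfl⟩
  exact h.comm s t

end Src

theorem cz_comm {j : ℕ} {κ z : G} (h : κ ∈ Cz a j) (hz : z ∈ Face a j) : κ * z = z * κ :=
  (h z hz).symm

theorem one_div_sqrt_le {p c x : ℝ} (h : Real.exp (c * x) ≤ p) :
    √p ≤ p * Real.exp (-(c / 2 * x)) := by
  have hp : 0 < p := (Real.exp_pos _).trans_le h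
  have h1 : Real.exp (c / 2 * x) ≤ √p := by
    rw [Real.le_sqrt (Real.exp_pos _).le hp.le, sq, ← Real.exp_add]
    exact le_trans (le_of_eq (by ring_nf)) h
  rw [Real.exp_neg, ← div_eq_mul_inv, le_div_iff₀ (Real.exp_pos _)]
  nth_rewrite 2 [← Real.mul_self_sqrt hp.le]
  exact mul_le_mul_of_nonneg_left h1 (Real.sqrt_nonneg _)

theorem exists_avg_le {p : ℕ} (hp : (0 : ℝ) < p) {c₀ u X Y : ℝ} {f : Fin p → ℝ} (hc : 0 < c₀)
    (hu : √(p : ℝ) ≤ p * u) (hX : 0 ≤ X) (h : c₀ * ∑ l, f l ≤ 2 * √(p : ℝ) * X + p * Y) :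
    ∃ l, f l ≤ c₀⁻¹ * (2 * u * X + Y) := by
  haveI : Nonempty (Fin p) := ⟨⟨0, by exact_mod_cast hp⟩⟩
  have h1 : ∑ l, f l ≤ ∑ _l : Fin p, c₀⁻¹ * (2 * u * X + Y) := by
    rw [sum_fin_const, mul_left_comm, le_inv_mul_iff₀ hc]
    nlinarith [mul_le_mul_of_nonneg_right hu hX]
  obtain ⟨l, -, hl⟩ := Finset.exists_le_of_sum_le Finset.univ_nonempty h1
  exact ⟨l, hl⟩

/-- **The new gap.** -/
theorem new_gap (hT : Scale T) (hS : Ex S) (hG : Gp len gap C) (hgeo : Geo μ' e len gap C c₀ d)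
    (hs : Src S μ' e a Q c) (ht : S.Tail len T) (j : Fin r) {z : ℕ → G} (hz0 : z 0 = 1)
    (hz : ∀ n, z (n + 1) * (z n)⁻¹ ∈ Q) (hzF : ∀ n, z n ∈ Face a j) {k : ℕ} {Θ : Finset (Fin r')}
    (hE : ∀ᶠ n : ℕ in atTop, S.mass (Big gap Θ (T^[k] n))ᶜ (S.ζ (z n)) ≤ Real.exp (-T^[k] n))
    {ν : ℕ → ℕ} (hν : ∀ᶠ N : ℕ in atTop, T^[2 * k + 12] N ≤ ν N ∧ (ν N : ℝ) ≤ T^[2 * k + 11] N + 1) :
    Sm atTop (fun N : ℕ => T^[2 * k + 12] N) (fun N => S.mass (Big gap Θ (T^[k + 1] N))ᶜ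
      (S.ζ (z N * a (Pi.single j (ν N : ℤ))))) ∧
    Sm atTop (fun N : ℕ => T^[2 * k + 15] N) (fun N => S.mass (Oth gap Θ (T^[2 * k + 14] N))
      (S.ζ (z N * a (Pi.single j (ν N : ℤ))))) := by
  have tt := t_top hT nat_top
  have hC := hG.C_nonneg
  have oo : ∀ {i j : ℕ}, i < j → (fun N : ℕ => T^[j] (N : ℝ)) =o[atTop] fun N : ℕ => T^[i] (N : ℝ) :=
    fun h => t_o hT nat_top h
  have hν0 : (fun N => (ν N : ℝ)) =O[atTop] fun N : ℕ => T^[2 * k + 11] N := by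
    refine IsBigO.trans (IsBigO.of_bound' ?_) (add_one_O (tt _) (isBigO_refl _ _) 1)
    exact hν.mono fun N h => by
      rw [Real.norm_of_nonneg (Nat.cast_nonneg _)]; exact h.2.trans (le_abs_self _)
  have hν1 := add_one_O (tt _) hν0 1
  have hν2 : (fun N => ((ν N + 2 : ℕ) : ℝ)) =O[atTop] fun N : ℕ => T^[2 * k + 11] N := by
    simpa only [Nat.cast_add, Nat.cast_ofNat] using add_one_O (tt _) hν0 2
  have hν3 := add_one_O (tt _) hν2 1
  have hJ1 := t_mul hT nat_top (show 2 * k + 10 < 2 * k + 11 by omega) hν1 (isBigO_refl _ _)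
  have hJ := t_mul hT nat_top (show 2 * k + 10 < 2 * k + 11 by omega) hν3 (isBigO_refl _ _)
  have hw := (tt (2 * k + 11)).eventually (ap_word hS hG ht hs.cpt hs.one)
  have hB : Sm atTop (fun N : ℕ => T^[2 * k + 12] N) (fun N => S.mass (Big gap Θ (T^[k + 1] N))ᶜ
      (S.ζ (z N * a (Pi.single j (ν N : ℤ))))) := by
    refine ((Sm.up hT nat_top (show k ≤ 2 * k + 12 by omega) sm_exp').add (tt _)
      ((md_O hT nat_top _ hν1).mul_sm sm_exp')).of_le ?_
    filter_upwards [hw, hE, lo_le' (tt k) ((oo (show k < k + 1 by omega)).add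
      ((hJ1.trans (oo (show k < 2 * k + 10 by omega))).const_mul_left C))] with N h1 h2 h3
    have h4 := (h1 _ _ (hs.single_mem j (ν N))).2.some.mass_le hS
      (fun γ t a b => (hG.lev_big Θ).right_c hG.len_one hC γ t a b) (z N)
      (E := (Big gap Θ (T^[k + 1] N))ᶜ)
    rw [T_it T] at h4
    rw [abs_of_nonneg (mass_nonneg _ _)]
    exact h4.trans (add_le_add
      ((Pr_mono S (Set.compl_subset_compl.2 ((hG.lev_big Θ).anti h3)) _).trans h2) le_rfl)
  refine ⟨hB, ?_⟩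
  obtain ⟨ρ, hρ, hui⟩ := ui_ev hT hS hG ht hs.cpt hs.one hz0 hz hE
    (hν2.trans (t_O hT nat_top (show k + 2 ≤ 2 * k + 11 by omega)))
  set J : ℕ → ℝ := fun N => (((ν N + 2 : ℕ) : ℝ) + 1) * T^[2 * k + 11] N with hJd
  have hX : Md atTop (fun N : ℕ => T^[2 * k + 10] N) fun N => Real.exp (C * J N) :=
    Md.exp (tt _) (hJ.const_mul_left C)
  have hβ : Sm atTop (fun N : ℕ => T^[2 * k + 10] N) fun N : ℕ => Real.exp (-T^[k] N) :=
    Sm.up hT nat_top (by omega) sm_exp'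
  have hD : Sm atTop (fun N : ℕ => T^[2 * k + 12] N) fun N : ℕ => √(c₀⁻¹ *
      (2 * Real.exp (-(c / 2 * T^[2 * k + 12] N)) *
        (√(Real.exp (C * T^[2 * k + 13] N) * J N ^ d + Real.exp (C * J N) * Real.exp (-T^[k] N) ^ 2) *
          √C) + (C * ((((ν N + 2 : ℕ) : ℝ) + 1) * Real.exp (-T^[2 * k + 12] N)) + Real.exp (C * J N) *
        |Real.exp (C * J N) * (Real.exp (C * J N - T^[k] N) + 2 * Real.exp (-T^[k] N)) + ρ N|))) := by
    refine ((Md.const (tt _) _).mul_sm (Sm.add (tt _) (Sm.mul ((Md.const (tt _) _).mul_sm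
      (sm_exp (half_pos hs.c_pos))) (Md.mul (Md.sqrt (tt _) (Md.add (tt _) ?_ ?_))
      (Md.const (tt _) _))) (Sm.add (tt _) ((Md.const (tt _) _).mul_sm
      ((md_O hT nat_top _ hν3).mul_sm sm_exp')) ?_))).sqrt
    · exact (Md.exp (tt _) ((oo (by omega)).const_mul_left C)).mul
        ((md_O hT nat_top _ hJ.isBigO).pow (tt _) d)
    · refine (Sm.up hT nat_top (i := 2 * k + 10) (by omega) (hX.mul_sm ?_)).md (tt _)
      simpa only [sq] using hβ.mul (hβ.md (tt _))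
    · refine Sm.up hT nat_top (i := 2 * k + 10) (by omega) (hX.mul_sm (Sm.abs (Sm.add (tt _)
        (hX.mul_sm (Sm.add (tt _) ?_ ((Md.const (tt _) _).mul_sm hβ)))
        (Sm.up hT nat_top (by omega) hρ))))
      simpa only [sub_eq_add_neg, Real.exp_add] using hX.mul_sm hβ
  refine (((Sm.up hT nat_top (show 2 * k + 12 ≤ 2 * k + 15 by omega) hD).add (tt _)
    ((Md.const (tt _) 2).mul_sm sm_exp')).add (tt _)
    (Sm.up hT nat_top (show 2 * k + 12 ≤ 2 * k + 15 by omega) hB)).of_le ?_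
  obtain ⟨n₂, hn₂⟩ := eventually_atTop.1 (lo_le (tt k)
    ((oo (show k < k + 1 by omega)).const_mul_left (C + 1)) one_half_pos)
  have hνt : Tendsto ν atTop atTop := tendsto_natCast_atTop_iff.1
    (tendsto_atTop_mono' _ (hν.mono fun N h => h.1) (tt _))
  filter_upwards [hw, hE, hui, hν, hνt.eventually (hs.fam j), (tt (k + 5)).eventually_ge_atTop n₂,
    lo_le (tt (2 * k + 5)) ((hJ.trans (oo (by omega))).const_mul_left C) one_half_pos,
    (tt (2 * k + 11)).eventually_ge_atTop 1, (tt (2 * k + 13)).eventually_ge_atTop 1,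
    lo_le' (tt (k + 1)) ((((hJ.trans (oo (show k + 1 < 2 * k + 10 by omega))).add
      (oo (show k + 1 < 2 * k + 13 by omega))).const_mul_left C).add
      (((oo (show k + 1 < 2 * k + 14 by omega)).const_mul_left C).const_mul_left 2)),
    lo_le' (tt (2 * k + 13)) ((oo (show 2 * k + 13 < 2 * k + 14 by omega)).add
      (((oo (show 2 * k + 13 < 2 * k + 14 by omega)).const_mul_left C).const_mul_left 2)),
    (tt (2 * k + 14)).eventually (ap_tail hG ht hs.cpt), t_le hT nat_top (k.le_add_right 1),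
    (tt (2 * k + 14)).eventually_ge_atTop 0]
    with N h1 h2 h3 h4 h5 h6 h7 h8 h9 h10 h11 h12 h13 h14
  obtain ⟨p, κ, κ', hp, hκ, hP⟩ := h5
  have hJ1' : 1 ≤ J N := one_le_mul_of_one_le_of_one_le
    (by linarith [(Nat.cast_nonneg (ν N + 2) : (0 : ℝ) ≤ _)]) h8
  obtain ⟨A, A', ψ, F, hD⟩ := hgeo.2 Θ (J N) _ hJ1' h9
  have hmem := fun l => hs.word_mem j (ν N) (hκ l).1 (hκ l).2.1
  have hb := cz_comm (hs.a_mem_Cz (Pi.single j (ν N : ℤ)) j) (hzF N)
  have hc : ∀ l, κ l * a (Pi.single j (ν N : ℤ)) * κ' l * z N =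
      z N * (κ l * a (Pi.single j (ν N : ℤ)) * κ' l) := fun l =>
    cz_comm (mul_mem (mul_mem (hκ l).2.2.1 (hs.a_mem_Cz _ _)) (hκ l).2.2.2) (hzF N)
  have hCt : 0 ≤ C * T^[2 * k + 14] N := mul_nonneg hC h14
  have h15 := low_bound hS hG hD (zero_le_one.trans hJ1') hP hc (fun l => (h1 _ _ (hmem l)).2.some)
    (τ := T^[k] N) (by linarith) h2 (ρ := ρ N) fun x hx l => by
      refine (h3 _ (hD.ucψ.abs_le x) (fun n a b γ hγ s hs => ?_) _ (hmem l)).1
      refine (hD.slowL x hx _ γ s hγ).trans (Real.exp_le_exp.2 ?_)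
      have a1 := it_mono hT k a
      rw [it_it, show k + (k + 5) = 2 * k + 5 by omega] at a1
      have a2 := (le_abs_self _).trans (hn₂ n (by exact_mod_cast h6.trans a))
      have a3 := (le_abs_self _).trans h7
      have a4 := mul_le_mul_of_nonneg_left hs hC
      change C * J N ≤ _ at a3
      linarith
  rw [T_it T] at h15 h12
  have hp0 : (0 : ℝ) < p := (Real.exp_pos _).trans_le hp
  have h16 := one_div_sqrt_le ((Real.exp_le_exp.2 (mul_le_mul_of_nonneg_left h4.1 hs.c_pos.le)).trans hp)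
  obtain ⟨l, hl⟩ := exists_avg_le hp0 hgeo.1 h16
    (mul_nonneg (Real.sqrt_nonneg _) (Real.sqrt_nonneg _)) h15
  have h17 := mass_two hS (h12 _ (hs.inv _ (hκ l).1)) (h12 _ (hs.inv _ (hκ l).2.1))
    (E := Big gap Θ (T^[k + 1] N) ∩ Oth gap Θ (T^[2 * k + 14] N))
    (E' := Big gap Θ (C * (J N + T^[2 * k + 13] N)) ∩ Oth gap Θ (T^[2 * k + 13] N))
    (fun γ s t a b h => ⟨fun i hi => by
      have a1 := abs_le.1 (hG.lip2 i a b γ)
      change C * (J N + _) + _ ≤ _ at h10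
      linarith [h.1 i hi, a1.2], fun i hi => by
      have a1 := abs_le.1 (hG.lip2 i a b γ)
      linarith [h.2 i hi, a1.1]⟩) (z N * (κ l * a (Pi.single j (ν N : ℤ)) * κ' l))
  have e1 : (κ l)⁻¹ * (z N * (κ l * a (Pi.single j (ν N : ℤ)) * κ' l) * (κ' l)⁻¹) =
      z N * a (Pi.single j (ν N : ℤ)) := by
    rw [mul_assoc (z N), mul_inv_cancel_right, ← mul_assoc (z N), ← cz_comm (hκ l).2.2.1 (hzF N),
      mul_assoc, inv_mul_cancel_left]
  rw [e1] at h17
  rw [abs_of_nonneg (mass_nonneg _ _)]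
  refine (Pr_sub_union S (E₁ := Big gap Θ (T^[k + 1] N) ∩ Oth gap Θ (T^[2 * k + 14] N))
    (E₂ := (Big gap Θ (T^[k + 1] N))ᶜ) (fun γ hγ => ?_) _).trans
    (add_le_add (h17.trans (add_le_add (Real.le_sqrt_of_sq_le hl) le_rfl)) le_rfl)
  by_cases h : γ ∈ Big gap Θ (T^[k + 1] N)
  · exact Or.inl ⟨h, hγ⟩
  · exact Or.inr h

end Vale.Agent.P092NW
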