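import Vale.Agent.P092NW.Ph2
import Vale.Agent.P092RK.Lk
import Vale.Agent.P092BF.Tgt
import Vale.Agent.P092GK.Flg

/-!
P092 (helper21): the windows of phase one, for the coupling itself.
-/

set_option linter.all false

open Filter Topology MeasureTheory

namespace Vale.Agent.P092NW

open Vale.Agent.P092WN Vale.Agent.P092GK Vale.Agent.P092CP Vale.Agent.P092BF
open Vale.Agent.P092.RC (Cm)

variable {k k' : Type} [NontriviallyNormedField k] [NontriviallyNormedField k'] {G G' K : Type}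
  [Group G] [TopologicalSpace G] [Group G'] [TopologicalSpace G'] {r r' : ℕ}
  [IsTopologicalGroup G] [T2Space G] [LocallyCompactSpace G] [SecondCountableTopology G]
  [MeasurableSpace G] [BorelSpace G] [IsTopologicalGroup G'] [T2Space G'] [LocallyCompactSpace G']
  [SecondCountableTopology G'] [MeasurableSpace G'] [BorelSpace G'] [ProperSpace k] [ProperSpace k']
  {F : FlD k G r} {F' : FlD k' G' r'}
  [NormedAddCommGroup K] [InnerProductSpace ℂ K] [CompleteSpace K] {μ : Measure G}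
  [μ.IsHaarMeasure] {μ' : Measure G'} [μ'.IsHaarMeasure] {W : Set (K →L[ℂ] K)}

/-- the points outside the window of centre `v` and radius `R` -/
def Off (F' : FlD k' G' r') (v : Fin r' → ℝ) (R : ℝ) : Set G' := {x | R < ‖F'.lam x - v‖}

theorem meas_Off (h' : Fl F') (v : Fin r' → ℝ) (R : ℝ) : MeasurableSet (Off F' v R) :=
  (isOpen_lt continuous_const (h'.cont_lam.sub continuous_const).norm).measurableSet

/-- **Tight windows**: along the path the position stays at bounded distance of `L (ℓ w)` -/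
def Tight (C : Cpl μ μ' W) (F : FlD k G r) (F' : FlD k' G' r') (z : ℕ → G)
    (L : (Fin r → ℝ) →ₗ[ℝ] (Fin r' → ℝ)) : Prop :=
  ∀ Q, IsCompact Q → ∀ ξ (ε : ℝ), 0 < ε → ∀ᶠ R in atTop, ∀ a ∈ F.Z, ∀ᶠ N in atTop, ∀ q ∈ Q,
    ‖C.t.P (Off F' (L (F.ℓ (a * z N))) R) (C.s.π (q * (a * z N)) ξ)‖ ≤ ε

theorem Ph.tight {C : Cpl μ μ' W} {H H₀ : Type} [NormedAddCommGroup H] [InnerProductSpace ℂ H]
    [CompleteSpace H] [NormedAddCommGroup H₀] [InnerProductSpace ℂ H₀] {S : Sys G C.t.Γ H H₀}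
    {p : H →L[ℂ] K} {n : Fin r → ℕ → ℕ} {L : (Fin r → ℝ) →ₗ[ℝ] (Fin r' → ℝ)} (hP : Ph F F' S n L)
    (hL : Lk C S p) (h' : Fl F') : Tight C F F' (zp F n) L := fun Q hQ ξ => by
  let l : Filter (ℝ × G × G) := atTop.bind fun R => ⨆ a ∈ F.Z, atTop.bind fun N =>
    𝓟 ((fun q => (R, a * zp F n N, q)) '' Q)
  have ev : ∀ P : ℝ × G × G → Prop, (∀ᶠ x in l, P x) ↔
      ∀ᶠ R in atTop, ∀ a ∈ F.Z, ∀ᶠ N in atTop, ∀ q ∈ Q, P (R, a * zp F n N, q) := fun P => by
    simp only [l, eventually_bind, eventually_iSup, eventually_principal, Set.forall_mem_image]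
  have b := fun x : ℝ × G × G => Bd.ind (meas_Off h' (L (F.ℓ x.2.1)) x.1)
  have key := tendsto_of_total C.total (l := l) (A₀ := (0 : K →L[ℂ] K)) (c := 1)
    (A := fun x => C.s.π (x.2.2 * x.2.1)⁻¹ * C.t.P (Off F' (L (F.ℓ x.2.1)) x.1) *
      C.s.π (x.2.2 * x.2.1)⁻¹⁻¹)
    (.of_forall fun x => (C.s.norm_conj_le _ _).trans (C.t.norm_P_le (meas_Off h' _ _))) ?_ ξ
  · intro ε hε
    refine ((ev _).1 (key.norm.eventually_le_const (show _ < ε by simpa using hε))).mono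
      fun R hR a ha => (hR a ha).mono fun N hN q hq => ?_
    simpa only [mul_ap, C.s.norm_π, inv_inv] using hN q hq
  rintro _ ⟨w, g, hw, rfl⟩
  refine (tendsto_op (v := fun x : ℝ × G × G => (C.s.π (x.2.2 * x.2.1)⁻¹ *
    C.t.P (Off F' (L (F.ℓ x.2.1)) x.1) * C.s.π (x.2.2 * x.2.1)⁻¹⁻¹) (C.t.π g C.t.Ω)) ?_ w).congr
      fun x => ap_eq (hw _ (C.s.conj _ (C.t.cm_m (b x)) _)) _
  refine Metric.nhds_basis_closedBall.tendsto_right_iff.2 fun ε hε => (ev _).2 ?_
  obtain ⟨R₀, M, hM, h1⟩ := transfer hL hP.wk.ex h'.tg hQ (half_pos hε)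
  obtain ⟨D, hD⟩ := hP.win
  obtain ⟨δ, d1, d2⟩ := exists_pos_mul_lt (half_pos hε) (M * (r' * 2))
  have t1 : Tendsto (fun R : ℝ => R - (F'.len g + 2 * R₀)) atTop atTop :=
    tendsto_atTop_add_const_right _ _ tendsto_id
  filter_upwards [t1.eventually_gt_atTop 0,
    (t1.const_div_atTop D).eventually_le_const d1] with R r1 r2 a ha
  filter_upwards [hD a ha _ δ r1 d1] with N hN q hq
  rw [mem_closedBall_zero_iff, Side.P, conj_k C (b (R, a * zp F n N, q)), C.t.norm_π, C.s.norm_π]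
  refine (h1 q hq _ ((fun x => g * x) ⁻¹' Off F' (L (F.ℓ (a * zp F n N))) R) (⋃ j ∈ Finset.univ,
    {γ | R - (F'.len g + 2 * R₀) < |F'.lam (γ : G')⁻¹ j - L (F.ℓ (a * zp F n N)) j|})
    (measurable_const_mul g (meas_Off h' _ _)) fun x hx s t hs ht γ e => ?_).trans ?_
  · by_contra c
    simp only [Set.mem_iUnion, Set.mem_ofPred_eq, not_exists, not_lt] at c
    refine not_le.2 hx ((pi_norm_le_iff_of_nonneg (by
      linarith [F'.len_nonneg g, F'.len_nonneg s])).2 fun j => ?_)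
    have a1 := h'.lam_lip (g * s⁻¹) (γ : G')⁻¹ t⁻¹ j
    have a2 := h'.len_mul g s⁻¹
    have a3 := abs_sub_le (F'.lam (g * x) j) (F'.lam (γ : G')⁻¹ j) (L (F.ℓ (a * zp F n N)) j)
    rw [show g * s⁻¹ * (γ : G')⁻¹ * t⁻¹ = g * x by rw [e]; group, F'.len_inv] at a1
    rw [F'.len_inv] at a2
    rw [Pi.sub_apply, Real.norm_eq_abs]
    linarith [c j (Finset.mem_univ j)]
  · have := (Pr_biUnion_le S Finset.univ _ _).trans (Finset.sum_le_card_nsmul _ _ _ fun j _ =>
      (hN j).trans (add_le_add_left r2 δ))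
    rw [Finset.card_fin, nsmul_eq_mul] at this
    exact (add_le_add_right (mul_le_mul_of_nonneg_left this hM) _).trans (by linarith)

end Vale.Agent.P092NW
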