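import Vale.Agent.P092NW.Defs
import Mathlib.Analysis.Asymptotics.Lemmas
import Mathlib.Analysis.SpecialFunctions.Exp

/-!
P092 (helper21), block B4: the calculus of scales.
-/

set_option linter.all false

open Filter Topology Asymptotics

namespace Vale.Agent.P092NW

open Vale.Agent.P092WN

section classes

variable {α : Type} {l : Filter α} {u u' f g h : α → ℝ}

/-- exponentially small at the scale `u` -/
def Sm (l : Filter α) (u f : α → ℝ) : Prop :=
  ∃ c : ℝ, 0 < c ∧ ∀ᶠ a in l, |f a| ≤ Real.exp (-(c * u a))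

/-- subexponential at the scale `u` -/
def Md (l : Filter α) (u f : α → ℝ) : Prop :=
  ∀ δ : ℝ, 0 < δ → ∀ᶠ a in l, |f a| ≤ Real.exp (δ * u a)

theorem lo_le (hu : Tendsto u l atTop) (hh : h =o[l] u) {δ : ℝ} (hδ : 0 < δ) :
    ∀ᶠ a in l, |h a| ≤ δ * u a := by
  filter_upwards [hh.bound hδ, hu.eventually_ge_atTop 0] with a h1 h2
  rwa [Real.norm_eq_abs, Real.norm_of_nonneg h2] at h1

theorem lo_le' (hu : Tendsto u l atTop) (hh : h =o[l] u) : ∀ᶠ a in l, h a ≤ u a :=
  (lo_le hu hh one_pos).mono fun a ha => by linarith [le_abs_self (h a)]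

theorem lo_const (hu : Tendsto u l atTop) (c : ℝ) : (fun _ => c) =o[l] u :=
  isLittleO_const_left.2 (Or.inr (tendsto_norm_atTop_atTop.comp hu))

theorem Md.exp (hu : Tendsto u l atTop) (hh : h =o[l] u) : Md l u fun a => Real.exp (h a) :=
  fun δ hδ => (lo_le hu hh hδ).mono fun a ha => by
    rw [Real.abs_exp]; exact Real.exp_le_exp.2 ((le_abs_self _).trans ha)

theorem Md.of_le (hg : Md l u g) (hf : ∀ᶠ a in l, |f a| ≤ g a) : Md l u f := fun δ hδ => by
  filter_upwards [hg δ hδ, hf] with a h1 h2 using h2.trans ((le_abs_self _).trans h1)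

theorem Md.const (hu : Tendsto u l atTop) (c : ℝ) : Md l u fun _ => c :=
  (Md.exp hu (lo_const hu |c|)).of_le
    (Eventually.of_forall fun _ => by linarith [Real.add_one_le_exp |c|])

theorem Md.mul (hf : Md l u f) (hg : Md l u g) : Md l u fun a => f a * g a := fun δ hδ => by
  filter_upwards [hf _ (half_pos hδ), hg _ (half_pos hδ)] with a h1 h2
  rw [abs_mul, show δ * u a = δ / 2 * u a + δ / 2 * u a by ring, Real.exp_add]
  exact mul_le_mul h1 h2 (abs_nonneg _) (Real.exp_pos _).le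

theorem Md.add (hu : Tendsto u l atTop) (hf : Md l u f) (hg : Md l u g) :
    Md l u fun a => f a + g a := fun δ hδ => by
  filter_upwards [hf _ (half_pos hδ), hg _ (half_pos hδ), Md.const hu 2 _ (half_pos hδ)] with a h1 h2 h3
  rw [show δ * u a = δ / 2 * u a + δ / 2 * u a by ring, Real.exp_add]
  rw [abs_two] at h3
  nlinarith [abs_add_le (f a) (g a), Real.exp_pos (δ / 2 * u a)]

theorem Md.pow (hu : Tendsto u l atTop) (hf : Md l u f) (n : ℕ) : Md l u fun a => f a ^ n := by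
  induction n with
  | zero => simpa using Md.const hu 1
  | succ n ih => simpa only [pow_succ] using ih.mul hf

theorem Md.sqrt (hu : Tendsto u l atTop) (hf : Md l u f) : Md l u fun a => √(f a) :=
  fun δ hδ => by
  filter_upwards [hf δ hδ, hu.eventually_ge_atTop 0] with a h1 h2
  rw [abs_of_nonneg (Real.sqrt_nonneg _), Real.sqrt_le_left (Real.exp_pos _).le]
  have h3 := Real.one_le_exp (mul_nonneg hδ.le h2)
  nlinarith [le_abs_self (f a)]

theorem Md.mono (hf : Md l u f) (h : ∀ᶠ a in l, u a ≤ u' a) : Md l u' f := fun δ hδ => by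
  filter_upwards [hf δ hδ, h] with a h1 h2
  exact h1.trans (Real.exp_le_exp.2 (mul_le_mul_of_nonneg_left h2 hδ.le))

theorem Sm.of_le (hg : Sm l u g) (hf : ∀ᶠ a in l, |f a| ≤ g a) : Sm l u f :=
  let ⟨c, hc, h⟩ := hg
  ⟨c, hc, by filter_upwards [h, hf] with a h1 h2 using h2.trans ((le_abs_self _).trans h1)⟩

theorem Sm.abs (hf : Sm l u f) : Sm l u fun a => |f a| :=
  let ⟨c, hc, h⟩ := hf
  ⟨c, hc, by simpa only [abs_abs] using h⟩

theorem Sm.mul (hf : Sm l u f) (hg : Md l u g) : Sm l u fun a => f a * g a := by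
  obtain ⟨c, hc, h⟩ := hf
  refine ⟨c / 2, half_pos hc, ?_⟩
  filter_upwards [h, hg _ (half_pos hc)] with a h1 h2
  rw [abs_mul, show -(c / 2 * u a) = -(c * u a) + c / 2 * u a by ring, Real.exp_add]
  exact mul_le_mul h1 h2 (abs_nonneg _) (Real.exp_pos _).le

theorem Md.mul_sm (hg : Md l u g) (hf : Sm l u f) : Sm l u fun a => g a * f a := by
  simpa only [mul_comm] using hf.mul hg

theorem sm_exp {c : ℝ} (hc : 0 < c) : Sm l u fun a => Real.exp (-(c * u a)) :=
  ⟨c, hc, Eventually.of_forall fun a => (Real.abs_exp _).le⟩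

theorem sm_exp' : Sm l u fun a => Real.exp (-u a) := by simpa using sm_exp (l := l) (u := u) one_pos

theorem sm_exp_sub (hu : Tendsto u l atTop) (hh : h =o[l] u) :
    Sm l u fun a => Real.exp (h a - u a) := by
  simpa only [← Real.exp_add, sub_eq_add_neg] using (Md.exp hu hh).mul_sm sm_exp'

theorem Sm.add (hu : Tendsto u l atTop) (hf : Sm l u f) (hg : Sm l u g) :
    Sm l u fun a => f a + g a := by
  obtain ⟨c, hc, h⟩ := hf
  obtain ⟨c', hc', h'⟩ := hg
  refine ((Md.const hu 2).mul_sm (sm_exp (lt_min hc hc'))).of_le ?_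
  filter_upwards [h, h', hu.eventually_ge_atTop 0] with a h1 h2 h3
  have a1 : Real.exp (-(c * u a)) ≤ Real.exp (-(min c c' * u a)) :=
    Real.exp_le_exp.2 (neg_le_neg (mul_le_mul_of_nonneg_right (min_le_left _ _) h3))
  have a2 : Real.exp (-(c' * u a)) ≤ Real.exp (-(min c c' * u a)) :=
    Real.exp_le_exp.2 (neg_le_neg (mul_le_mul_of_nonneg_right (min_le_right _ _) h3))
  linarith [abs_add_le (f a) (g a)]

theorem Sm.mono (hf : Sm l u f) (h : ∀ᶠ a in l, u' a ≤ u a) : Sm l u' f :=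
  let ⟨c, hc, h'⟩ := hf
  ⟨c, hc, by
    filter_upwards [h', h] with a h1 h2
    exact h1.trans (Real.exp_le_exp.2 (neg_le_neg (mul_le_mul_of_nonneg_left h2 hc.le)))⟩

theorem Sm.ev_le (hu : Tendsto u l atTop) (hf : Sm l u f) (h : u' =o[l] u) :
    ∀ᶠ a in l, f a ≤ Real.exp (-u' a) := by
  obtain ⟨c, hc, h'⟩ := hf
  filter_upwards [h', lo_le hu h hc] with a h1 h2
  exact (le_abs_self _).trans (h1.trans (Real.exp_le_exp.2 (by linarith [le_abs_self (u' a)])))

theorem Sm.sqrt (hf : Sm l u f) : Sm l u fun a => √(f a) := by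
  obtain ⟨c, hc, h⟩ := hf
  refine ⟨c / 2, half_pos hc, h.mono fun a h1 => ?_⟩
  rw [abs_of_nonneg (Real.sqrt_nonneg _), Real.sqrt_le_left (Real.exp_pos _).le, sq, ← Real.exp_add]
  exact (le_abs_self _).trans (h1.trans (le_of_eq (by ring_nf)))

theorem Sm.md (hu : Tendsto u l atTop) (hf : Sm l u f) : Md l u f := by
  obtain ⟨c, hc, h⟩ := hf
  refine (Md.const hu 1).of_le ?_
  filter_upwards [h, hu.eventually_ge_atTop 0] with a h1 h2
  exact h1.trans (Real.exp_le_one_iff.2 (neg_nonpos.2 (mul_nonneg hc.le h2)))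

theorem Sm.tendsto (hu : Tendsto u l atTop) (hf : Sm l u f) : Tendsto f l (𝓝 0) := by
  obtain ⟨c, hc, h⟩ := hf
  refine squeeze_zero_norm' h (Real.tendsto_exp_atBot.comp ?_)
  exact tendsto_neg_atTop_atBot.comp (hu.const_mul_atTop hc)

theorem Sm.ev_lt (hu : Tendsto u l atTop) (hf : Sm l u f) {δ : ℝ} (hδ : 0 < δ) :
    ∀ᶠ a in l, f a < δ := (hf.tendsto hu).eventually_lt_const hδ

end classes

section scale

variable {T : ℝ → ℝ} (hT : Scale T)
include hT

theorem it_mono (i : ℕ) : Monotone T^[i] := hT.mono.iterate i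

theorem it_top (i : ℕ) : Tendsto T^[i] atTop atTop :=
  tendsto_atTop_mono' _ ((hT.big i 1).mono fun x hx => by simpa using hx) Real.tendsto_log_atTop

theorem T_top : Tendsto T atTop atTop := it_top hT 1

theorem T_le (C : ℝ) : ∀ᶠ x in atTop, C * T x ≤ x := by
  filter_upwards [hT.small |C|, (T_top hT).eventually_ge_atTop 1] with x h1 h2
  nlinarith [le_abs_self C, abs_nonneg C, mul_nonneg (abs_nonneg C) (sub_nonneg.2 h2)]

theorem scale_it (k : ℕ) : Scale T^[k + 1] := by
  refine ⟨it_mono hT _, fun C => ?_, fun m C => ?_⟩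
  · induction k with
    | zero => exact hT.small C
    | succ k ih =>
      filter_upwards [(T_top hT).eventually ih, T_le hT 1] with x h1 h2
      rw [Function.iterate_succ_apply]
      linarith
  · rw [← Function.iterate_mul]; exact hT.big _ C

variable {α : Type} {l : Filter α} {x : α → ℝ} (hx : Tendsto x l atTop)
include hx

theorem t_top (i : ℕ) : Tendsto (fun a => T^[i] (x a)) l atTop := (it_top hT i).comp hx

theorem t_sq (i : ℕ) : (fun a => T^[i + 1] (x a) * T^[i + 1] (x a)) =o[l] fun a => T^[i] (x a) := by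
  refine isLittleO_iff.2 fun c hc => ?_
  filter_upwards [(t_top hT hx i).eventually (hT.small c⁻¹)] with a h1
  rw [Function.iterate_succ_apply', Real.norm_of_nonneg (mul_self_nonneg _), ← sq]
  rw [inv_mul_le_iff₀ hc] at h1
  exact h1.trans (mul_le_mul_of_nonneg_left (le_abs_self _) hc.le)

theorem t_succ (i : ℕ) : (fun a => T^[i + 1] (x a)) =o[l] fun a => T^[i] (x a) := by
  refine IsBigO.trans_isLittleO (IsBigO.of_bound' ?_) (t_sq hT hx i)
  filter_upwards [(t_top hT hx (i + 1)).eventually_ge_atTop 1] with a h1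
  rw [Real.norm_of_nonneg (by linarith), Real.norm_of_nonneg (mul_self_nonneg _)]
  nlinarith

theorem t_O {i j : ℕ} (h : i ≤ j) : (fun a => T^[j] (x a)) =O[l] fun a => T^[i] (x a) := by
  induction j, h using Nat.le_induction with
  | base => exact isBigO_refl _ _
  | succ j _ ih => exact (t_succ hT hx j).isBigO.trans ih

theorem t_o {i j : ℕ} (h : i < j) : (fun a => T^[j] (x a)) =o[l] fun a => T^[i] (x a) :=
  (t_O hT hx h).trans_isLittleO (t_succ hT hx i)

theorem t_le {i j : ℕ} (h : i ≤ j) : ∀ᶠ a in l, T^[j] (x a) ≤ T^[i] (x a) := by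
  rcases h.eq_or_lt with rfl | h
  · exact Eventually.of_forall fun _ => le_rfl
  · exact lo_le' (t_top hT hx i) (t_o hT hx h)

theorem t_mul {i j : ℕ} (h : i < j) {f g : α → ℝ} (hf : f =O[l] fun a => T^[j] (x a))
    (hg : g =O[l] fun a => T^[j] (x a)) : (fun a => f a * g a) =o[l] fun a => T^[i] (x a) :=
  ((hf.trans (t_O hT hx h)).mul (hg.trans (t_O hT hx h))).trans_isLittleO (t_sq hT hx i)

theorem t_const (i : ℕ) (c : ℝ) : (fun _ => c) =o[l] fun a => T^[i] (x a) :=
  lo_const (t_top hT hx i) c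

theorem md_x (i : ℕ) : Md l (fun a => T^[i] (x a)) x := fun δ hδ => by
  filter_upwards [hx.eventually (hT.big i δ⁻¹), hx.eventually_gt_atTop 0] with a h1 h2
  rw [inv_mul_le_iff₀ hδ] at h1
  rw [abs_of_pos h2, ← Real.log_le_iff_le_exp h2]
  exact h1

theorem md_O (i : ℕ) {j : ℕ} {f : α → ℝ} (hf : f =O[l] fun a => T^[j] (x a)) :
    Md l (fun a => T^[i] (x a)) f := by
  obtain ⟨c, hc⟩ := (hf.trans (t_O hT hx j.zero_le)).bound
  refine ((Md.const (t_top hT hx i) c).mul (md_x hT hx i)).of_le ?_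
  filter_upwards [hc, hx.eventually_ge_atTop 0] with a h1 h2
  simpa [abs_of_nonneg h2] using h1

theorem Sm.up {i j : ℕ} (h : i ≤ j) {f : α → ℝ} (hf : Sm l (fun a => T^[i] (x a)) f) :
    Sm l (fun a => T^[j] (x a)) f := hf.mono (t_le hT hx h)

theorem Sm.fin {i j : ℕ} (h : i < j) {f : α → ℝ} (hf : Sm l (fun a => T^[i] (x a)) f) :
    ∀ᶠ a in l, f a ≤ Real.exp (-T^[j] (x a)) := hf.ev_le (t_top hT hx i) (t_o hT hx h)

theorem ceil_O (i : ℕ) : (fun a => (⌈T^[i] (x a)⌉₊ : ℝ)) =O[l] fun a => T^[i] (x a) := by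
  refine IsBigO.of_bound 2 ?_
  filter_upwards [(t_top hT hx i).eventually_ge_atTop 1] with a h1
  rw [Real.norm_of_nonneg (Nat.cast_nonneg _), Real.norm_of_nonneg (by linarith)]
  linarith [Nat.ceil_lt_add_one (zero_le_one.trans h1)]

end scale

theorem nat_top : Tendsto (fun N : ℕ => (N : ℝ)) atTop atTop := tendsto_natCast_atTop_atTop

/-- clocks at a given scale -/
theorem exists_clock {T : ℝ → ℝ} (hT : Scale T) (k : ℕ) : ∃ n : ℕ → ℕ, Clock n ∧
    ∀ᶠ N : ℕ in atTop, T^[k + 1] N ≤ n N ∧ (n N : ℝ) ≤ T^[k] N + 1 := by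
  classical
  obtain ⟨n, h0, hs⟩ : ∃ n : ℕ → ℕ, n 0 = 0 ∧
      ∀ N : ℕ, n (N + 1) = if ((n N : ℕ) : ℝ) < T^[k] (N : ℝ) then n N + 1 else n N :=
    ⟨fun N => Nat.rec 0 (fun (N m : ℕ) => if ((m : ℕ) : ℝ) < T^[k] (N : ℝ) then m + 1 else m) N,
      rfl, fun _ => rfl⟩
  have hm : ∀ {M N : ℕ}, M ≤ N → T^[k] (M : ℝ) ≤ T^[k] N := fun h => it_mono hT k (Nat.cast_le.2 h)
  have h1 : ∀ N, n N = 0 ∨ (n N : ℝ) ≤ T^[k] N + 1 := fun N => by
    induction N with
    | zero => exact Or.inl h0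
    | succ N ih =>
      have h2 := hm N.le_succ
      rw [hs]
      split_ifs with h
      · right; rw [Nat.cast_add_one (n N)]; linarith
      · exact ih.imp id fun h3 => by linarith
  have h2 : ∀ M N : ℕ, M ≤ N → T^[k] (M : ℝ) ≤ n N ∨ (N : ℝ) - M ≤ n N := fun M N h => by
    induction N, h using Nat.le_induction with
    | base => exact Or.inr (by simp)
    | succ N hN ih =>
      rw [hs]
      split_ifs with h
      · push_cast
        exact ih.imp (fun h3 => by linarith) fun h3 => by linarith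
      · exact Or.inl ((hm hN).trans (not_lt.1 h))
  refine ⟨n, ⟨h0, fun N => ?_⟩, ?_⟩
  · rw [hs]
    split_ifs <;> simp
  · filter_upwards [(t_top hT nat_top k).eventually_ge_atTop 0, nat_top.eventually (T_le hT 4),
      (t_top hT nat_top 1).eventually_ge_atTop 1, t_le hT nat_top (Nat.le_add_left 1 k)]
      with N a1 a2 a3 a4
    rw [Function.iterate_one] at a3 a4
    have a5 := Nat.ceil_lt_add_one (zero_le_one.trans a3)
    refine ⟨?_, (h1 N).elim (fun h => by rw [h]; push_cast; linarith) id⟩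
    rcases h2 ⌈T N⌉₊ N (by exact_mod_cast (by linarith : (⌈T N⌉₊ : ℝ) ≤ N)) with h | h
    · exact (it_mono hT k (Nat.le_ceil _)).trans h
    · linarith

end Vale.Agent.P092NW
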