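import Vale.Agent.P092NW.Tab
import Vale.Agent.P092GK.Desc
import Vale.Agent.P092GK.Low
import Vale.Agent.P092GK.Flg
import Vale.Agent.P092BF.Wnd

/-!
P092 (helper21): the limit of the windows on the full cone.
-/

set_option linter.all false

open scoped InnerProductSpace ENNReal NNReal Pointwise
open MeasureTheory Filter Topology ContinuousLinearMap Set ProbabilityTheory

namespace Vale.Agent.P092HR

open Vale.Agent.P092CP Vale.Agent.P092RD Vale.Agent.P092GK Vale.Agent.P092TH Vale.Agent.P092BF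
open Vale.Agent.P092NW (pom_ext gr_Xm mem_Xm exists_spd speed' lm_low)
open Vale.Agent.P092.RC (Cm)
open Vale.Agent.P092RD.POM (ex bd_ex)

variable {k : Type} [NontriviallyNormedField k] [ProperSpace k] {G K : Type} [Group G]
  [TopologicalSpace G] [IsTopologicalGroup G] [LocallyCompactSpace G] [SecondCountableTopology G]
  [T2Space G] [MeasurableSpace G] [BorelSpace G] [NormedAddCommGroup K] [InnerProductSpace ℂ K]
  [CompleteSpace K] {μ : Measure G} [μ.IsHaarMeasure] {W : Set (K →L[ℂ] K)} {r : ℕ}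
  {F : FlD k G r} {C : Cpl μ μ W} {z : ℕ → G} {L : Aa r →ₗ[ℝ] Aa r} {kl : G → G}
  {E : POM (YY F) K} {θ₀ : POM (ZZ F) K}

omit [ProperSpace k] [MeasurableSpace G] [BorelSpace G] in
theorem emb_cone (h : Fl F) :
    MeasurableEmbedding fun ζ : ZZ F => (F.dir _ Finset.univ ζ, F.hq _ .id ζ) := by
  haveI := h.isClosed_P Finset.univ
  have hc := (h.cont_dir h.Ht_N Finset.univ).prodMk (h.cont_hq h.Ht_N)
  refine (IsClosedEmbedding.of_continuous_injective_isClosedMap hc (fun y y' e =>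
    h.cone_ext h.Ht_N (congrArg Prod.fst e) (congrArg Prod.snd e)) ?_).measurableEmbedding
  refine (isProperMap_iff_isCompact_preimage.2 ⟨hc, fun Q hQ => ?_⟩).isClosedMap
  obtain ⟨R, hR⟩ := (hQ.image continuous_snd).isBounded.exists_norm_le
  exact (h.cpt_hq h.Ht_N (h.prp_inj Function.injective_id) R).of_isClosed_subset
    (hQ.isClosed.preimage hc) fun y hy => hR _ ⟨_, hy, rfl⟩

/-- **The mass of the limit moves at the speed `L`** -/
theorem t0_mass (h : Fl F) (p : P1 F C z L kl E) {U : Ultrafilter ℕ} (hU : (U : Filter ℕ) ≤ atTop)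
    {B V : Set G} (hB : Bp μ B) (hV : Bp μ V) {w : ℕ → G} {D : ℝ}
    (hw : ∀ n, w n ∈ F.Z ∧ ‖F.ℓ (w n) - L (F.ℓ (z n))‖ ≤ D)
    (hL : Lm C U (fun n => un μ B (z n)) V (fun n => (((w n)⁻¹ : G) : ZZ F)) θ₀) :
    ∃ R, ∀ a ∈ F.Z, 1 / 4 ≤
      (θ₀.ν (C.s.π a⁻¹ (C.s.π F.n₀ C.t.Ω))).real {ζ | ‖F.hq _ .id ζ - L (F.ℓ a)‖ ≤ R} := by
  haveI := t2Z h
  haveI := C.s.right
  haveI := fun n => prob_un hB.cpt hB.pos (z n)
  obtain ⟨R₀, h0⟩ := p.tight _ hB.cpt.inv _ one_half_pos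
  obtain ⟨R₁, -, h1⟩ := h.hs_low' μ hV.cpt
    (mul_ne_zero (ENNReal.ofReal_pos.2 one_half_pos).ne' hV.pos)
  have mD : ∀ x, MeasurableSet {u | u ∈ V ∧ R₁ < ‖F.co (F.ht (x * u)) - F.κ x‖} := fun x =>
    hV.cpt.measurableSet.inter (isOpen_lt continuous_const ((((FlD.cont_co (F := F)).comp
      h.cont_ht).comp (continuous_const_mul x)).sub continuous_const).norm).measurableSet
  refine ⟨R₁ + R₀ + D + 1, fun a ha => ?_⟩
  have c : Continuous fun ζ : ZZ F => ‖F.hq _ .id ζ - L (F.ℓ a)‖ :=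
    ((h.cont_hq h.Ht_N).sub continuous_const).norm
  obtain ⟨S, f, -, a1, a2, a3, a4⟩ := exists_bump
    (L := {ζ : ZZ F | ‖F.hq _ .id ζ - L (F.ℓ a)‖ ≤ R₁ + R₀ + D})
    ((h.cpt_hq h.Ht_N (h.prp_inj Function.injective_id) (R₁ + R₀ + D + ‖L (F.ℓ a)‖)).of_isClosed_subset
      (isClosed_le c continuous_const) fun ζ hζ => (norm_le_norm_sub_add _ _).trans
        (add_le_add_left hζ _)) (isOpen_lt c (continuous_const (y := R₁ + R₀ + D + 1)))
    fun ζ hζ => lt_of_le_of_lt (α := ℝ) hζ (lt_add_one _)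
  refine le_trans (by rw [C.s.norm_π, C.s.norm_π, C.t.nΩ]; norm_num) (lm_low hL hV f a4
    (isClosed_le c continuous_const).measurableSet (fun ζ hζ => a3 ζ fun e => hζ (le_of_lt (α := ℝ) (a1 e)))
    (A := fun n => {x | R₀ < ‖F.κ x - L (F.ℓ (a * z n))‖}) (fun n => (isOpen_lt continuous_const
      (h.cont_κ.sub continuous_const).norm).measurableSet) (κ := 1 - 1 / 2) (by norm_num)
    (.of_forall fun n x hx => le_wf hV f a4 (mD x) (fun u hu e => a2 _ ?_) one_half_pos.le (h1 x))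
    (ε := 1 / 2) (((h0 a ha).filter_mono hU).mono fun n hn =>
      (MeasurableEquiv.mulLeft (z n)).measurableEmbedding.ae_map_iff.2
        ((ae_cond_mem hB.cpt.measurableSet).mono fun u hu => ?_)))
  · have b1 : ‖F.co (F.ht (x * u)) - F.κ x‖ ≤ R₁ := not_lt.1 fun e' => e ⟨hu, e'⟩
    have b2 : ‖F.κ x - L (F.ℓ (a * z n))‖ ≤ R₀ := not_lt.1 hx
    have b3 := (hw n).2
    show ‖F.hq _ .id ((x * u) • (((w n)⁻¹ : G) : ZZ F)) - _‖ ≤ _
    rw [mk_smul, h.hq_mk h.Ht_N, h.co_ht_P (h.z_mem_P (F.Z.inv_mem (hw n).1) _), h.ℓ_inv (hw n).1]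
    rw [h.ℓ_mul ha (p.dom n).1, map_add] at b2
    refine le_trans (le_of_eq (congrArg norm ?_)) (norm_sub_le_of_le (norm_add_le_of_le b1 b2) b3)
    simp only [LinearMap.id_apply]
    abel
  · have := hn u⁻¹ (inv_mem_inv.2 hu)
    rw [_root_.mul_inv_rev, ← mul_assoc, ← _root_.mul_inv_rev, ← pi_ap, ← pi_ap] at this
    exact this

/-- **Block T0** -/
theorem t0 (g : Gr F) (p : P1 F C z L kl E) (v : Vol F z L) : ∃ θ₀, T0 F C z L E θ₀ := by
  have h := g.fl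
  haveI := t2Z h
  haveI := C.s.right
  haveI := Cn.nontriv C.s
  obtain ⟨V, hV, hV1⟩ := exists_compact_mem_nhds (1 : G)
  have bV : Bp μ V := ⟨hV, (Measure.measure_pos_of_mem_nhds μ hV1).ne'⟩
  haveI := fun n => prob_un bV.cpt bV.pos (z n)
  have hU := Ultrafilter.of_le (atTop : Filter ℕ)
  let w : ℕ → G := fun n => F.a fun i => round (L (F.ℓ (z n)) i / F.β)
  have hw : ∀ n, w n ∈ F.Z ∧ ‖F.ℓ (w n) - L (F.ℓ (z n))‖ ≤ F.β := fun n => ⟨h.a_mem _,
    (pi_norm_le_iff_of_nonneg h.β_pos.le).2 fun i => by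
      have := mul_le_mul_of_nonneg_left (abs_sub_round (L (F.ℓ (z n)) i / F.β)) h.β_pos.le
      rw [← abs_of_pos h.β_pos, ← abs_mul, abs_of_pos h.β_pos, mul_sub,
        mul_div_cancel₀ _ h.β_pos.ne', abs_sub_comm] at this
      rw [h.ℓ_a]
      exact this.trans (by linarith [h.β_pos])⟩
  obtain ⟨θ₀, hL⟩ := exists_lm C (Ultrafilter.of atTop) (fun n => un μ V (z n)) bV
    fun n => (((w n)⁻¹ : G) : ZZ F)
  have i0 : Inv C F.Up θ₀ := hL.isInv bV fun u hu => ai_of_tendsto hV fun N hN => by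
    obtain ⟨T, -, hT⟩ := h.up_contr (isCompact_singleton (x := u)) hN
    exact ((eventually_all.2 fun i => (p.top i).eventually_ge_atTop T).filter_mono hU).mono
      fun n hn => hT _ (p.dom n).1 hn u rfl hu
  have md := h.cont_dir h.Ht_N Finset.univ
  have mod : ∀ φ f, Bd φ → Bd f → θ₀.f (φ ∘ F.dir _ _ * f) = E.f φ * θ₀.f f := by
    obtain ⟨Q, t, kr, hK⟩ := p.kak
    have := h.compactY Finset.univ
    let _ := h.metricY Finset.univ
    exact BF.mod (l := pf fun n => (z n)⁻¹) ⟨fun f => sl_iff.1 (p.sl f), fun τ => sl_iff.1 (p.wall τ)⟩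
      (h.fg hK) h.tg (h.avg μ hK) (car_un (fun _ => hV.measurableSet) fun s hs =>
        ((ev_pf.1 hs _ hV.inv).filter_mono hU).mono fun n hn u hu => by
          rw [_root_.mul_inv_rev]; exact hn _ (inv_mem_inv.2 hu)) bV md (h.dir_smul h.Ht_N _) hL
  obtain ⟨R, hR⟩ := t0_mass h p hU bV bV hw hL
  have ne : θ₀.f 1 ≠ 0 := fun e => by
    have := (θ₀.P_eq_zero_iff MeasurableSet.univ).1 (θ₀.P_univ.trans e)
    have h1 := hR 1 F.Z.one_mem
    rw [Measure.real, measure_mono_null (subset_univ _) (this _)] at h1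
    norm_num at h1
  have mco : ∀ (τ : Aa r →ₗ[ℝ] ℝ) s, Measurable fun y => τ (F.cc s y) := fun τ s =>
    (τ.continuous_of_finiteDimensional.comp (h.cont_cc.comp (.prodMk_right s))).measurable
  have mh : ∀ τ : Aa r →ₗ[ℝ] ℝ, Measurable fun ζ : ZZ F => τ (F.hq _ .id ζ) := fun τ =>
    (τ.continuous_of_finiteDimensional.comp (h.cont_hq h.Ht_N)).measurable
  have mem : ∀ (τ : Aa r →ₗ[ℝ] ℝ) s, θ₀.f (ex s fun ζ => τ (F.hq _ .id ζ)) ∈ Xt F C E τ s :=
    fun τ => mem_Xm (mco τ) md.measurable (mh τ)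
      (fun s ζ => by rw [h.hq_smul h.Ht_N, map_add]; rfl) i0 mod
  have uni := fun τ => (gr_Xm (C := C) (mco τ) g.moore_up p.eb.isP).lift_op one_pos
    (fun s _ => mem τ s) (fun ξ => (cont_ex θ₀ (mh τ) ξ).continuousOn) (by rwa [ex_zero])
  have spd : ∀ τ s, ∀ q ∈ PP F, ∀ a ∈ Xt F C E τ s,
      C.s.π q * a * C.s.π q⁻¹ = Complex.exp (s * τ (L (F.ℓ q)) * Complex.I) • a := by
    intro τ s q hq a ha
    obtain ⟨b, hb, u, hu, rfl⟩ := h.P_univ.1 hq
    obtain ⟨u', u1, u2⟩ := uni τ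
    obtain ⟨c, hc⟩ := exists_spd (mco τ) u1 u2 (p := b) (fun s hs => by
      simpa using h.zup _ (F.Z.inv_mem hb) s hs) (p.eb.inv.inv b (h.z_mem_P hb _))
    obtain rfl : c = τ (L (F.ℓ b)) := speed' C (mh τ) (fun t => hc t _ (mem τ t)) _
      (by norm_num) (R := ‖LinearMap.toContinuousLinearMap τ‖ * R) fun j =>
        (hR _ (pow_mem hb j)).trans (measureReal_mono (fun ζ hζ => by
          have := (LinearMap.toContinuousLinearMap τ).le_opNorm_of_le hζ
          rw [h.ℓ_pow hb, map_smul, map_sub, map_smul] at this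
          exact this))
    rw [← C.s.conj_conj, ha.2.2.1 u hu, hc s a ha, h.ℓ_up hu]
  refine ⟨θ₀, ⟨_, V, V, w, _, hU, bV, bV, hw, hL⟩, i0, mod, ne, mem, uni, spd,
    fun q hq q' hq' e => pom_ext (emb_cone h) (θ := tr C.s q θ₀)
      (θ' := θ₀.map _ (cont_rt (h.Ht_nrm h.Ht_N hq')).measurable) fun A hA τ => ?_,
    desc_lm h bV hL⟩
  have b := bd_ex 1 (mh τ)
  have e1 : (A.indicator 1 ∘ F.dir _ Finset.univ * ex 1 fun ζ => τ (F.hq (NN F) .id ζ)) ∘ rt _ q' =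
      Complex.exp ((1 : ℝ) * τ (L (F.ℓ q)) * Complex.I) •
        (A.indicator 1 ∘ F.dir _ Finset.univ * ex 1 fun ζ => τ (F.hq (NN F) .id ζ)) := by
    ext ζ
    simp only [ex, Function.comp_apply, Pi.mul_apply, Pi.smul_apply, smul_eq_mul,
      h.dir_rt h.Ht_N _ hq', h.hq_rt h.Ht_N hq', e, map_add, LinearMap.id_apply, Complex.ofReal_add,
      mul_add, add_mul, Complex.exp_add]
    ring
  rw [tr_f, POM.map_f, e1, θ₀.smul _ ((bd_comp (bd_ind1 hA) md.measurable).mul b),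
    mod _ _ (bd_ind1 hA) b, C.s.conj_mul, p.eb.inv.inv q hq _ (bd_ind1 hA), spd τ 1 q hq _ (mem τ 1),
    mul_smul_comm]

end Vale.Agent.P092HR
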