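import Vale.Agent.P092TH.Mass

/-!
P092 (helper21): graded spaces, speeds and masses, abstract part.
-/

set_option linter.all false

open scoped InnerProductSpace ENNReal NNReal CompactlySupported
open MeasureTheory Filter Topology ContinuousLinearMap Set ProbabilityTheory

namespace Vale.Agent.P092NW

open Vale.Agent.P092CP Vale.Agent.P092RD Vale.Agent.P092RD.POM Vale.Agent.P092TH
open Vale.Agent.P092.RC (Cm Moore)

/-- a measure on a cone is determined by the directions and the exponentials of the heights -/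
theorem pom_ext {Y Z X K : Type} [MeasurableSpace Y] [MeasurableSpace Z] [NormedAddCommGroup X]
    [NormedSpace ℝ X] [FiniteDimensional ℝ X] [MeasurableSpace X] [BorelSpace X]
    [NormedAddCommGroup K] [InnerProductSpace ℂ K] {dir : Z → Y} {hq : Z → X}
    (he : MeasurableEmbedding fun z => (dir z, hq z)) {θ θ' : POM Z K}
    (h : ∀ A, MeasurableSet A → ∀ τ : X →ₗ[ℝ] ℝ, θ.f (A.indicator 1 ∘ dir * ex 1 fun z => τ (hq z)) =
      θ'.f (A.indicator 1 ∘ dir * ex 1 fun z => τ (hq z))) (f : Z → ℂ) (hf : Bd f) :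
    θ.f f = θ'.f f := by
  haveI := FiniteDimensional.complete ℝ X
  have md : Measurable dir := measurable_fst.comp he.measurable
  have mh : Measurable hq := measurable_snd.comp he.measurable
  refine P092.H466.ext_quad fun ξ => ?_
  rw [θ.rep _ hf, θ'.rep _ hf, he.map_injective (a₁ := θ.ν ξ) (a₂ := θ'.ν ξ)
    (Measure.ext_prod fun {A B} hA hB => ?_)]
  have key : ∀ ϑ : POM Z K, ∀ τ : X →L[ℝ] ℝ, charFunDual (((ϑ.ν ξ).restrict (dir ⁻¹' A)).map hq) τ =
      ⟪ξ, ϑ.f (A.indicator 1 ∘ dir * ex 1 fun z => τ (hq z)) ξ⟫_ℂ := fun ϑ τ => by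
    rw [ϑ.rep _ (bd_mul (bd_comp (bd_ind1 hA) md) (bd_ex 1 (D := fun z => τ (hq z))
      (τ.measurable.comp mh))), charFunDual_apply,
      integral_map mh.aemeasurable (by fun_prop), ← integral_indicator (md hA)]
    refine integral_congr_ae (.of_forall fun z => ?_)
    by_cases a : dir z ∈ A <;> simp [a, ex]
  have := Measure.ext_of_charFunDual (funext fun τ => (key θ τ).trans
    ((congrArg (fun T : K →L[ℂ] K => ⟪ξ, T ξ⟫_ℂ) (h A hA τ)).trans (key θ' τ).symm))
  have e := congrArg (fun m : Measure X => m B) this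
  simp only [Measure.map_apply mh hB, Measure.restrict_apply (mh hB)] at e
  rw [Measure.map_apply he.measurable (hA.prod hB), Measure.map_apply he.measurable (hA.prod hB),
    mk_preimage_prod, inter_comm]
  exact e

variable {G G' K : Type} [Group G] [TopologicalSpace G] [IsTopologicalGroup G]
  [LocallyCompactSpace G] [SecondCountableTopology G] [T2Space G] [MeasurableSpace G] [BorelSpace G]
  [Group G'] [TopologicalSpace G'] [IsTopologicalGroup G'] [LocallyCompactSpace G']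
  [SecondCountableTopology G'] [T2Space G'] [MeasurableSpace G'] [BorelSpace G']
  [NormedAddCommGroup K] [InnerProductSpace ℂ K] [CompleteSpace K] {μ : Measure G}
  [μ.IsHaarMeasure] {μ' : Measure G'} [μ'.IsHaarMeasure] {W : Set (K →L[ℂ] K)}
  {C : Cpl μ μ' W} {S : Set G}

section gr

variable {Y Z : Type} [MeasurableSpace Y] [MeasurableSpace Z] [MulAction G' Y] [MulAction G' Z]
  {E : POM Y K} {θ₀ : POM Z K} {co : G' → Y → ℝ} (mco : ∀ k, Measurable (co k))
include mco

theorem gr_Xm (hS : Moore S) (hE : E.IsP) :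
    P092SB.Gr fun t => Xm C S E fun k => ex t (co k⁻¹) where
  mul s t a b ha hb := by
    have := Xm.mul hE (fun k => bd_ex s (mco _)) (fun k => bd_ex t (mco _)) ha hb
    simp only [ex_add']
    exact this
  star t a ha := by
    have := Xm.star (fun k => bd_ex t (mco _)) ha
    simp only [← star_ex]
    exact this
  smul t z a ha := Xm.smul z ha
  zero a ha := Xm.zero hS hE (by simp only [ex_zero] at ha; exact ha)

theorem mem_Xm {dir : Z → Y} (md : Measurable dir) {D : Z → ℝ} (mD : Measurable D)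
    (hs : ∀ (k : G') z, D (k • z) = co k (dir z) + D z) (h₀ : Inv C S θ₀)
    (mod : ∀ φ F, Bd φ → Bd F → θ₀.f (φ ∘ dir * F) = E.f φ * θ₀.f F) (t : ℝ) :
    θ₀.f (ex t D) ∈ Xm C S E fun k => ex t (co k⁻¹) := by
  have b := fun t => bd_ex t mD
  refine ⟨h₀.cm _ (b t), fun φ hφ => ?_, fun s hs => h₀.inv s hs _ (b t), fun k => ?_⟩
  · have := congrArg star (mod _ _ hφ.star (b (-t)))
    rw [star_mul, E.star_f hφ.star, θ₀.star_f (b _), star_ex, neg_neg, star_star,
      θ₀.star_f ((bd_comp hφ.star md).mul (b _)), star_mul', star_ex, neg_neg] at this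
    rw [← this, ← mod _ _ hφ (b t)]
    congr 2
    ext z
    simp
  · rw [h₀.cov k _ (b t), ← mod _ _ (bd_ex t (mco _)) (b t)]
    congr 1
    ext z
    simp [ex, hs, mul_add, add_mul, Complex.exp_add]

/-- the elements which fix `E` and normalise `S` act by a character -/
theorem exists_spd {u : ℝ → K →L[ℂ] K} (hU : P092SB.OP u)
    (hu : ∀ t, u t ∈ (Xm C S E fun k => ex t (co k⁻¹)) ∧
      ∀ a ∈ Xm C S E fun k => ex t (co k⁻¹), ∃ c : ℂ, a = c • u t) {p : G}
    (hp : ∀ s ∈ S, p⁻¹ * s * p ∈ S) (hE : ∀ φ, Bd φ → C.s.π p * E.f φ * C.s.π p⁻¹ = E.f φ) :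
    ∃ c : ℝ, ∀ t : ℝ, ∀ a ∈ Xm C S E fun k => ex t (co k⁻¹),
      C.s.π p * a * C.s.π p⁻¹ = Complex.exp (t * c * Complex.I) • a := by
  choose χ hχ using fun t => (hu t).2 _ (Xm.conj (fun k => bd_ex t (mco _)) (hu t).1 hp hE)
  have n1 : ∀ t, ‖u t C.s.Ω‖ = 1 := fun t => (hU.norm t _).trans C.s.nΩ
  have e1 : ∀ t, χ t = ⟪u t C.s.Ω, C.s.π p (u t (C.s.π p⁻¹ C.s.Ω))⟫_ℂ := fun t => by
    have := congrArg (fun T : K →L[ℂ] K => ⟪u t C.s.Ω, T C.s.Ω⟫_ℂ) (hχ t)
    simp only [smul_apply, inner_smul_right, inner_self_eq_norm_sq_to_K, n1] at this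
    simpa using this.symm
  obtain ⟨k, hk⟩ := P092SB.char (χ := χ) (by
    rw [funext e1]
    exact (hU.cont _).inner ((C.s.π p).continuous.comp (hU.cont _))) (fun s t => by
    have h1 := hχ (s + t)
    rw [hU.add, C.s.conj_mul, hχ, hχ, smul_mul_smul_comm, ← hU.add, ← sub_eq_zero,
      ← sub_smul] at h1
    have := congrArg (fun T : K →L[ℂ] K => ‖T C.s.Ω‖) h1
    simp only [smul_apply, norm_smul, n1, zero_apply, norm_zero, mul_one, norm_eq_zero] at this
    exact (sub_eq_zero.1 this).symm) fun t => by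
    have := congrArg (fun T : K →L[ℂ] K => ‖T C.s.Ω‖) (hχ t)
    simp only [smul_apply, norm_smul, n1, mul_ap, C.s.norm_π, hU.norm, C.s.nΩ] at this
    simpa using this.symm
  refine ⟨k, fun t a ha => ?_⟩
  obtain ⟨z, rfl⟩ := (hu t).2 a ha
  rw [mul_smul_comm, smul_mul_assoc, hχ, hk, smul_comm]

end gr

/-- **The speed**, vector form -/
theorem speed' {Z : Type} [MeasurableSpace Z] (C : Cpl μ μ' W) {θ₀ : POM Z K} {ht : Z → ℝ}
    (mht : Measurable ht) {p : G} {k s : ℝ} (e : ∀ t, C.s.π p * θ₀.f (ex t ht) * C.s.π p⁻¹ =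
      Complex.exp (t * k * Complex.I) • θ₀.f (ex t ht)) (ξ : K) {c : ℝ} (hc : 0 < c) {R : ℝ}
    (h : ∀ j : ℕ, c ≤ (θ₀.ν (C.s.π (p ^ j)⁻¹ ξ)).real {z | |ht z - j * s| ≤ R}) : k = s := by
  have e1 : ∀ (j : ℕ) t, C.s.π (p ^ j) * θ₀.f (ex t ht) * C.s.π (p ^ j)⁻¹ =
      Complex.exp (t * (j * k : ℝ) * Complex.I) • θ₀.f (ex t ht) := fun j t => by
    induction j with
    | zero => simp
    | succ j ih =>
      rw [pow_succ, ← C.s.conj_conj, e, mul_smul_comm, smul_mul_assoc, ih, smul_smul,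
        ← Complex.exp_add]
      congr 2
      push_cast
      ring
  refine sub_eq_zero.1 (eq_zero_of_mass ((θ₀.map ht mht).ν ξ) (measure_ne_top _ _)
    (ENNReal.ofReal_pos.2 hc).ne' (R := R) fun j =>
      ENNReal.ofReal_le_of_le_toReal ((h j).trans_eq ?_))
  have m : ∀ d : ℝ, MeasurableSet {v : ℝ | |v + d| ≤ R} := fun d =>
    measurableSet_le (measurable_abs.comp (measurable_add_const d)) measurable_const
  have := congrArg (fun T : K →L[ℂ] K => ⟪ξ, T ξ⟫_ℂ)
    (shift_P (θ₀.map ht mht) (tr C.s (p ^ j) (θ₀.map ht mht)) (e1 j) (m (-(j * s))))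
  simp only [inner_P _ (m _), inner_P _ (measurable_add_const _ (m _)), Complex.ofReal_inj] at this
  refine Eq.trans ?_ (this.trans ?_)
  · exact (map_measureReal_apply mht (m _)).symm
  · rw [Measure.real]
    congr 2
    ext v
    simp only [mem_setOf_eq, mem_preimage]
    ring_nf

variable {Z : Type} [TopologicalSpace Z] [MeasurableSpace Z] [BorelSpace Z]
  [LocallyCompactSpace Z] [T2Space Z] [SecondCountableTopology Z] [MulAction G' Z]
  [ContinuousSMul G' Z] {V : Set G'} {ι : Type} {U : Ultrafilter ι} {ν : ι → Measure G}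
  [∀ n, IsProbabilityMeasure (ν n)] {ζ : ι → Z} {θ : POM Z K}

/-- **Lower bound**, vector form -/
theorem lm_low (h : Lm C U ν V ζ θ) (hV : Bp μ' V) (F : C_c(Z, ℝ)) (h1 : ∀ z, 0 ≤ F z ∧ F z ≤ 1)
    {L : Set Z} (hL : MeasurableSet L) (h0 : ∀ z, z ∉ L → F z = 0) {A : ι → Set G'}
    (hA : ∀ n, MeasurableSet (A n)) {κ : ℝ} (k0 : 0 ≤ κ)
    (hκ : ∀ᶠ n in U, ∀ x, x ∉ A n → κ ≤ wf μ' V (ζ n) F x) {ξ : K} {ε : ℝ}
    (hε : ∀ᶠ n in U, ∀ᵐ g ∂ν n, ‖C.t.P (A n) (C.s.π g⁻¹ ξ)‖ ≤ ε) :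
    κ * (‖ξ‖ ^ 2 - ε ^ 2) ≤ (θ.ν ξ).real L := by
  refine ((h F).re_ge (ξ := ξ) ((hκ.and hε).mono fun n hn => ?_)).trans ?_
  · refine le_trans (by simp) (integral_mono_ae (integrable_const (κ * (‖ξ‖ ^ 2 - ε ^ 2)))
      (int_co C.s _ _ ξ ξ).re (hn.2.mono fun g hg => ?_))
    have b := (Bd.const (κ : ℂ)).sub ((Bd.ind (hA n)).smul κ)
    have e1 : (fun x => ((κ - κ * (A n).indicator 1 x : ℝ) : ℂ)) =
        (fun _ => (κ : ℂ)) - (κ : ℂ) • (A n).indicator 1 :=
      funext fun x => by by_cases a : x ∈ A n <;> simp [a]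
    refine le_trans ?_ (re_m_mono C.t (f := fun x => κ - κ * (A n).indicator 1 x) (e1 ▸ b)
      (bd_wf hV F) (fun x => ?_) _)
    · rw [e1, C.t.m_sub (Bd.const _) ((Bd.ind (hA n)).smul _), C.t.m_const,
        C.t.m_smul _ (Bd.ind (hA n)), ← Side.P, sub_apply, inner_sub_right, smul_apply, smul_apply,
        inner_smul_right, inner_smul_right, Complex.sub_re, Complex.re_ofReal_mul,
        Complex.re_ofReal_mul, re_P _ (hA n), oapp, ← mul_sub]
      refine mul_le_mul_of_nonneg_left (sub_le_sub (le_of_eq ?_)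
        (pow_le_pow_left₀ (norm_nonneg _) hg 2)) k0
      rw [← C.s.norm_π g⁻¹ ξ]
      exact (inner_self_eq_norm_sq (𝕜 := ℂ) _).symm
    · by_cases a : x ∈ A n
      · simpa [a] using wf_nonneg (fun z => (h1 z).1) x
      · simpa [a] using hn.1 x a
  · rw [re_real θ (bd_cc F), ← integral_indicator_one hL]
    refine integral_mono (F.continuous.integrable_of_hasCompactSupport F.hasCompactSupport)
      ((integrable_const 1).indicator hL) fun z => ?_
    by_cases a : z ∈ L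
    · simpa [a] using (h1 z).2
    · simp [a, h0 z a]

end Vale.Agent.P092NW
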