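import Vale.Agent.P092NW.Amp
import Vale.Agent.P092NW.Scl

/-!
P092 (helper21), block B4: true moves of slowly multiplied vectors along a path, with a rate.
-/

set_option linter.all false

open Filter Topology Asymptotics
open scoped InnerProductSpace Pointwise

namespace Vale.Agent.P092NW

open Vale.Agent.P092WN

variable {G Γ H H₀ : Type} [Group G] [TopologicalSpace G] [Group Γ] [NormedAddCommGroup H]
  [InnerProductSpace ℂ H] [CompleteSpace H] [NormedAddCommGroup H₀] [InnerProductSpace ℂ H₀]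
  {S : Sys G Γ H H₀} {len : Γ → ℝ} {r' : ℕ} {gap : Fin r' → Γ → ℝ} {C : ℝ} {T : ℝ → ℝ}

/-- slow under left moves -/
def SlowL (len : Γ → ℝ) (f : Γ → ℝ) (E : Set Γ) (J δ : ℝ) : Prop :=
  ∀ γ ∈ E, ∀ s, len s ≤ J → |f (s * γ) - f γ| ≤ δ

/-- slow under right moves -/
def SlowR (len : Γ → ℝ) (f : Γ → ℝ) (E : Set Γ) (J δ : ℝ) : Prop :=
  ∀ γ ∈ E, ∀ s, len s ≤ J → |f (γ * s) - f γ| ≤ δ

theorem it_it (T : ℝ → ℝ) (i j : ℕ) (x : ℝ) : T^[i] (T^[j] x) = T^[i + j] x :=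
  (Function.iterate_add_apply T i j x).symm

theorem T_it (T : ℝ → ℝ) (j : ℕ) (x : ℝ) : T (T^[j] x) = T^[j + 1] x :=
  (Function.iterate_succ_apply' T j x).symm

theorem add_one_O {α : Type} {l : Filter α} {u f : α → ℝ} (hu : Tendsto u l atTop) (hf : f =O[l] u)
    (c : ℝ) : (fun a => f a + c) =O[l] u := hf.add (lo_const hu c).isBigO

theorem amp_ev (hT : Scale T) (hS : Ex S) (hG : Gp len gap C) (ht : S.Tail len T) {Q : Set G}
    (hQ : IsCompact Q) {z : ℕ → G} (hz0 : z 0 = 1) (hz : ∀ n, z (n + 1) * (z n)⁻¹ ∈ Q) {k : ℕ}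
    {E : ℕ → Set Γ}
    (hE : ∀ᶠ n : ℕ in atTop, S.mass (E n)ᶜ (S.ζ (z n)) ≤ Real.exp (-T^[k] n)) :
    ∃ K ρ : ℕ → ℝ, Md atTop (fun N : ℕ => T^[k + 3] N) K ∧ Sm atTop (fun N : ℕ => T^[2 * k + 8] N) ρ ∧
      ∀ᶠ N : ℕ in atTop, ∀ f : Γ → ℝ, (∀ γ, |f γ| ≤ 1) → (∀ n : ℕ, T^[k + 5] N ≤ n → n ≤ N →
        SlowL len f (E n) (T^[k + 1] n) (Real.exp (-T^[k + 1] n))) →
        ∃ W, S.Am W (K N) ∧ ‖S.m f (S.ζ (z N)) - W‖ ≤ ρ N := by
  have tt := t_top hT nat_top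
  refine ⟨fun N => Real.exp (C * T^[2 * k + 7] N) ^ ⌈T^[k + 5] N⌉₊ * Real.exp (C * T^[2 * k + 7] N),
    fun N => Real.exp (-T^[2 * k + 8] N) + N * (Real.exp (-T^[2 * k + 8] N) +
      Real.exp (C * T^[2 * k + 7] N) * (Real.exp (-T^[2 * k + 6] N) + 2 * Real.exp (-T^[2 * k + 5] N))),
    ?_, ?_, ?_⟩
  · simp only [← Real.exp_nat_mul, ← Real.exp_add]
    refine Md.exp (tt _) (IsLittleO.add ?_ ((t_o hT nat_top (by omega)).const_mul_left C))
    exact t_mul hT nat_top (j := k + 5) (by omega) (ceil_O hT nat_top _)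
      ((t_O hT nat_top (by omega)).const_mul_left C)
  · refine sm_exp'.add (tt _) ((md_x hT nat_top _).mul_sm (sm_exp'.add (tt _) ?_))
    refine Sm.up hT nat_top (i := 2 * k + 6) (by omega) (Md.mul_sm (Md.exp (tt _)
      ((t_o hT nat_top (by omega)).const_mul_left C)) (sm_exp'.add (tt _) ?_))
    exact (Md.const (tt _) 2).mul_sm (Sm.up hT nat_top (by omega) sm_exp')
  · obtain ⟨n₁, hn₁⟩ := eventually_atTop.1 hE
    filter_upwards [(tt (2 * k + 7)).eventually (ap_tail hG ht hQ), (tt (2 * k + 7)).eventually ht.1,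
      (tt (2 * k + 7)).eventually_ge_atTop 1, (tt (k + 5)).eventually_ge_atTop n₁,
      t_le hT nat_top (Nat.zero_le (k + 5)), t_le hT nat_top (show 2 * k + 6 ≤ 2 * k + 7 by omega)]
      with N h1 h2 h3 h4 h5 h6 f hf hs
    rw [T_it T] at h1 h2
    have w : VB S (z 0) (Real.exp (C * T^[2 * k + 7] N)) (Real.exp (-T^[2 * k + 7 + 1] N)) := by
      rw [hz0]; exact (vb_of hG h3 h2.some).some
    refine amp hS (fun n => (h1 _ (hz n)).1.some) w hf (Real.exp_pos _).le (Real.exp_pos _).le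
      (E := E) (Nat.ceil_le.2 h5) fun n a b => ?_
    have a1 : T^[k + 5] N ≤ n := Nat.ceil_le.1 a
    have a2 := it_mono hT k a1
    have a3 := it_mono hT (k + 1) a1
    rw [it_it, show k + (k + 5) = 2 * k + 5 by omega] at a2
    rw [it_it, show k + 1 + (k + 5) = 2 * k + 6 by omega] at a3
    refine ⟨(hn₁ n (by exact_mod_cast h4.trans a1)).trans (Real.exp_le_exp.2 (neg_le_neg a2)),
      fun γ hγ s h => ?_⟩
    exact (hs n a1 b.le γ hγ s (h.trans (h6.trans a3))).trans (Real.exp_le_exp.2 (neg_le_neg a3))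

theorem ui_ev (hT : Scale T) (hS : Ex S) (hG : Gp len gap C) (ht : S.Tail len T) {Q : Set G}
    (hQ : IsCompact Q) (h1Q : (1 : G) ∈ Q) {z : ℕ → G} (hz0 : z 0 = 1)
    (hz : ∀ n, z (n + 1) * (z n)⁻¹ ∈ Q) {k : ℕ} {E : ℕ → Set Γ}
    (hE : ∀ᶠ n : ℕ in atTop, S.mass (E n)ᶜ (S.ζ (z n)) ≤ Real.exp (-T^[k] n)) {ν : ℕ → ℕ}
    (hν : (fun N => (ν N : ℝ)) =O[atTop] fun N : ℕ => T^[k + 2] N) :
    ∃ ρ : ℕ → ℝ, Sm atTop (fun N : ℕ => T^[2 * k + 8] N) ρ ∧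
      ∀ᶠ N : ℕ in atTop, ∀ f : Γ → ℝ, (∀ γ, |f γ| ≤ 1) → (∀ n : ℕ, T^[k + 5] N ≤ n → n ≤ N →
        SlowL len f (E n) (T^[k + 1] n) (Real.exp (-T^[k + 1] n))) → ∀ g ∈ Q ^ ν N,
        ‖S.L g (S.m f (S.ζ (z N))) - S.m f (S.ζ (g * z N))‖ ≤ ρ N ∧
        (SlowR len f (E N) (T^[k + 1] N) (Real.exp (-T^[k + 1] N)) →
          ‖S.R (z N) g (S.m f (S.ζ (z N))) - S.m f (S.ζ (z N * g))‖ ≤ ρ N) := by
  have tt := t_top hT nat_top
  obtain ⟨K, ρ, hK, hρ, h⟩ := amp_ev hT hS hG ht hQ hz0 hz hE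
  have hν1 := add_one_O (tt _) hν 1
  have hJ := t_mul hT nat_top (show k + 1 < k + 2 by omega) hν1 (isBigO_refl _ _)
  have hε : Sm atTop (fun N : ℕ => T^[k + 3] N) fun N => (ν N + 1) * Real.exp (-T^[k + 3] N) :=
    (md_O hT nat_top _ hν1).mul_sm sm_exp'
  refine ⟨fun N => 2 * ρ N + (ν N + 1) * Real.exp (-T^[k + 3] N) * K N +
    ((ν N + 1) * Real.exp (-T^[k + 3] N) + Real.exp (C * ((ν N + 1) * T^[k + 2] N)) *
      (Real.exp (-T^[k + 1] N) + 2 * Real.exp (-T^[k] N))), ?_, ?_⟩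
  · refine (((Md.const (tt _) 2).mul_sm hρ).add (tt _)
      (Sm.up hT nat_top (by omega) (hε.mul hK))).add (tt _)
      ((Sm.up hT nat_top (by omega) hε).add (tt _) (Sm.up hT nat_top (i := k + 1) (by omega) ?_))
    exact (Md.exp (tt _) (hJ.const_mul_left C)).mul_sm (sm_exp'.add (tt _)
      ((Md.const (tt _) 2).mul_sm (Sm.up hT nat_top (by omega) sm_exp')))
  · filter_upwards [h, hE, (tt (k + 2)).eventually (ap_word hS hG ht hQ h1Q), lo_le' (tt _) hJ,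
      t_le hT nat_top (Nat.zero_le (k + 5))] with N h1 h2 h3 h4 h5 f hf hs g hg
    obtain ⟨W, h6, h7⟩ := h1 f hf hs
    have h8 := h3 _ g hg
    rw [T_it T] at h8
    exact ⟨h8.1.some.ui hS hf (Real.exp_pos _).le
      (fun γ hγ s h => hs N h5 le_rfl γ hγ s (h.trans h4)) h2 h6 h7,
      fun hR => h8.2.some.ui hS hf (Real.exp_pos _).le (fun γ hγ s h => hR γ hγ s (h.trans h4)) h2
        h6 h7⟩

end Vale.Agent.P092NW
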