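import Vale.Agent.P092ST.Blocks

/-!
P092 (helper21), block B3, part UP: words, and the two halves of one level.
-/

set_option linter.all false

open scoped InnerProductSpace ENNReal
open MeasureTheory Filter Topology

namespace Vale.Agent.P092NW

open Vale.Agent.P092ST Vale.Agent.P092ST.Amb

section grp

variable {G : Type} [Group G]

theorem wp_flat (w : G → List (G × Bool)) : ∀ l : List G, (∀ g ∈ l, wp (w g) = g) →
    wp (l.flatMap w) = l.prod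
  | [], _ => by simp [wp]
  | g :: l, h => by
    rw [List.flatMap_cons, wp_append, h g List.mem_cons_self,
      wp_flat w l fun a ha => h a (List.mem_cons_of_mem _ ha), List.prod_cons]

theorem len_flat (w : G → List (G × Bool)) (m : ℕ) : ∀ l : List G, (∀ g ∈ l, (w g).length ≤ m) →
    (l.flatMap w).length ≤ m * l.length
  | [], _ => by simp
  | g :: l, h => by
    have h1 := h g List.mem_cons_self
    have h2 := len_flat w m l fun a ha => h a (List.mem_cons_of_mem _ ha)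
    rw [List.flatMap_cons, List.length_append, List.length_cons, mul_add, mul_one]
    omega

theorem conj_prod {ρ : G → ℝ} {D : ℝ} (h0 : 0 ≤ D) : ∀ l : List G,
    (∀ g ∈ l, ∀ v, ρ (g⁻¹ * v * g) ≤ D * ρ v) → ∀ v, ρ (l.prod⁻¹ * v * l.prod) ≤ D ^ l.length * ρ v
  | [], _, v => by simp
  | g :: l, h, v => by
    have h1 := conj_prod h0 l (fun a ha => h a (List.mem_cons_of_mem _ ha)) (g⁻¹ * v * g)
    have e : (g :: l).prod⁻¹ * v * (g :: l).prod = l.prod⁻¹ * (g⁻¹ * v * g) * l.prod := by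
      rw [List.prod_cons]; group
    rw [e, List.length_cons, pow_succ, mul_assoc (D ^ _)]
    exact h1.trans (mul_le_mul_of_nonneg_left (h g List.mem_cons_self v) (pow_nonneg h0 _))

theorem sv_comm {b H : G} (h : b * H = H * b) (r : ℕ) (a : G × Bool) :
    sv b r H a = H⁻¹ * sv b r 1 a * H := by
  have c : Commute (sg b a.2) H := by
    cases a.2
    · exact Commute.inv_left h
    · exact h
  rw [sv, sv, ← (c.pow_left r).eq]; group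

end grp

theorem par_of {q K : ℝ} (q0 : 0 < q) (q1 : q ≤ 1) (hK : 1 ≤ K) :
    Par (q ^ 10) (q ^ 8) (4 * K * q ^ 10) (2 * K * q ^ 8) (2 * K * q ^ 2) := by
  have h1 : K ≤ K ^ 4 := le_self_pow₀ hK (by norm_num)
  have h2 : q ^ 16 ≤ q ^ 10 := pow_le_pow_of_le_one q0.le q1 (by norm_num)
  have h3 : 0 < q ^ 8 := by positivity
  have h4 : 0 < q ^ 10 := by positivity
  refine ⟨h4.le, pow_le_pow_of_le_one q0.le q1 (by norm_num), pow_le_one₀ q0.le q1,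
    by positivity, ?_, ?_⟩
  · calc 6 * (2 * K * q ^ 8) = 12 * K * q ^ 8 := by ring
      _ ≤ 16 * K ^ 4 * q ^ 8 := by gcongr; linarith
      _ = _ := by ring
  · calc 2 * (q ^ 8) ^ 2 + 2 * K * q ^ 2 * q ^ 8 = 2 * q ^ 16 + 2 * K * q ^ 10 := by ring
      _ ≤ _ := by nlinarith

variable {G Γ 𝒦 : Type} [Group G] [TopologicalSpace G] [Group Γ] [NormedAddCommGroup 𝒦]
  [InnerProductSpace ℂ 𝒦] [CompleteSpace 𝒦] {A : Amb G Γ 𝒦} {ρ : G → ℝ} {b : G}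
  {ω f y w x : 𝒦 →L[ℂ] 𝒦} {q J C K : ℝ}

theorem one_sh (hi : ∀ v, ρ v⁻¹ = ρ v) (lip : ∀ v, A.df ω v ≤ C * ρ v) {v : G} {e : ℝ}
    (h : C * ρ v ≤ e) : A.One ω (A.SH v) v e :=
  ⟨deg_SH v, norm_SH v, (lip v).trans h, by
    rw [A.SH_star]; exact (lip v⁻¹).trans (by rwa [hi])⟩

/-- the averaging step followed by the gauge fixing -/
theorem half1 [MeasurableSpace G] {μ : Measure G} (hS : A.Step μ) (hF : A.Fix)
    (h0 : ∀ v, 0 ≤ ρ v) (hi : ∀ v, ρ v⁻¹ = ρ v) (hL : A.Lev ρ b ω f y (q ^ 8) J C) (C0 : 0 ≤ C)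
    (J0 : 0 ≤ J) (q0 : 0 < q) (q1 : q ≤ 1) {Z : Type} [Fintype Z] [Nonempty Z] {h : Z → G}
    {wd : Z → List (G × Bool)} {χ : G → ℝ} {m r N : ℕ} {D δ T : ℝ} (hm : A.Mix (q ^ 10) h)
    (hb : ∀ z, b * h z = h z * b) (hw : ∀ z, wp (wd z) = h z) (hl : ∀ z, (wd z).length ≤ m)
    (hχ : Bump μ χ) (D1 : 1 ≤ D) (hD : ∀ z v, ρ ((h z)⁻¹ * v * h z) ≤ D * ρ v)
    (hs : ∀ z, ∀ a ∈ wd z, ρ (sv b r 1 a) ≤ δ) (hc : ∀ v, χ v ≠ 0 → ρ v ≤ δ)
    (hδ : C * D * δ ≤ (q ^ 8) ^ 2) (hT : ∀ v, ∫ u, |χ (v⁻¹ * u) - χ u| ∂μ ≤ T * ρ v) (T0 : 0 ≤ T)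
    (hK : 4 * m * (2 * r + 1) + 10 ≤ K) (hq : 18 * K ^ 2 * q ≤ 1) (hN : 3⁻¹ ^ N ≤ q ^ 10) :
    ∃ ω1 f1 x1, A.Iso ω1 ∧ A.Room f1 ∧ star f1 * ω1 = 0 ∧ A.n2 (ω1 - ω) ≤ q ∧
      A.Two ω1 x1 b (31 * K ^ 2 * q ^ 8) ∧ A.One ω1 x1 b (26 * K ^ 2 * q ^ 10) ∧
      A.Band ((4 * N + 5) * (K * J)) x1 ∧ ∀ v, A.df ω1 v ≤ 43 * (T + C * D) * ρ v := by
  have K1 : 1 ≤ K := le_trans (by
    have : (0 : ℝ) ≤ 4 * m * (2 * r + 1) := by positivity
    linarith) hK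
  have t : ∀ v, ρ v ≤ δ → A.Tiny ω (q ^ 8) v ∧ ∀ z, A.Tiny ω (q ^ 8) ((h z)⁻¹ * v * h z) :=
    fun v hv => by
      have h1 : C * (D * ρ v) ≤ (q ^ 8) ^ 2 := le_trans (by rw [← mul_assoc]; gcongr) hδ
      exact ⟨one_sh hi hL.lip (le_trans (mul_le_mul_of_nonneg_left
        (le_mul_of_one_le_left (h0 v) D1) C0) h1), fun z =>
        one_sh hi hL.lip ((mul_le_mul_of_nonneg_left (hD z v) C0).trans h1)⟩
  obtain ⟨ωh, ω', x, ι, ho, hι⟩ := hS Z ω y b h wd χ _ _ _ _ _ J K m r hL.iso hL.let' hL.band J0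
    (par_of q0 q1 K1) hm hb hw hl hχ (fun z a ha => ⟨(t _ (hs z a ha)).1, fun u => by
      rw [sv_comm (hb u)]; exact (t _ (hs z a ha)).2 u⟩) (fun v hv => t v (hc v hv)) hK le_rfl
  have p1 : K ≤ K ^ 2 := le_self_pow₀ K1 (by norm_num)
  have p2 : q ^ 10 ≤ q ^ 8 := pow_le_pow_of_le_one q0.le q1 (by norm_num)
  have p3 : q ^ 8 ≤ q * q := by
    rw [← sq]; exact pow_le_pow_of_le_one q0.le q1 (by norm_num)
  have p4 : 0 < q ^ 10 := by positivity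
  have p5 : K * q ^ 8 ≤ K ^ 2 * q ^ 8 := by gcongr
  have p6 : K ^ 2 * q ^ 10 ≤ K ^ 2 * q ^ 8 := by gcongr
  have p7 : q ^ 10 ≤ K ^ 2 * q ^ 10 := le_mul_of_one_le_left p4.le (K1.trans p1)
  have p8 : 18 * (K ^ 2 * q ^ 8) ≤ q := by
    calc _ ≤ 18 * (K ^ 2 * (q * q)) := by gcongr
      _ = 18 * K ^ 2 * q * q := by ring
      _ ≤ q := mul_le_of_le_one_left q0.le hq
  have e : K * (4 * K * q ^ 10) = 4 * (K ^ 2 * q ^ 10) := by ring
  obtain ⟨ω1, f1, x1, i1, i2, i3, i4, i5, i6, i7, i8⟩ := hF ω f ωh ω' x ι b _ _ _ N hL.iso hL.room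
    hL.orth ho (by nlinarith) (by positivity)
  rw [e] at i4 i5 i6
  refine ⟨ω1, f1, x1, i1, i2, i3, by linarith, i5.mono (by linarith), i6.mono (by linarith), i7,
    fun v => ?_⟩
  have r1 : 0 ≤ C * (D * ρ v) := mul_nonneg C0 (mul_nonneg (by linarith) (h0 v))
  have r2 : 0 ≤ T * ρ v := mul_nonneg T0 (h0 v)
  have r3 : C * ρ v ≤ C * (D * ρ v) :=
    mul_le_mul_of_nonneg_left (le_mul_of_one_le_left (h0 v) D1) C0
  have := i8 v (T * ρ v + C * (D * ρ v)) ((hι v).1.trans (by linarith [hT v]))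
    (((hι v).2 _ fun u => (hL.lip _).trans (mul_le_mul_of_nonneg_left (hD u v) C0)).trans
      (by linarith [hT v])) ((hL.lip v).trans (by linarith))
  exact this.trans_eq (by ring)

/-- the statement of `JF` for given constants -/
def JFc (A : Amb G Γ 𝒦) (S : Finset G) (R e0 κ : ℝ) : Prop :=
  ∀ (α : Type) [Fintype α] [Nonempty α] (ω w : 𝒦 →L[ℂ] 𝒦) (c : α → G) (Y : α → 𝒦 →L[ℂ] 𝒦)
    (L : G → 𝒦 →L[ℂ] 𝒦) (e B : ℝ) (m : ℕ), A.Iso ω → A.Iso w →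
    (∀ X, w * A.Pj X = A.Pj X * w) → A.n2 (ω - w) ≤ e0 → A.Mix e c →
    (∀ i, A.Two ω (Y i) (c i) e0 ∧ A.One ω (Y i) (c i) e ∧ A.Band B (Y i)) →
    (∀ g ∈ S, A.One ω (L g) g e ∧ A.Band B (L g)) → R ≤ B → 0 < e → e ≤ e0 → 1 ≤ m →
    2⁻¹ ^ m ≤ e → ∃ P, A.Two ω P 1 (κ * m * e) ∧ A.Band (κ * m ^ 2 * B) P

/-- the new letter -/
theorem half2 {S : Finset G} {R e0 κ a E B K2 : ℝ} (hJ : JFc A S R e0 κ) (hω : A.Iso ω)
    (hw : A.Iso w) (hP : ∀ X, w * A.Pj X = A.Pj X * w) (hc : A.n2 (ω - w) ≤ e0)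
    (h2 : A.Two ω x b a) (h1 : A.One ω x b E) (hB : A.Band B x) (B0 : 0 ≤ B) (E0 : 0 < E)
    {Z : Type} [Fintype Z] [Nonempty Z] {h : Z → G} {wd : Z → List (G × Bool)}
    {w0 : G → List (G × Bool)} {m r M : ℕ} (hm : A.Mix E h) (hwd : ∀ z, wp (wd z) = h z)
    (hl : ∀ z, (wd z).length ≤ m) (hs : ∀ z, ∀ u ∈ wd z, A.One ω (A.SH (sv b r 1 u)) (sv b r 1 u) E)
    (hw0 : ∀ g ∈ S, wp (w0 g) = g ∧ (w0 g).length ≤ m ∧
      ∀ u ∈ w0 g, A.One ω (A.SH (sv b r 1 u)) (sv b r 1 u) E)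
    (hK : m * (2 * r + 1) + 2 ≤ K2) (he : a + K2 * E ≤ e0) (hR : R ≤ B) (M1 : 1 ≤ M)
    (hM : 2⁻¹ ^ M ≤ E) (κ0 : 0 ≤ κ) (hs2 : κ * M * (K2 * E) + E ≤ 1 / 2) :
    ∃ y, A.Let ω y b (15 * (κ * M * (K2 * E) + E)) ∧
      A.Band (3 * (κ * M ^ 2 * (K2 * B) + B)) y := by
  have m0 : (0 : ℝ) ≤ m * (2 * r + 1) := by positivity
  have K1 : 1 ≤ K2 := by linarith
  have k : ∀ l : List (G × Bool), l.length ≤ m → ((l.length * (2 * r + 1) : ℕ) : ℝ) + 2 ≤ K2 :=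
    fun l hl => le_trans (by
      push_cast
      gcongr) hK
  have o : ∀ l : List (G × Bool), l.length ≤ m →
      (∀ u ∈ l, A.One ω (A.SH (sv b r 1 u)) (sv b r 1 u) E) →
      A.One ω (A.Mw b x r 1 l) (wp l) ((K2 - 2) * E) ∧ A.Band ((K2 - 2) * B) (A.Mw b x r 1 l) :=
    fun l hl hu => ⟨((one_Mw hω h1 r 1 l hu).cast (by simp)).mono
      (mul_le_mul_of_nonneg_right (by linarith [k l hl]) E0.le), (band_Mw hB B0 r 1 l).mono
      (mul_le_mul_of_nonneg_right (by linarith [k l hl]) B0)⟩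
  have eE : E ≤ K2 * E := le_mul_of_one_le_left E0.le K1
  obtain ⟨P, p1, p2⟩ := hJ Z ω w h (fun z => x * star x * A.Mw b x r 1 (wd z))
    (fun g => A.Mw b x r 1 (w0 g)) (K2 * E) (K2 * B) M hω hw hP hc (hm.mono eE) (fun z => by
      obtain ⟨o1, o2⟩ := o _ (hl z) (hs z)
      rw [hwd] at o1
      exact ⟨(((h2.mul_one hω h1.star).mul_one hω o1).cast (by simp)).mono (by linarith),
        (((h1.mul hω h1.star).mul hω o1).cast (by simp)).mono (by linarith),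
        ((hB.mul hB.star).mul o2).mono (by linarith)⟩) (fun g hg => by
      obtain ⟨o1, o2⟩ := o _ (hw0 g hg).2.1 (hw0 g hg).2.2
      rw [(hw0 g hg).1] at o1
      exact ⟨o1.mono (by linarith), o2.mono (by linarith)⟩)
    (hR.trans (le_mul_of_one_le_left B0 K1)) (E0.trans_le eE) (by linarith [h2.nonneg]) M1
    (hM.trans eE)
  exact exists_let hω ((p1.mul_one hω h1).cast (one_mul b)) hs2 (p2.mul hB) (by positivity)

end Vale.Agent.P092NW
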